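import Vale.Agent.P153.F.SD.Defs
import Vale.Agent.P153.GFF.Final

/-!
P153, product Schwinger-Dyson: lattice approximations of linear functionals of the heights and
their characteristic functions in the plane.
-/

namespace Vale.Agent.P153.F.SD

open Finset Filter Topology MeasureTheory
open Vale.Agent.P153.GFF (Csts pos wt smear var2 Plane Test gffCov)
open Vale.Agent.P153.CLT (measurable_coord)

/-- Lattice functionals that approximate `∫ h f`. -/
def App (δ : ℕ → ℝ) (f : ℝ × ℝ → ℝ) (w : ℕ → (ℤ × ℤ) →₀ ℝ) : Prop :=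
  ∃ R C : ℝ, 0 < R ∧ 0 ≤ C ∧ ∀ n, (∀ q : ℤ × ℤ, w n q ≠ 0 → |δ n * q.1| ≤ R ∧ |δ n * q.2| ≤ R) ∧
    ∀ q : ℤ × ℤ, |w n q - √3 / 2 * δ n ^ 2 * f (δ n • pos q)| ≤ C * δ n ^ 3

section App

variable {δ : ℕ → ℝ} {f g : ℝ × ℝ → ℝ} {w v : ℕ → (ℤ × ℤ) →₀ ℝ}

lemma App.add (hw : App δ f w) (hv : App δ g v) :
    App δ (fun x => f x + g x) (fun n => w n + v n) := by
  obtain ⟨R, C, hR, hC, h⟩ := hw
  obtain ⟨R', C', hR', hC', h'⟩ := hv
  refine ⟨max R R', C + C', lt_max_of_lt_left hR, by positivity, fun n => ⟨fun q hq => ?_, fun q => ?_⟩⟩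
  · rw [Finsupp.add_apply] at hq
    by_cases h0 : w n q = 0
    · have h1 : v n q ≠ 0 := by
        intro h1
        rw [h0, h1, add_zero] at hq
        exact hq rfl
      have h2 := (h' n).1 q h1
      exact ⟨h2.1.trans (le_max_right _ _), h2.2.trans (le_max_right _ _)⟩
    · have h2 := (h n).1 q h0
      exact ⟨h2.1.trans (le_max_left _ _), h2.2.trans (le_max_left _ _)⟩
  · have h1 := (h n).2 q
    have h2 := (h' n).2 q
    rw [Finsupp.add_apply]
    have e : w n q + v n q - √3 / 2 * δ n ^ 2 * (f (δ n • pos q) + g (δ n • pos q)) =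
        (w n q - √3 / 2 * δ n ^ 2 * f (δ n • pos q)) +
        (v n q - √3 / 2 * δ n ^ 2 * g (δ n • pos q)) := by ring
    rw [e]
    refine (abs_add_le _ _).trans ?_
    rw [add_mul]
    exact add_le_add h1 h2

lemma App.smul (c : ℝ) (hw : App δ f w) : App δ (fun x => c * f x) (fun n => c • w n) := by
  obtain ⟨R, C, hR, hC, h⟩ := hw
  refine ⟨R, |c| * C, hR, by positivity, fun n => ⟨fun q hq => (h n).1 q ?_, fun q => ?_⟩⟩
  · intro h0
    rw [Finsupp.smul_apply, h0, smul_zero] at hq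
    exact hq rfl
  · rw [Finsupp.smul_apply, smul_eq_mul]
    have e : c * w n q - √3 / 2 * δ n ^ 2 * (c * f (δ n • pos q)) =
        c * (w n q - √3 / 2 * δ n ^ 2 * f (δ n • pos q)) := by ring
    rw [e, abs_mul, show |c| * C * δ n ^ 3 = |c| * (C * δ n ^ 3) by ring]
    exact mul_le_mul_of_nonneg_left ((h n).2 q) (abs_nonneg _)

lemma App.sub (hw : App δ f w) (hv : App δ g v) :
    App δ (fun x => f x - g x) (fun n => w n - v n) := by
  have h := hw.add (hv.smul (-1))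
  have e1 : (fun x => f x + -1 * g x) = fun x => f x - g x := by funext x; ring
  have e2 : (fun n => w n + (-1 : ℝ) • v n) = fun n => w n - v n := by
    funext n; ext q; simp [sub_eq_add_neg]
  rwa [e1, e2] at h

lemma rf_apply (w : (ℤ × ℤ) →₀ ℝ) (q : ℤ × ℤ) : rf w q = w (q.1 + q.2, -q.2) := by
  unfold rf
  have hinj : Function.Injective (fun q : ℤ × ℤ => (q.1 + q.2, -q.2)) := by
    intro a b hab
    simp only [Prod.mk.injEq, neg_inj] at hab
    refine Prod.ext ?_ hab.2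
    have := hab.1
    rw [hab.2] at this
    exact add_right_cancel this
  have h := Finsupp.mapDomain_apply hinj w (q.1 + q.2, -q.2)
  simpa using h

lemma pos_rf (q : ℤ × ℤ) (d : ℝ) : d • pos (q.1 + q.2, -q.2) = ((d • pos q).1, -(d • pos q).2) := by
  unfold GFF.pos
  ext
  · simp only [Prod.smul_fst, smul_eq_mul]
    push_cast
    ring
  · simp only [Prod.smul_snd, smul_eq_mul]
    push_cast
    ring

lemma App.rf (hw : App δ f w) : App δ (fun x => f (x.1, -x.2)) (fun n => SD.rf (w n)) := by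
  obtain ⟨R, C, hR, hC, h⟩ := hw
  refine ⟨2 * R, C, by positivity, hC, fun n => ⟨fun q hq => ?_, fun q => ?_⟩⟩
  · rw [rf_apply] at hq
    obtain ⟨h1, h2⟩ := (h n).1 _ hq
    simp only [Int.cast_neg, mul_neg, abs_neg] at h2
    refine ⟨?_, h2.trans (by linarith)⟩
    have e : δ n * (q.1 : ℝ) = δ n * ((q.1 + q.2 : ℤ) : ℝ) - δ n * q.2 := by push_cast; ring
    rw [e]
    refine (abs_sub _ _).trans ?_
    linarith
  · rw [rf_apply]
    have h1 := (h n).2 (q.1 + q.2, -q.2)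
    rw [pos_rf] at h1
    exact h1

end App

variable {P : Measure Fld}

/-- Linear growth of the variance. -/
theorem grow_all {c : ℝ} (h : Tendsto (fun x : ℤ × ℤ => var2 P x / Real.log (GFF.len x)) cofinite
    (𝓝 c)) : ∃ A, 0 ≤ A ∧ ∀ x : ℤ × ℤ, var2 P x ≤ A * (1 + |(x.1 : ℝ)| + |(x.2 : ℝ)|) := by
  have hV0 : ∀ p : ℤ × ℤ, 0 ≤ var2 P p := fun p => integral_nonneg fun φ => sq_nonneg _
  have h1 := h.eventually (Metric.ball_mem_nhds c one_pos)
  rw [Filter.eventually_cofinite] at h1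
  set T : Finset (ℤ × ℤ) := h1.toFinset ∪ (Finset.Icc (-1) 1 ×ˢ Finset.Icc (-1) 1) with hT
  refine ⟨2 * (|c| + 1) + ∑ p ∈ T, var2 P p,
    add_nonneg (by positivity) (Finset.sum_nonneg fun p _ => hV0 p), fun x => ?_⟩
  have hS : 0 ≤ ∑ p ∈ T, var2 P p := Finset.sum_nonneg fun p _ => hV0 p
  have hx : 0 ≤ |(x.1 : ℝ)| + |(x.2 : ℝ)| := by positivity
  by_cases hp : x ∈ T
  · have h2 : var2 P x ≤ ∑ p ∈ T, var2 P p :=
      Finset.single_le_sum (f := fun p : ℤ × ℤ => var2 P p) (fun p _ => hV0 p) hp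
    have h3 : 0 ≤ |c| := abs_nonneg c
    nlinarith [mul_nonneg h3 hx, mul_nonneg hS hx]
  · rw [hT, Finset.mem_union, not_or, Set.Finite.mem_toFinset, Set.mem_ofPred_eq, not_not,
      Real.dist_eq] at hp
    obtain ⟨h2, h3⟩ := hp
    have hjz : 1 < |x.1| ∨ 1 < |x.2| := by
      by_contra hcon
      rw [not_or, not_lt, not_lt, abs_le, abs_le] at hcon
      apply h3
      rw [Finset.mem_product, Finset.mem_Icc, Finset.mem_Icc]
      exact hcon
    have h4 : (3 : ℝ) ≤ (x.1 : ℝ) ^ 2 + x.1 * x.2 + (x.2 : ℝ) ^ 2 := by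
      rcases hjz with h | h
      · have h5 : (2 : ℝ) ≤ |(x.1 : ℝ)| := by exact_mod_cast h
        have h6 : (4 : ℝ) ≤ (x.1 : ℝ) ^ 2 := by
          rw [← sq_abs]
          nlinarith
        nlinarith [sq_nonneg ((x.1 : ℝ) + 2 * x.2)]
      · have h5 : (2 : ℝ) ≤ |(x.2 : ℝ)| := by exact_mod_cast h
        have h6 : (4 : ℝ) ≤ (x.2 : ℝ) ^ 2 := by
          rw [← sq_abs]
          nlinarith
        nlinarith [sq_nonneg ((x.2 : ℝ) + 2 * x.1)]
    have h5 : 3 / 2 ≤ GFF.len x := by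
      unfold GFF.len
      rw [Real.le_sqrt' (by norm_num)]
      linarith
    have h6 : 0 < Real.log (GFF.len x) := Real.log_pos (by linarith)
    have h7 : var2 P x / Real.log (GFF.len x) ≤ |c| + 1 := by
      have := abs_lt.1 h2
      linarith [this.2, le_abs_self c]
    rw [div_le_iff₀ h6] at h7
    have h8 : Real.log (GFF.len x) ≤ GFF.len x :=
      (Real.log_le_sub_one_of_pos (by linarith)).trans (by linarith)
    have h9 : GFF.len x ≤ 2 * (|(x.1 : ℝ)| + |(x.2 : ℝ)|) := by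
      unfold GFF.len
      rw [Real.sqrt_le_left (by positivity)]
      have := le_abs_self ((x.1 : ℝ) * x.2)
      rw [abs_mul] at this
      nlinarith [sq_abs (x.1 : ℝ), sq_abs (x.2 : ℝ), abs_nonneg (x.1 : ℝ), abs_nonneg (x.2 : ℝ),
        mul_nonneg (abs_nonneg (x.1 : ℝ)) (abs_nonneg (x.2 : ℝ))]
    have h10 : var2 P x ≤ (|c| + 1) * (2 * (|(x.1 : ℝ)| + |(x.2 : ℝ)|)) :=
      h7.trans (mul_le_mul_of_nonneg_left (h8.trans h9) (by positivity))
    nlinarith [mul_nonneg hS hx, abs_nonneg c]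

/-- The lattice functional is close to the integral: one mesh. -/
theorem app_close1 (hP : Plane P) {A : ℝ} (hA0 : 0 ≤ A)
    (hA : ∀ x : ℤ × ℤ, var2 P x ≤ A * (1 + |(x.1 : ℝ)| + |(x.2 : ℝ)|)) {f : ℝ × ℝ → ℝ} {K : ℝ}
    (hf : Csts f K) {R C d : ℝ} (hR : 0 < R) (hC : 0 ≤ C) (hd : 0 < d) (hd1 : d ≤ 1)
    {w : (ℤ × ℤ) →₀ ℝ} (h1 : ∀ q : ℤ × ℤ, w q ≠ 0 → |d * q.1| ≤ R ∧ |d * q.2| ≤ R)
    (h2 : ∀ q : ℤ × ℤ, |w q - √3 / 2 * d ^ 2 * f (d • pos q)| ≤ C * d ^ 3) :
    ∫ φ, (ev w (pth φ) - smear (pth φ) d f) ^ 2 ∂P ≤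
      (2 * (C + 2 * K)) ^ 2 * ((2 * (R + 2 * K + 7) + 3) ^ 4 *
        (A * (2 * (R + 2 * K + 7) + 3))) * d ∧
    Integrable (fun φ => (ev w (pth φ) - smear (pth φ) d f) ^ 2) P ∧
    Measurable (fun φ => ev w (pth φ)) ∧ Measurable (fun φ => smear (pth φ) d f) := by
  classical
  have hK := hf.pos
  set M : ℝ := R + 2 * K + 7 with hM
  have hMp : 0 < M := by positivity
  set U : Finset (ℤ × ℤ) := Finset.Icc (-⌈M / d⌉) ⌈M / d⌉ ×ˢ Finset.Icc (-⌈M / d⌉) ⌈M / d⌉ with hU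
  have hi : 1 ≤ 1 / d := by
    rw [le_div_iff₀ hd]
    linarith
  have hmem : ∀ q : ℤ × ℤ, |(q.1 : ℝ)| ≤ M / d → |(q.2 : ℝ)| ≤ M / d → q ∈ U := by
    intro q ha hb
    have hc : M / d ≤ ⌈M / d⌉ := Int.le_ceil _
    rw [hU, Finset.mem_product, Finset.mem_Icc, Finset.mem_Icc]
    rw [abs_le] at ha hb
    refine ⟨⟨?_, ?_⟩, ?_, ?_⟩
    · have : (-⌈M / d⌉ : ℝ) ≤ q.1 := by linarith
      exact_mod_cast this
    · have : (q.1 : ℝ) ≤ ⌈M / d⌉ := by linarith
      exact_mod_cast this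
    · have : (-⌈M / d⌉ : ℝ) ≤ q.2 := by linarith
      exact_mod_cast this
    · have : (q.2 : ℝ) ≤ ⌈M / d⌉ := by linarith
      exact_mod_cast this
  have hMd : M / d = R * (1 / d) + 2 * (K / d) + 7 * (1 / d) := by rw [hM]; ring
  have hKd : 0 ≤ K / d := by positivity
  have hRd : 0 ≤ R * (1 / d) := by positivity
  have hw : ∀ q, w q ≠ 0 → q ∈ U := by
    intro q hq
    have h := h1 q hq
    rw [abs_mul, abs_mul, abs_of_pos hd] at h
    have key : ∀ a : ℝ, d * a ≤ R → a ≤ M / d := by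
      intro a ha
      have : a ≤ R / d := by rw [le_div_iff₀ hd]; linarith [mul_comm d a]
      have e : R / d = R * (1 / d) := by ring
      rw [hMd]
      linarith
    exact hmem q (key _ h.1) (key _ h.2)
  have hwt : ∀ q, wt d f q ≠ 0 → q ∈ U := by
    intro q hq
    obtain ⟨a, b⟩ := GFF.wt_supp hf hd q hq
    exact hmem q (a.trans (by rw [hMd]; linarith)) (b.trans (by rw [hMd]; linarith))
  have e1 : ∀ φ : Fld, ev w (pth φ) = ∑ q ∈ U, (2 * w q) * (φ q : ℝ) := by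
    intro φ
    unfold ev
    rw [Finsupp.sum_of_support_subset w (s := U) (fun q hq => hw q (Finsupp.mem_support_iff.1 hq))
      _ (fun q _ => by simp)]
    refine Finset.sum_congr rfl fun q _ => ?_
    unfold pth
    push_cast
    ring
  have e2 : ∀ φ : Fld, smear (pth φ) d f = ∑ q ∈ U, (2 * wt d f q) * (φ q : ℝ) := by
    intro φ
    rw [GFF.smear_finsum hf hd, finsum_eq_sum_of_support_subset (s := U)]
    · refine Finset.sum_congr rfl fun q _ => ?_
      unfold pth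
      push_cast
      ring
    · intro q hq
      refine hwt q fun h0 => hq ?_
      show ((pth φ q : ℤ) : ℝ) * wt d f q = 0
      rw [h0, mul_zero]
  have e3 : ∀ φ : Fld, ev w (pth φ) - smear (pth φ) d f =
      ∑ q ∈ U, (2 * (w q - wt d f q)) * (φ q : ℝ) := by
    intro φ
    rw [e1, e2, ← Finset.sum_sub_distrib]
    refine Finset.sum_congr rfl fun q _ => ?_
    ring
  refine ⟨?_, ?_, ?_, ?_⟩
  · simp_rw [e3]
    have h5 := GFF.sum_small hP U (fun q => q) (fun q => 2 * (w q - wt d f q))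
      (m := 2 * (C + 2 * K) * d ^ 3) (v := A * (2 * M + 3) / d) (fun q _ => by
        have h6 := GFF.wt_close hf hd q (d • pos q) 0 (by simp)
        have h7 : |wt d f q - √3 / 2 * d ^ 2 * f (d • pos q)| ≤ 2 * K * d ^ 3 := by
          have e : wt d f q - √3 / 2 * d ^ 2 * f (d • pos q) =
              d ^ 2 * (wt d f q / d ^ 2 - √3 / 2 * f (d • pos q)) := by
            field_simp
          rw [e, abs_mul, abs_of_pos (by positivity : (0 : ℝ) < d ^ 2)]
          refine (mul_le_mul_of_nonneg_left h6 (by positivity)).trans (le_of_eq ?_)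
          ring
        have e : 2 * (w q - wt d f q) = 2 * ((w q - √3 / 2 * d ^ 2 * f (d • pos q)) -
            (wt d f q - √3 / 2 * d ^ 2 * f (d • pos q))) := by ring
        rw [e, abs_mul, abs_two]
        have := (abs_sub (w q - √3 / 2 * d ^ 2 * f (d • pos q))
          (wt d f q - √3 / 2 * d ^ 2 * f (d • pos q))).trans (add_le_add (h2 q) h7)
        refine (mul_le_mul_of_nonneg_left this zero_le_two).trans (le_of_eq ?_)
        ring) (fun q hq => by
        rw [hU, Finset.mem_product, Finset.mem_Icc, Finset.mem_Icc] at hq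
        refine (hA q).trans ?_
        have hc : (⌈M / d⌉ : ℝ) < M / d + 1 := Int.ceil_lt_add_one _
        have a1 : |(q.1 : ℝ)| ≤ ⌈M / d⌉ := by
          rw [abs_le]
          constructor
          · exact_mod_cast hq.1.1
          · exact_mod_cast hq.1.2
        have a2 : |(q.2 : ℝ)| ≤ ⌈M / d⌉ := by
          rw [abs_le]
          constructor
          · exact_mod_cast hq.2.1
          · exact_mod_cast hq.2.2
        have h6 : A * (2 * M + 3) / d = A * (2 * (M / d) + 3 * (1 / d)) := by ring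
        rw [h6]
        apply mul_le_mul_of_nonneg_left _ hA0
        linarith)
    refine h5.trans ?_
    have hc0 : (0 : ℝ) ≤ U.card := by positivity
    have hcard := GFF.card_box hMp hd hd1
    rw [← hU] at hcard
    have q4 : (U.card : ℝ) ^ 2 ≤ (((2 * M + 3) / d) ^ 2) ^ 2 := pow_le_pow_left₀ hc0 hcard 2
    have q5 : (U.card : ℝ) ^ 2 * (A * (2 * M + 3) / d) ≤
        (((2 * M + 3) / d) ^ 2) ^ 2 * (A * (2 * M + 3) / d) :=
      mul_le_mul_of_nonneg_right q4 (by positivity)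
    refine (mul_le_mul_of_nonneg_left q5 (by positivity)).trans (le_of_eq ?_)
    field_simp
  · simp_rw [e3]
    exact GFF.sq_int hP U (fun q => q) _
  · simp_rw [e1]
    exact Finset.measurable_sum _ fun q _ => (measurable_coord q).const_mul _
  · simp_rw [e2]
    exact Finset.measurable_sum _ fun q _ => (measurable_coord q).const_mul _

/-- Comparison of characteristic functions. -/
lemma char_close2 [IsProbabilityMeasure P] {X Y : Fld → ℝ} (hX : Measurable X) (hY : Measurable Y)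
    (hi : Integrable (fun φ => (X φ - Y φ) ^ 2) P) {ε : ℝ} (hε : 0 < ε) :
    ‖(∫ φ, Complex.exp (Complex.I * (X φ : ℂ)) ∂P) -
      ∫ φ, Complex.exp (Complex.I * (Y φ : ℂ)) ∂P‖ ≤ ε + ε⁻¹ * ∫ φ, (X φ - Y φ) ^ 2 ∂P := by
  rw [← integral_sub (GFF.int_exp hX) (GFF.int_exp hY)]
  have h3 : ∫ φ, (ε + ε⁻¹ * (X φ - Y φ) ^ 2) ∂P = ε + ε⁻¹ * ∫ φ, (X φ - Y φ) ^ 2 ∂P := by
    rw [integral_add (integrable_const _) (hi.const_mul _), integral_const_mul]
    simp
  rw [← h3]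
  apply norm_integral_le_of_norm_le ((integrable_const _).add (hi.const_mul _))
  refine ae_of_all _ fun φ => ?_
  refine (GFF.norm_exp_sub _ _).trans ?_
  show |X φ - Y φ| ≤ ε + ε⁻¹ * (X φ - Y φ) ^ 2
  rw [← sq_abs]
  set u := |X φ - Y φ| with hu
  have hu0 : 0 ≤ u := abs_nonneg _
  have h4 : ε * (ε + ε⁻¹ * u ^ 2) = ε ^ 2 + u ^ 2 := by
    field_simp
  have h5 : ε * u ≤ ε * (ε + ε⁻¹ * u ^ 2) := by
    rw [h4]
    nlinarith [sq_nonneg (ε - u)]
  exact le_of_mul_le_mul_left h5 hε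

/-- The Gaussian limit in the plane, for the even heights. -/
def CLT (P : Measure Fld) (κ : ℝ) : Prop := ∀ F : ℝ × ℝ → ℝ, Test F →
  Tendsto (fun δ : ℝ => ∫ φ, Complex.exp (Complex.I * ((smear (pth φ) δ F : ℝ) : ℂ)) ∂P) (𝓝[>] 0)
    (𝓝 (Complex.exp (-((κ * gffCov F F / 2 : ℝ) : ℂ))))

/-- Characteristic functions of the lattice functionals. -/
theorem app_char (hP : Plane P) {A : ℝ} (hA0 : 0 ≤ A)
    (hA : ∀ x : ℤ × ℤ, var2 P x ≤ A * (1 + |(x.1 : ℝ)| + |(x.2 : ℝ)|)) {κ : ℝ} (hclt : CLT P κ)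
    {δ : ℕ → ℝ} (hδ : Tendsto δ atTop (𝓝[>] 0)) {g : ℝ × ℝ → ℝ} (hg : Test g)
    {v : ℕ → (ℤ × ℤ) →₀ ℝ} (hv : App δ g v) :
    Tendsto (fun n => ∫ φ, Complex.exp (Complex.I * ((ev (v n) (pth φ) : ℝ) : ℂ)) ∂P) atTop
      (𝓝 (Complex.exp (-((κ * gffCov g g / 2 : ℝ) : ℂ)))) := by
  have := hP.prob
  obtain ⟨K, hK⟩ := hg.csts
  obtain ⟨R, C, hR, hC, hv⟩ := hv
  have hpos : ∀ᶠ n in atTop, 0 < δ n := hδ.eventually self_mem_nhdsWithin
  have hle : ∀ᶠ n in atTop, δ n ≤ 1 :=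
    hδ.eventually (mem_nhdsWithin_of_mem_nhds (Iic_mem_nhds one_pos))
  have h2 := (hclt g hg).comp hδ
  set B : ℝ := (2 * (C + 2 * K)) ^ 2 * ((2 * (R + 2 * K + 7) + 3) ^ 4 *
    (A * (2 * (R + 2 * K + 7) + 3))) with hB
  have t1 : Tendsto (fun n => (1 + B) * √(δ n)) atTop (𝓝 0) := by
    have h0 : Tendsto δ atTop (𝓝 0) := tendsto_nhds_of_tendsto_nhdsWithin hδ
    have := (Real.continuous_sqrt.tendsto 0).comp h0
    rw [Real.sqrt_zero] at this
    simpa using this.const_mul (1 + B)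
  have h3 : Tendsto (fun n => ∫ φ, Complex.exp (Complex.I * ((ev (v n) (pth φ) : ℝ) : ℂ)) ∂P -
      ∫ φ, Complex.exp (Complex.I * ((smear (pth φ) (δ n) g : ℝ) : ℂ)) ∂P) atTop (𝓝 0) := by
    refine squeeze_zero_norm' ?_ t1
    filter_upwards [hpos, hle] with n hn hn1
    obtain ⟨c1, c2, c3, c4⟩ := app_close1 hP hA0 hA hK hR hC hn hn1 (hv n).1 (hv n).2
    have hs : 0 < √(δ n) := Real.sqrt_pos.2 hn
    refine (char_close2 c3 c4 c2 hs).trans ?_
    have h5 : (√(δ n))⁻¹ * ∫ φ, (ev (v n) (pth φ) - smear (pth φ) (δ n) g) ^ 2 ∂P ≤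
        (√(δ n))⁻¹ * (B * δ n) := mul_le_mul_of_nonneg_left c1 (by positivity)
    have h6 : (√(δ n))⁻¹ * (B * δ n) = B * √(δ n) := by
      have h7 : δ n = √(δ n) * √(δ n) := (Real.mul_self_sqrt hn.le).symm
      calc (√(δ n))⁻¹ * (B * δ n) = (√(δ n))⁻¹ * (B * (√(δ n) * √(δ n))) := by rw [← h7]
        _ = B * √(δ n) := by field_simp
    linarith
  have h4 := h3.add h2
  rw [zero_add] at h4
  refine h4.congr fun n => ?_
  simp only [Function.comp_apply]
  ring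

/-- The plane theorem in the form used here. -/
theorem clt_of {κ' : ℝ} (hP : Plane P) (hS : GFF.SpecOut P κ') (hC : GFF.RowCLT P κ') :
    CLT P (4 * κ' / √3) ∧
      ∃ A, 0 ≤ A ∧ ∀ x : ℤ × ℤ, var2 P x ≤ A * (1 + |(x.1 : ℝ)| + |(x.2 : ℝ)|) := by
  refine ⟨fun F hF => ?_, grow_all (GFF.var_lim hP hS)⟩
  have h1 := GFF.char_fun hP hS hC (GFF.test_two hF)
  rw [GFF.gffCov_two] at h1
  have h2 : κ' / √3 * (4 * gffCov F F) / 2 = 4 * κ' / √3 * gffCov F F / 2 := by ring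
  rw [h2] at h1
  refine h1.congr fun δ => ?_
  congr 1
  ext φ
  rw [← GFF.smear_dbl]
  rfl

end Vale.Agent.P153.F.SD
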