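import Vale.Agent.P153.F.SD.SLeg

/-!
P153, product Schwinger-Dyson: symmetries and reflection positivity of the height law of the plane
measure, and the legs in the six directions of the triangular lattice.
-/

namespace Vale.Agent.P153.F.SD

open Finset Filter Topology MeasureTheory

variable {P : Measure Fld}

/-- the height law is invariant under `pb g` -/
def Sy (P : Measure Fld) (g : ℤ × ℤ → ℤ × ℤ) : Prop := (mu0 P).map (pb g) = mu0 P

theorem Sy.comp {g g' : ℤ × ℤ → ℤ × ℤ} (h : Sy P g) (h' : Sy P g') :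
    Sy P (fun q => g (g' q)) := by
  have e : pb (fun q => g (g' q)) = pb g' ∘ pb g := rfl
  unfold Sy at *
  rw [e, ← Measure.map_map (measurable_pb _) (measurable_pb _), h, h']

theorem Sy.of_grad {g : ℤ × ℤ → ℤ × ℤ} (hg : P.map (fun φ x => φ (g x) - φ (g 0)) = P) :
    Sy P g := by
  have hgm : Measurable (fun (φ : Fld) (x : ℤ × ℤ) => φ (g x) - φ (g 0)) :=
    measurable_pi_lambda _ fun x => (measurable_pi_apply _).sub (measurable_pi_apply _)
  refine Measure.ext_of_lintegral _ fun f hf => ?_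
  rw [lintegral_map hf (measurable_pb g)]
  have e0 := lintegral_mu0 (P := P) (F := fun h => f (pb g h)) (hf.comp (measurable_pb g))
  rw [e0, lintegral_mu0 hf]
  have hm : Measurable fun ω : Fld => ∑' k : ℤ, f (fun q => pth ω q + 2 * k) :=
    Measurable.ennreal_tsum fun k => hf.comp (measurable_hk k)
  conv_rhs => rw [← hg]
  rw [lintegral_map hm hgm]
  refine lintegral_congr fun ω => ?_
  rw [← (Equiv.addRight (ω (g 0))).tsum_eq (fun k : ℤ => f (fun q =>
    pth (fun x => ω (g x) - ω (g 0)) q + 2 * k))]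
  refine tsum_congr fun k => ?_
  congr 1
  funext q
  simp only [pb, pth, Equiv.coe_addRight]
  ring

theorem Sy.of_lin {g : ℤ × ℤ → ℤ × ℤ} (hz : ∀ᵐ φ ∂P, φ 0 = 0) (h0 : g 0 = 0)
    (hg : P.map (fun φ x => φ (g x)) = P) : Sy P g := by
  apply Sy.of_grad
  conv_rhs => rw [← hg]
  refine Measure.map_congr ?_
  filter_upwards [hz] with φ hφ
  funext x
  rw [h0, hφ, sub_zero]

theorem sy_shift (hP : GFF.Plane P) (a : ℤ × ℤ) : Sy P (fun q => q + a) := by
  apply Sy.of_grad
  have e : (fun (φ : Fld) (x : ℤ × ℤ) => φ (x + a) - φ (0 + a)) = GFF.shift a := by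
    funext φ x
    simp only [GFF.shift, zero_add]
  rw [e]
  exact hP.shift a

theorem sy_rot (hP : GFF.Plane P) : Sy P GFF.rot :=
  Sy.of_lin hP.zero (by simp [GFF.rot]) hP.rot

theorem sy_swap (hP : GFF.Plane P) : Sy P (fun q => (q.2, q.1)) :=
  Sy.of_lin hP.zero (by simp) hP.swap

theorem sy_dY (hP : GFF.Plane P) (m : ℤ) : Sy P (dY.θ m) := by
  have h := (sy_shift hP (-m, 2 * m)).comp ((sy_swap hP).comp (sy_rot hP))
  have e : (fun q : ℤ × ℤ => ((fun q => ((fun q : ℤ × ℤ => (q.2, q.1)) (GFF.rot q))) q) +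
      (-m, 2 * m)) = dY.θ m := by
    funext q
    ext <;> simp [GFF.rot, dY] <;> ring
  rw [← e]
  exact h

theorem sy_dX (hP : GFF.Plane P) (m : ℤ) : Sy P (dX.θ m) := by
  have h := (sy_shift hP (2 * m, -m)).comp ((sy_rot hP).comp (sy_swap hP))
  have e : (fun q : ℤ × ℤ => GFF.rot ((fun q : ℤ × ℤ => (q.2, q.1)) q) + (2 * m, -m)) =
      dX.θ m := by
    funext q
    ext <;> simp [GFF.rot, dX] <;> ring
  rw [← e]
  exact h

theorem sy_dA (hP : GFF.Plane P) (m : ℤ) : Sy P (dA.θ m) := by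
  have h := (sy_shift hP (m, m)).comp
    ((sy_rot hP).comp ((sy_rot hP).comp ((sy_rot hP).comp (sy_swap hP))))
  have e : (fun q : ℤ × ℤ => GFF.rot (GFF.rot (GFF.rot ((fun q : ℤ × ℤ => (q.2, q.1)) q))) +
      (m, m)) = dA.θ m := by
    funext q
    ext <;> simp [GFF.rot, dA] <;> ring
  rw [← e]
  exact h

/-! ### directions -/

theorem good_dY : dY.Good := by
  refine ⟨?_, ?_, ?_, ?_, ?_, ?_⟩
  · intro q r; simp [dY]
  · simp [dY]
  · intro m q; simp [dY]
  · intro m q; ext <;> simp [dY]; ring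
  · intro m q; ext <;> simp [dY] <;> ring
  · intro m q; ext <;> simp [dY] <;> ring

theorem good_dX : dX.Good := by
  refine ⟨?_, ?_, ?_, ?_, ?_, ?_⟩
  · intro q r; simp [dX]
  · simp [dX]
  · intro m q; simp [dX]
  · intro m q; ext <;> simp [dX]; ring
  · intro m q; ext <;> simp [dX] <;> ring
  · intro m q; ext <;> simp [dX] <;> ring

theorem good_dA : dA.Good := by
  refine ⟨?_, ?_, ?_, ?_, ?_, ?_⟩
  · intro q r; simp [dA]; ring
  · simp [dA]
  · intro m q; simp [dA]; ring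
  · intro m q; ext <;> simp [dA]
  · intro m q; ext <;> simp [dA] <;> ring
  · intro m q; ext <;> simp [dA] <;> ring

theorem Dir.Good.neg {D : Dir} (hD : D.Good) : D.neg.Good := by
  have hneg : ∀ q, D.l (-q) = - D.l q := by
    intro q
    have h0 : D.l 0 = 0 := by
      have := hD.l_add 0 0
      rw [add_zero] at this
      omega
    have := hD.l_add q (-q)
    rw [add_neg_cancel, h0] at this
    omega
  refine ⟨?_, ?_, ?_, ?_, ?_, ?_⟩
  · intro q r
    show - D.l (q + r) = - D.l q + - D.l r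
    rw [hD.l_add]; ring
  · show - D.l (- D.s) = 2
    rw [hneg, hD.l_s]; norm_num
  · intro m q
    show - D.l (D.θ (-m) q) = 2 * m - - D.l q
    rw [hD.l_θ]; ring
  · intro m q
    show D.θ (-m) (D.θ (-m) q) = q
    exact hD.θθ _ _
  · intro m q
    show D.θ (-m) (q + - D.s) = D.θ (-m) q - - D.s
    have := hD.θ_s (-m) (q + - D.s)
    rw [neg_add_cancel_right] at this
    rw [this, sub_neg_eq_add, sub_add_cancel]
  · intro m q
    show D.θ (-(m + 1)) q = D.θ (-m) q + - D.s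
    have := hD.θ_succ (-(m + 1)) q
    rw [show -(m + 1) + 1 = -m by ring] at this
    rw [this, add_neg_cancel_right]

/-! ### reflection positivity -/

/-- reflection positivity in one line -/
def RPm (P : Measure Fld) (D : Dir) (m : ℤ) : Prop :=
  ∀ F : Hgt → ℝ, Adm P {q | m ≤ D.l q} F → 0 ≤ ∫ h, F h * F (pb (D.θ m) h) ∂(mu0 P)

theorem RPm.transfer {D D' : Dir} {m m' : ℤ} (h : RPm P D m) {g : ℤ × ℤ → ℤ × ℤ} (hg : Sy P g)
    (hl : ∀ q, m' ≤ D'.l q → m ≤ D.l (g q)) (hθ : ∀ q, D.θ m (g q) = g (D'.θ m' q)) :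
    RPm P D' m' := by
  intro F hF
  have h1 := h (fun h => F (pb g h)) (hF.pull hl hg)
  have hm : Measurable (fun h => F h * F (pb (D'.θ m') h)) :=
    hF.measurable.mul (hF.measurable.comp (measurable_pb _))
  rw [← int_pull hg hm]
  refine le_trans h1 (le_of_eq ?_)
  congr 1
  funext h
  have e : pb g (pb (D.θ m) h) = pb (D'.θ m') (pb g h) := by
    funext q
    show h (D.θ m (g q)) = h (g (D'.θ m' q))
    rw [hθ]
  rw [e]

theorem rpm_zero (hP : GFF.Plane P) : RPm P dY 0 := by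
  intro F hF
  have hθ : Adm P Set.univ (fun h => F (pb (dY.θ 0) h)) :=
    hF.pull (fun _ _ => trivial) (sy_dY hP 0)
  have hi : Integrable (fun h => F h * F (pb (dY.θ 0) h)) (mu0 P) :=
    hF.memLp.integrable_mul hθ.memLp
  have hs := hasSum_mu0 hi
  refine hs.nonneg fun k => ?_
  obtain ⟨C, hC⟩ := hF.bdd
  have h1 := hP.rp (fun φ => F (fun q => pth φ q + 2 * k))
    (hF.measurable.comp (measurable_hk k)) ⟨C, fun φ => hC _⟩ (by
      intro φ ψ hφ
      obtain ⟨Λ, hΛ, hloc⟩ := hF.loc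
      refine hloc _ _ fun q hq => ?_
      have : (0 : ℤ) ≤ q.2 := hΛ q hq
      simp only [pth, hφ q this])
  refine le_trans h1 (le_of_eq ?_)
  congr 1
  funext φ
  congr 2
  funext q
  simp only [pb, pth, dY, GFF.th, mul_zero, zero_sub, sub_zero]

theorem rpm_dY (hP : GFF.Plane P) (m : ℤ) : RPm P dY m := by
  refine (rpm_zero hP).transfer (g := fun q => q + (0, -m)) (sy_shift hP _) ?_ ?_
  · intro q hq
    have : m ≤ q.2 := hq
    show 0 ≤ (q + (0, -m)).2
    simp only [Prod.snd_add]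
    linarith
  · intro q
    ext <;> simp [dY] <;> ring

theorem rpm_dA (hP : GFF.Plane P) (m : ℤ) : RPm P dA m := by
  refine (rpm_dY hP m).transfer (g := GFF.rot) (sy_rot hP) ?_ ?_
  · intro q hq
    exact hq
  · intro q
    ext <;> simp [dY, dA, GFF.rot] <;> ring

theorem rpm_dX (hP : GFF.Plane P) (m : ℤ) : RPm P dX m := by
  refine (rpm_dY hP m).transfer (g := fun q => GFF.rot (GFF.rot q))
    ((sy_rot hP).comp (sy_rot hP)) ?_ ?_
  · intro q hq
    have : m ≤ q.1 := hq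
    show m ≤ (GFF.rot (GFF.rot q)).2
    simp only [GFF.rot]
    linarith
  · intro q
    ext <;> simp [dY, dX, GFF.rot] <;> ring

theorem rp_neg {D : Dir} (hD : D.Good) (hI : ∀ m, Sy P (D.θ m)) (hR : ∀ m, RPm P D m) (m : ℤ) :
    RPm P D.neg m := by
  refine (hR (-m)).transfer (g := D.θ (-m)) (hI (-m)) ?_ ?_
  · intro q hq
    have : m ≤ - D.l q := hq
    rw [hD.l_θ]
    linarith
  · intro q
    rfl

/-- all legs on the triangular lattice -/
theorem legs_T (hP : GFF.Plane P) :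
    (∀ a : ℤ × ℤ, (mu0 P).map (pb (fun q => q + a)) = mu0 P) ∧
    (∀ D ∈ [dX, dY, dA, dX.neg, dY.neg, dA.neg], LegLim P D) ∧ Inv P dY ∧ RP P dY := by
  have hs : ∀ a : ℤ × ℤ, (mu0 P).map (pb (fun q => q + a)) = mu0 P := sy_shift hP
  have key : ∀ D : Dir, D.Good → (∀ m, Sy P (D.θ m)) → (∀ m, RPm P D m) →
      LegLim P D ∧ LegLim P D.neg := by
    intro D hD hI hR
    refine ⟨s_leg hD ⟨hI, hs _⟩ hR, s_leg hD.neg ⟨fun m => hI (-m), hs _⟩ (rp_neg hD hI hR)⟩
  refine ⟨hs, ?_, ⟨sy_dY hP, hs _⟩, rpm_dY hP⟩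
  intro D hD
  simp only [List.mem_cons, List.not_mem_nil, or_false] at hD
  rcases hD with rfl | rfl | rfl | rfl | rfl | rfl
  · exact (key _ good_dX (sy_dX hP) (rpm_dX hP)).1
  · exact (key _ good_dY (sy_dY hP) (rpm_dY hP)).1
  · exact (key _ good_dA (sy_dA hP) (rpm_dA hP)).1
  · exact (key _ good_dX (sy_dX hP) (rpm_dX hP)).2
  · exact (key _ good_dY (sy_dY hP) (rpm_dY hP)).2
  · exact (key _ good_dA (sy_dA hP) (rpm_dA hP)).2

end Vale.Agent.P153.F.SD
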