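import Vale.Agent.P153.GFF.Interface

/-!
P153, bounded domains: product form of the Schwinger-Dyson (null) property for the plane measure of
the uniform Lipschitz model on the triangular lattice: definitions.

`pth φ = 2 φ` are the even heights (steps `0, ±2`); `mu0 P` is the law of the absolute heights: the
law of `2 φ` times counting measure on the even constants. A direction `D : Dir` consists of a
linear form `D.l`, the reflections `D.θ m` in the lines `D.l = m` and the translation `D.s`;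
`D.l D.s = 2`.
-/

namespace Vale.Agent.P153.F.SD

open Finset Filter Topology MeasureTheory

/-- Absolute heights. -/
abbrev Hgt : Type := ℤ × ℤ → ℤ

/-- Fields of the plane measure. -/
abbrev Fld : Type := ℤ × ℤ → ℤ

/-- Even heights. -/
def pth (φ : Fld) : Hgt := fun q => 2 * φ q

/-- Law of the even heights times counting measure on the even constants. -/
noncomputable def mu0 (P : Measure Fld) : Measure Hgt :=
  Measure.sum fun k : ℤ => P.map (fun φ q => pth φ q + 2 * k)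

/-- Pull-back of a height function along a map of the lattice. -/
def pb (g : ℤ × ℤ → ℤ × ℤ) (h : Hgt) : Hgt := fun q => h (g q)

/-- Directions. -/
structure Dir where
  l : ℤ × ℤ → ℤ
  θ : ℤ → ℤ × ℤ → ℤ × ℤ
  s : ℤ × ℤ

/-- Rows. -/
def dY : Dir := ⟨fun q => q.2, fun m q => (q.1 + q.2 - m, 2 * m - q.2), (-1, 2)⟩

/-- Lines `q.1 = m`. -/
def dX : Dir := ⟨fun q => q.1, fun m q => (2 * m - q.1, q.1 + q.2 - m), (2, -1)⟩

/-- Lines `q.1 + q.2 = m`. -/
def dA : Dir := ⟨fun q => q.1 + q.2, fun m q => (m - q.2, m - q.1), (1, 1)⟩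

/-- Opposite direction. -/
def Dir.neg (D : Dir) : Dir := ⟨fun q => - D.l q, fun m q => D.θ (-m) q, - D.s⟩

/-- Algebraic properties of a direction. -/
structure Dir.Good (D : Dir) : Prop where
  l_add : ∀ q r, D.l (q + r) = D.l q + D.l r
  l_s : D.l D.s = 2
  l_θ : ∀ m q, D.l (D.θ m q) = 2 * m - D.l q
  θθ : ∀ m q, D.θ m (D.θ m q) = q
  θ_s : ∀ m q, D.θ m (q + D.s) = D.θ m q - D.s
  θ_succ : ∀ m q, D.θ (m + 1) q = D.θ m q + D.s

/-- The functional `F` depends only on the heights of finitely many vertices of `A`. -/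
def Loc {R : Type} (A : Set (ℤ × ℤ)) (F : Hgt → R) : Prop :=
  ∃ Λ : Finset (ℤ × ℤ), (∀ q ∈ Λ, q ∈ A) ∧ ∀ h h' : Hgt, (∀ q ∈ Λ, h q = h' q) → F h = F h'

/-- Admissible functionals: local in `A`, bounded, integrable. -/
structure Adm {R : Type} [NormedAddCommGroup R] (P : Measure Fld) (A : Set (ℤ × ℤ))
    (F : Hgt → R) : Prop where
  loc : Loc A F
  bdd : ∃ C : ℝ, ∀ h, ‖F h‖ ≤ C
  int : Integrable F (mu0 P)

/-- Translate of a functional by `n • D.s`. -/
def tr {R : Type} (D : Dir) (n : ℕ) (F : Hgt → R) : Hgt → R :=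
  fun h => F (pb (fun q => q + n • D.s) h)

/-- The height law is invariant under the reflections and the translation of `D`. -/
def Inv (P : Measure Fld) (D : Dir) : Prop :=
  (∀ m, (mu0 P).map (pb (D.θ m)) = mu0 P) ∧ (mu0 P).map (pb (fun q => q + D.s)) = mu0 P

/-- Reflection positivity. -/
def RP (P : Measure Fld) (D : Dir) : Prop :=
  ∀ (m : ℤ) (F : Hgt → ℝ), Adm P {q | m ≤ D.l q} F → 0 ≤ ∫ h, F h * F (pb (D.θ m) h) ∂(mu0 P)

/-- Extrapolation along a direction, for complex functionals: if the two groups `G n`, `F n` are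
separated by a strip of width `2 N n` and the integral tends to zero when `F n` is translated by
`k * N n` steps for every large integer `k`, it tends to zero for `k = 0`. -/
def LegLim (P : Measure Fld) (D : Dir) : Prop :=
  ∀ (N : ℕ → ℕ) (m : ℕ → ℤ) (F G : ℕ → Hgt → ℂ) (C : ℝ),
    (∀ n, Adm P {q | m n + 2 * N n ≤ D.l q} (F n)) → (∀ n, Adm P {q | D.l q ≤ m n} (G n)) →
    (∀ n, ∫ h, ‖F n h‖ ^ 2 ∂(mu0 P) ≤ C) → (∀ n, ∫ h, ‖G n h‖ ^ 2 ∂(mu0 P) ≤ C) →
    (∃ k0 : ℕ, ∀ k, k0 ≤ k →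
      Tendsto (fun n => ∫ h, G n h * tr D (k * N n) (F n) h ∂(mu0 P)) atTop (𝓝 0)) →
    (∀ n, 1 ≤ N n) →
    Tendsto (fun n => ∫ h, G n h * F n h ∂(mu0 P)) atTop (𝓝 0)

/-- Linear functionals of the heights. -/
noncomputable def ev (w : (ℤ × ℤ) →₀ ℝ) (h : Hgt) : ℝ := w.sum fun q a => a * (h q : ℝ)

/-- Total mass. -/
noncomputable def mass (w : (ℤ × ℤ) →₀ ℝ) : ℝ := w.sum fun _ a => a

/-- Reflection in the row `0`. -/
noncomputable def rf (w : (ℤ × ℤ) →₀ ℝ) : (ℤ × ℤ) →₀ ℝ := w.mapDomain fun q => (q.1 + q.2, - q.2)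

/-- The null functional. -/
noncomputable def Yf (w u : (ℤ × ℤ) →₀ ℝ) (α : ℝ) (h : Hgt) : ℂ :=
  Complex.exp (Complex.I * (ev w h : ℂ)) * (Complex.exp (Complex.I * (ev u h : ℂ)) - (α : ℂ))

/-- Macroscopic input: Gaussian limits of the neutral functionals built from `w n`, `u n`, `φ n`
and their reflections. -/
structure SDseq (P : Measure Fld) (w u φ : ℕ → (ℤ × ℤ) →₀ ℝ) (α : ℝ) : Prop where
  mu : ∀ n, mass (u n) = 0
  mφ : ∀ n, mass (φ n) = 1
  lim : ∃ L : ℝ → ℝ → ℝ → ℂ,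
    (∀ s t z : ℝ, (s = 0 ∨ s = 1) → (t = 0 ∨ t = 1) →
      Tendsto (fun n => ∫ ω, Complex.exp (Complex.I * ((ev (w n - rf (w n) + s • u n - t • rf (u n)
        + z • (rf (φ n) - φ n)) (pth ω) : ℝ) : ℂ)) ∂P) atTop (𝓝 (L s t z))) ∧
    (∀ t z : ℝ, (t = 0 ∨ t = 1) → L 1 t z = α * L 0 t z) ∧
    (∀ s z : ℝ, (s = 0 ∨ s = 1) → L s 1 z = α * L s 0 z)

/-- Tightness of `ev (φ n)` relative to `G n`. -/
def Tight (P : Measure Fld) (φ : ℕ → (ℤ × ℤ) →₀ ℝ) (G : ℕ → Hgt → ℂ) : Prop :=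
  ∀ ε > 0, ∃ K0 : ℝ, ∀ K ≥ K0, ∀ᶠ n in atTop,
    ∫ h, ‖G n h‖ * (1 - Real.exp (-((ev (φ n) h) ^ 2 / (2 * K ^ 2)))) ∂(mu0 P) ≤ ε

/-- Localised null functional. -/
noncomputable def Wf (w u φ : (ℤ × ℤ) →₀ ℝ) (α K : ℝ) (h : Hgt) : ℂ :=
  Yf w u α h * ((Real.exp (-((ev φ h) ^ 2 / (2 * K ^ 2))) : ℝ) : ℂ)

end Vale.Agent.P153.F.SD
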