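import Vale.Agent.P153.F.SD.Hp4

/-! P153, product Schwinger-Dyson: the half-plane statement for the unlocalised null functional. -/

namespace Vale.Agent.P153.F.SD

open Finset Filter Topology MeasureTheory
open Vale.Agent.P145.FA (gauss_sum PolyBdd LegForm extrap)

/-- H1 with the invariance as an additional input. -/
theorem s_hp {P : Measure (Fld)} [IsProbabilityMeasure P] (hI : Inv P dY) (hR : RP P dY)
    (w u φ : ℕ → (ℤ × ℤ) →₀ ℝ) (α : ℝ) (hS : SDseq P w u φ α)
    (hsupp : ∀ n, ∀ q, q ∈ (w n).support ∨ q ∈ (u n).support ∨ q ∈ (φ n).support → 0 ≤ q.2)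
    (G : ℕ → Hgt → ℂ) (C : ℝ) (hG : ∀ n, Adm P {q | q.2 ≤ 0} (G n)) (hG1 : ∀ n h, ‖G n h‖ ≤ 1)
    (hGC : ∀ n, ∫ h, ‖G n h‖ ∂(mu0 P) ≤ C) (hT : Tight P φ G) :
    Tendsto (fun n => ∫ h, Yf (w n) (u n) α h * G n h ∂(mu0 P)) atTop (𝓝 0) := by
  obtain ⟨e, he, hmain⟩ := hp_main P hI hR w u φ α hS hsupp
  have hC0 : 0 ≤ C := (integral_nonneg fun h => norm_nonneg _).trans (hGC 0)
  rw [Metric.tendsto_nhds]
  intro ε hε
  set A : ℝ := 1 + |α| with hA
  have hA1 : 1 ≤ A := by rw [hA]; linarith [abs_nonneg α]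
  obtain ⟨K0, hK0⟩ := hT (ε / (4 * A)) (by positivity)
  -- choice of K
  have hev1 : ∀ᶠ K : ℝ in atTop, K ^ 2 * e K ≤ (ε / 4) ^ 2 / (2 * (C + 1)) := by
    have h := (Metric.tendsto_nhds.1 he) ((ε / 4) ^ 2 / (2 * (C + 1))) (by positivity)
    filter_upwards [h] with K hK
    rw [Real.dist_eq, sub_zero] at hK
    exact (le_abs_self _).trans hK.le
  obtain ⟨K, hK1, hK2, hK3⟩ := (hev1.and ((eventually_ge_atTop (1 : ℝ)).and
    (eventually_ge_atTop K0))).exists
  have heK : e K ≤ (ε / 4) ^ 2 / (2 * (C + 1)) := by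
    rcases le_or_gt (e K) 0 with h0 | h0
    · exact h0.trans (by positivity)
    · refine le_trans ?_ hK1
      have : (1 : ℝ) ≤ K ^ 2 := one_le_pow₀ hK2
      nlinarith
  obtain ⟨-, hW⟩ := hmain K hK2
  filter_upwards [hW ((ε / 4) ^ 2 / (2 * (C + 1))) (by positivity), hK0 K hK3] with n h1 h2
  have h3 := h1 (G n) (hG n)
  have hmg : Measurable fun h : Hgt => Real.exp (-((ev (φ n) h) ^ 2 / (2 * K ^ 2))) :=
    Real.measurable_exp.comp (((measurable_ev _).pow_const 2).div_const _).neg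
  have hle1 : ∀ h : Hgt, Real.exp (-((ev (φ n) h) ^ 2 / (2 * K ^ 2))) ≤ 1 := fun h =>
    Real.exp_le_one_iff.2 (neg_nonpos.2 (by positivity))
  have hint := (hG n).int
  have hsq : ∫ h, ‖G n h‖ ^ 2 ∂(mu0 P) ≤ C := by
    refine (integral_mono_of_nonneg (Eventually.of_forall fun h => sq_nonneg _) hint.norm
      (Eventually.of_forall fun h => ?_)).trans (hGC n)
    simp only
    have := hG1 n h
    nlinarith [norm_nonneg (G n h)]
  have hsq0 : 0 ≤ ∫ h, ‖G n h‖ ^ 2 ∂(mu0 P) := integral_nonneg fun h => sq_nonneg _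
  -- first part
  have hp1 : ‖∫ h, Wf (w n) (u n) (φ n) α K h * G n h ∂(mu0 P)‖ ≤ ε / 4 := by
    have h4 : ‖∫ h, Wf (w n) (u n) (φ n) α K h * G n h ∂(mu0 P)‖ ^ 2 ≤ (ε / 4) ^ 2 := by
      refine h3.trans ?_
      have h5 : e K + (ε / 4) ^ 2 / (2 * (C + 1)) ≤ (ε / 4) ^ 2 / (C + 1) := by
        have : (ε / 4) ^ 2 / (C + 1) = (ε / 4) ^ 2 / (2 * (C + 1)) +
            (ε / 4) ^ 2 / (2 * (C + 1)) := by field_simp; ring
        rw [this]
        linarith
      calc (e K + (ε / 4) ^ 2 / (2 * (C + 1))) * ∫ h, ‖G n h‖ ^ 2 ∂(mu0 P)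
          ≤ (ε / 4) ^ 2 / (C + 1) * ∫ h, ‖G n h‖ ^ 2 ∂(mu0 P) :=
            mul_le_mul_of_nonneg_right h5 hsq0
        _ ≤ (ε / 4) ^ 2 / (C + 1) * (C + 1) :=
            mul_le_mul_of_nonneg_left (by linarith) (by positivity)
        _ = (ε / 4) ^ 2 := by field_simp
    exact le_of_sq_le_sq h4 (by positivity) |> fun h => h
  -- splitting
  have hYi : Integrable (fun h => Yf (w n) (u n) α h * G n h) (mu0 P) :=
    hint.bdd_mul (measurable_Yf _ _ _).aestronglyMeasurable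
      (Eventually.of_forall (norm_Yf _ _ _))
  have hWi : Integrable (fun h => Wf (w n) (u n) (φ n) α K h * G n h) (mu0 P) := by
    refine hint.bdd_mul (c := A) (measurable_Wf _ _ _ _ _).aestronglyMeasurable
      (Eventually.of_forall fun h => ?_)
    exact (norm_Wf _ _ _ _ _ _).trans (mul_le_of_le_one_right (by positivity) (hle1 h))
  have hdiff : ‖∫ h, Yf (w n) (u n) α h * G n h ∂(mu0 P) -
      ∫ h, Wf (w n) (u n) (φ n) α K h * G n h ∂(mu0 P)‖ ≤ ε / 4 := by
    rw [← integral_sub hYi hWi]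
    have hti : Integrable (fun h => A * (‖G n h‖ *
        (1 - Real.exp (-((ev (φ n) h) ^ 2 / (2 * K ^ 2)))))) (mu0 P) := by
      refine Integrable.const_mul ?_ _
      have := hint.norm.bdd_mul (c := 1) (f := fun h : Hgt =>
        1 - Real.exp (-((ev (φ n) h) ^ 2 / (2 * K ^ 2))))
        (measurable_const.sub hmg).aestronglyMeasurable (Eventually.of_forall fun h => by
          rw [Real.norm_eq_abs, abs_le]
          constructor
          · linarith [hle1 h]
          · linarith [Real.exp_pos (-((ev (φ n) h) ^ 2 / (2 * K ^ 2)))])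
      refine this.congr (Eventually.of_forall fun h => ?_)
      simp only
      ring
    refine (norm_integral_le_of_norm_le hti (Eventually.of_forall fun h => ?_)).trans ?_
    · have e1 : Yf (w n) (u n) α h * G n h - Wf (w n) (u n) (φ n) α K h * G n h =
          Yf (w n) (u n) α h * G n h *
            ((1 - Real.exp (-((ev (φ n) h) ^ 2 / (2 * K ^ 2))) : ℝ) : ℂ) := by
        unfold Wf
        push_cast
        ring
      rw [e1, norm_mul, norm_mul, Complex.norm_real, Real.norm_eq_abs,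
        abs_of_nonneg (by linarith [hle1 h]), mul_assoc]
      exact mul_le_mul_of_nonneg_right (norm_Yf _ _ _ _)
        (mul_nonneg (norm_nonneg _) (by linarith [hle1 h]))
    · rw [integral_const_mul]
      calc A * ∫ h, ‖G n h‖ * (1 - Real.exp (-((ev (φ n) h) ^ 2 / (2 * K ^ 2)))) ∂(mu0 P)
          ≤ A * (ε / (4 * A)) := mul_le_mul_of_nonneg_left h2 (by positivity)
        _ = ε / 4 := by field_simp
  rw [dist_eq_norm, sub_zero]
  calc ‖∫ h, Yf (w n) (u n) α h * G n h ∂(mu0 P)‖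
      = ‖(∫ h, Yf (w n) (u n) α h * G n h ∂(mu0 P) -
        ∫ h, Wf (w n) (u n) (φ n) α K h * G n h ∂(mu0 P)) +
        ∫ h, Wf (w n) (u n) (φ n) α K h * G n h ∂(mu0 P)‖ := by rw [sub_add_cancel]
    _ ≤ ε / 4 + ε / 4 := (norm_add_le _ _).trans (add_le_add hdiff hp1)
    _ < ε := by linarith

end Vale.Agent.P153.F.SD
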