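import Vale.Agent.P153.F.SD.Base
import Vale.Agent.P153.F.SD.Hp5

/-!
P153, product Schwinger-Dyson: product form of the null property on the triangular lattice, from
the half-plane statement by four legs.
-/

namespace Vale.Agent.P153.F.SD

open Finset Filter Topology MeasureTheory

/-- translate of a functional -/
def sf (a : ℤ × ℤ) (F : Hgt → ℂ) : Hgt → ℂ := fun h => F (pb (fun q => q + a) h)

theorem sf_zero (F : Hgt → ℂ) : sf 0 F = F := by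
  funext h
  exact congrArg F (by funext q; simp [pb])

theorem tr_sf (D : Dir) (n : ℕ) (a : ℤ × ℤ) (F : Hgt → ℂ) (h : Hgt) :
    sf a F (pb (fun q => q + n • D.s) h) = sf (a + n • D.s) F h := by
  refine congrArg F ?_
  funext q
  show h (q + a + n • D.s) = h (q + (a + n • D.s))
  rw [add_assoc]

theorem Loc.measurableC {A : Set (ℤ × ℤ)} {F : Hgt → ℂ} (h : Loc A F) : Measurable F := by
  classical
  obtain ⟨s, -, hs⟩ := h
  let g : (s → ℤ) → ℂ := fun y => F (fun x => if hx : x ∈ s then y ⟨x, hx⟩ else 0)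
  have hg : Measurable g := measurable_of_countable g
  have hF : F = g ∘ (fun h : Hgt => fun x : s => h x) := by
    funext ω
    apply hs
    intro x hx
    simp [hx]
  rw [hF]
  exact hg.comp (measurable_pi_lambda _ fun x => measurable_pi_apply _)

variable {P : Measure (Fld)}

/-- product of an admissible functional and a bounded local one -/
theorem Adm.mulLoc {A : Set (ℤ × ℤ)} {F G : Hgt → ℂ} (hF : Adm P A F) (hG : Loc A G) {B : ℝ}
    (hB : ∀ h, ‖G h‖ ≤ B) : Adm P A (fun h => F h * G h) := by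
  obtain ⟨C, hC⟩ := hF.bdd
  refine ⟨hF.loc.comp₂ hG (fun a b => a * b), ⟨C * B, fun h => ?_⟩, ?_⟩
  · rw [norm_mul]
    exact mul_le_mul (hC h) (hB h) (norm_nonneg _) ((norm_nonneg _).trans (hC h))
  · exact hF.int.mul_bdd hG.measurableC.aestronglyMeasurable (Eventually.of_forall hB)

theorem Adm.sf {A A' : Set (ℤ × ℤ)} {F : Hgt → ℂ} (hF : Adm P A F) {a : ℤ × ℤ}
    (ha : ∀ x ∈ A, x + a ∈ A') (hm : (mu0 P).map (pb (fun q => q + a)) = mu0 P) :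
    Adm P A' (sf a F) := by
  obtain ⟨C, hC⟩ := hF.bdd
  refine ⟨hF.loc.pull ha, ⟨C, fun h => hC _⟩, ?_⟩
  have := hF.int
  rw [← hm] at this
  exact this.comp_measurable (measurable_pbS _)

theorem int_norm_sf {F : Hgt → ℂ} (hF : Measurable F) {a : ℤ × ℤ}
    (hm : (mu0 P).map (pb (fun q => q + a)) = mu0 P) :
    ∫ h, ‖sf a F h‖ ∂(mu0 P) = ∫ h, ‖F h‖ ∂(mu0 P) := by
  have := integral_map (μ := mu0 P) (measurable_pbS (fun q => q + a)).aemeasurable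
    (f := fun h => ‖F h‖) hF.norm.aestronglyMeasurable
  rw [hm] at this
  exact this.symm

section gen

variable {K1 K2 K3 KQ : ℕ → Set (ℤ × ℤ)} {N : ℕ → ℕ} {Y G1 G2 G3 : ℕ → Hgt → ℂ} {B C : ℝ}

/-- the statement with groups 1, 2 translated by `N w1`, `N w2` -/
def TT (P : Measure Fld) (N : ℕ → ℕ) (Y G1 G2 G3 : ℕ → Hgt → ℂ) (w1 w2 : ℤ × ℤ) : Prop :=
  Tendsto (fun n => ∫ h, (Y n h * G3 n h) * (sf (N n • w1) (G1 n) h * sf (N n • w2) (G2 n) h)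
    ∂(mu0 P)) atTop (𝓝 0)

/-- one leg: group 1 is moved, group 2 is moved according to `c2` -/
theorem legGen
    (hinv : ∀ a : ℤ × ℤ, (mu0 P).map (pb (fun q => q + a)) = mu0 P)
    (hN : ∀ n, 1 ≤ N n)
    (hY : ∀ n, Loc (KQ n) (Y n)) (hYB : ∀ n h, ‖Y n h‖ ≤ B)
    (hG1 : ∀ n, Adm P (K1 n) (G1 n)) (hG2 : ∀ n, Loc (K2 n) (G2 n))
    (hG3 : ∀ n, Adm P (K3 n) (G3 n))
    (b1 : ∀ n h, ‖G1 n h‖ ≤ 1) (b2 : ∀ n h, ‖G2 n h‖ ≤ 1) (b3 : ∀ n h, ‖G3 n h‖ ≤ 1)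
    (i1 : ∀ n, ∫ h, ‖G1 n h‖ ∂(mu0 P) ≤ C) (i3 : ∀ n, ∫ h, ‖G3 n h‖ ∂(mu0 P) ≤ C)
    (D : Dir) (hL : LegLim P D) (c2 : Bool) (w1 w2 : ℤ × ℤ) (m : ℕ → ℤ)
    (hQ : ∀ n, ∀ q ∈ KQ n, D.l q ≤ m n) (h3 : ∀ n, ∀ q ∈ K3 n, D.l q ≤ m n)
    (h1 : ∀ n, ∀ q ∈ K1 n, m n + 2 * N n ≤ D.l (q + N n • w1))
    (h2 : ∀ n, ∀ q ∈ K2 n, if c2 then m n + 2 * N n ≤ D.l (q + N n • w2) else
      D.l (q + N n • w2) ≤ m n)
    (hlim : ∃ k0 : ℕ, ∀ k, k0 ≤ k → TT P N Y G1 G2 G3 (w1 + k • D.s)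
      (w2 + if c2 then k • D.s else 0)) :
    TT P N Y G1 G2 G3 w1 w2 := by
  have hC0 : 0 ≤ C := (integral_nonneg fun h => norm_nonneg _).trans (i1 0)
  have hB0 : 0 ≤ B := (norm_nonneg _).trans (hYB 0 (fun _ => 0))
  let F : ℕ → Hgt → ℂ := fun n h => sf (N n • w1) (G1 n) h *
    (if c2 then sf (N n • w2) (G2 n) h else 1)
  let G : ℕ → Hgt → ℂ := fun n h => (G3 n h * Y n h) *
    (if c2 then 1 else sf (N n • w2) (G2 n) h)
  have hone : ∀ A : Set (ℤ × ℤ), Loc A (fun _ : Hgt => (1 : ℂ)) := fun A =>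
    ⟨∅, by simp, fun _ _ _ => rfl⟩
  have n2a : ∀ n h, ‖(if c2 then sf (N n • w2) (G2 n) h else 1 : ℂ)‖ ≤ 1 := by
    intro n h
    split_ifs
    · exact b2 n _
    · simp
  have n2b : ∀ n h, ‖(if c2 then 1 else sf (N n • w2) (G2 n) h : ℂ)‖ ≤ 1 := by
    intro n h
    split_ifs
    · simp
    · exact b2 n _
  -- the moved factor
  have hF : ∀ n, Adm P {q | m n + 2 * N n ≤ D.l q} (F n) := by
    intro n
    have a1 : Adm P {q | m n + 2 * N n ≤ D.l q} (sf (N n • w1) (G1 n)) :=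
      (hG1 n).sf (h1 n) (hinv _)
    have l2 : Loc {q | m n + 2 * N n ≤ D.l q}
        (fun h => if c2 then sf (N n • w2) (G2 n) h else 1) := by
      cases c2
      · simpa using hone _
      · simp only [if_true] at h2 ⊢
        exact (hG2 n).pull (h2 n)
    exact a1.mulLoc l2 (B := 1) (n2a n)
  have hG : ∀ n, Adm P {q | D.l q ≤ m n} (G n) := by
    intro n
    have a4 : Adm P {q | D.l q ≤ m n} (fun h => G3 n h * Y n h) :=
      ((hG3 n).mono (h3 n)).mulLoc ((hY n).monoS (hQ n)) (hYB n)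
    have l2 : Loc {q | D.l q ≤ m n}
        (fun h => if c2 then 1 else sf (N n • w2) (G2 n) h) := by
      cases c2
      · simp only [Bool.false_eq_true, if_false] at h2 ⊢
        exact (hG2 n).pull (h2 n)
      · simpa using hone _
    exact a4.mulLoc l2 (B := 1) (n2b n)
  have hFn : ∀ n, ∫ h, ‖F n h‖ ^ 2 ∂(mu0 P) ≤ C + B ^ 2 * C := by
    intro n
    have hi : Integrable (sf (N n • w1) (G1 n)) (mu0 P) :=
      ((hG1 n).sf (A' := Set.univ) (fun _ _ => trivial) (hinv _)).int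
    calc ∫ h, ‖F n h‖ ^ 2 ∂(mu0 P) ≤ ∫ h, ‖sf (N n • w1) (G1 n) h‖ ∂(mu0 P) := by
          apply integral_mono (hF n).sq_int hi.norm
          intro h
          have hb : ‖sf (N n • w1) (G1 n) h‖ ≤ 1 := b1 n _
          have hle : ‖F n h‖ ≤ ‖sf (N n • w1) (G1 n) h‖ := by
            show ‖_ * _‖ ≤ _
            rw [norm_mul]
            exact mul_le_of_le_one_right (norm_nonneg _) (n2a n h)
          show ‖F n h‖ ^ 2 ≤ _
          nlinarith [norm_nonneg (F n h), norm_nonneg (sf (N n • w1) (G1 n) h)]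
      _ = ∫ h, ‖G1 n h‖ ∂(mu0 P) :=
          int_norm_sf (hG1 n).loc.measurableC (hinv _)
      _ ≤ C := i1 n
      _ ≤ C + B ^ 2 * C := by nlinarith [mul_nonneg (sq_nonneg B) hC0]
  have hGn : ∀ n, ∫ h, ‖G n h‖ ^ 2 ∂(mu0 P) ≤ C + B ^ 2 * C := by
    intro n
    calc ∫ h, ‖G n h‖ ^ 2 ∂(mu0 P) ≤ ∫ h, B ^ 2 * ‖G3 n h‖ ∂(mu0 P) := by
          apply integral_mono (hG n).sq_int ((hG3 n).int.norm.const_mul _)
          intro h
          have hle : ‖G n h‖ ≤ ‖G3 n h‖ * B := by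
            show ‖_ * _ * _‖ ≤ _
            rw [norm_mul, norm_mul]
            calc _ ≤ ‖G3 n h‖ * ‖Y n h‖ * 1 := by
                  apply mul_le_mul_of_nonneg_left _ (by positivity)
                  exact n2b n h
              _ ≤ _ := by
                  rw [mul_one]
                  exact mul_le_mul_of_nonneg_left (hYB n h) (norm_nonneg _)
          have h5 := b3 n h
          show ‖G n h‖ ^ 2 ≤ B ^ 2 * ‖G3 n h‖
          calc ‖G n h‖ ^ 2 ≤ (‖G3 n h‖ * B) ^ 2 := by gcongr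
            _ = B ^ 2 * (‖G3 n h‖ * ‖G3 n h‖) := by ring
            _ ≤ B ^ 2 * ‖G3 n h‖ := by
                apply mul_le_mul_of_nonneg_left _ (sq_nonneg B)
                exact mul_le_of_le_one_right (norm_nonneg _) h5
      _ = B ^ 2 * ∫ h, ‖G3 n h‖ ∂(mu0 P) := integral_const_mul _ _
      _ ≤ B ^ 2 * C := mul_le_mul_of_nonneg_left (i3 n) (sq_nonneg B)
      _ ≤ C + B ^ 2 * C := by linarith
  have key := hL N m F G (C + B ^ 2 * C) hF hG hFn hGn ?_ hN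
  · refine key.congr fun n => ?_
    congr 1
    funext h
    show (G3 n h * Y n h) * (if c2 then 1 else sf (N n • w2) (G2 n) h) *
      (sf (N n • w1) (G1 n) h * (if c2 then sf (N n • w2) (G2 n) h else 1)) = _
    cases c2 <;>
      simp only [Bool.false_eq_true, if_true, if_false, mul_one, one_mul] <;> ring
  · obtain ⟨k0, hk⟩ := hlim
    refine ⟨k0, fun k hk0 => (hk k hk0).congr fun n => ?_⟩
    congr 1
    funext h
    have hs : ∀ w : ℤ × ℤ, N n • (w + k • D.s) = N n • w + (k * N n) • D.s := by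
      intro w
      rw [smul_add, smul_smul, mul_comm (N n) k]
    show _ = (G3 n h * Y n h) * (if c2 then 1 else sf (N n • w2) (G2 n) h) *
      (sf (N n • w1) (G1 n) (pb (fun q => q + (k * N n) • D.s) h) *
        (if c2 then sf (N n • w2) (G2 n) (pb (fun q => q + (k * N n) • D.s) h) else 1))
    simp only [tr_sf]
    cases c2 <;>
      simp only [Bool.false_eq_true, if_true, if_false, mul_one, one_mul, add_zero, hs] <;> ring

end gen

/-! ### the four legs -/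

theorem sm1 (N : ℕ) (q w : ℤ × ℤ) : (q + N • w).1 = q.1 + N * w.1 := by
  rw [Prod.fst_add, Prod.smul_fst, nsmul_eq_mul]

theorem sm2 (N : ℕ) (q w : ℤ × ℤ) : (q + N • w).2 = q.2 + N * w.2 := by
  rw [Prod.snd_add, Prod.smul_snd, nsmul_eq_mul]

/-- total displacement of group 1 -/
def W1 (k1 k2 k3 k4 : ℤ) : ℤ × ℤ := (-2 * k1 - k2 + k3 + 2 * k4, k1 + 2 * k2 + k3 - k4)

/-- total displacement of group 2 -/
def W2 (k3 k4 : ℤ) : ℤ × ℤ := (k3 + 2 * k4, k3 - k4)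

/-- **four legs**: the product statement for the triangular pinwheel from the half-plane statement.
The cell `Q` is contained in the triangle `0 ≤ q.2`, `xl n ≤ q.1`, `q.1 + q.2 ≤ tr n`. -/
theorem four_legs
    (hinv : ∀ a : ℤ × ℤ, (mu0 P).map (pb (fun q => q + a)) = mu0 P)
    (hL : ∀ D ∈ [dX, dY, dA, dX.neg, dY.neg, dA.neg], LegLim P D)
    (ρ : ℕ) (N : ℕ → ℕ) (xl sr : ℕ → ℤ) (hN : ∀ n, 1 ≤ N n)
    (hbox : ∀ n, |xl n| ≤ ρ * N n ∧ |sr n| ≤ ρ * N n)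
    (Y G1 G2 G3 : ℕ → Hgt → ℂ) (B C : ℝ)
    (hY : ∀ n, Loc {q | 0 ≤ q.2 ∧ xl n ≤ q.1 ∧ q.1 + q.2 ≤ sr n ∧ |q.1| ≤ ρ * N n ∧
      |q.2| ≤ ρ * N n} (Y n)) (hYB : ∀ n h, ‖Y n h‖ ≤ B)
    (hG1 : ∀ n, Adm P {q | q.1 ≤ xl n - 2 * N n ∧ |q.1| ≤ ρ * N n ∧ |q.2| ≤ ρ * N n} (G1 n))
    (hG2 : ∀ n, Loc {q | sr n + 2 * N n ≤ q.1 + q.2 ∧ xl n ≤ q.1 ∧ |q.1| ≤ ρ * N n ∧
      |q.2| ≤ ρ * N n} (G2 n))
    (hG3 : ∀ n, Adm P {q | q.2 ≤ 0 ∧ xl n ≤ q.1 ∧ q.1 + q.2 ≤ sr n ∧ |q.1| ≤ ρ * N n ∧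
      |q.2| ≤ ρ * N n} (G3 n))
    (b1 : ∀ n h, ‖G1 n h‖ ≤ 1) (b2 : ∀ n h, ‖G2 n h‖ ≤ 1) (b3 : ∀ n h, ‖G3 n h‖ ≤ 1)
    (i1 : ∀ n, ∫ h, ‖G1 n h‖ ∂(mu0 P) ≤ C) (i3 : ∀ n, ∫ h, ‖G3 n h‖ ∂(mu0 P) ≤ C)
    (hHP : ∀ G : ℕ → Hgt → ℂ, (∀ n, Adm P {q | q.2 ≤ 0} (G n)) →
      (∀ n h, ‖G n h‖ ≤ ‖G3 n h‖) →
      Tendsto (fun n => ∫ h, Y n h * G n h ∂(mu0 P)) atTop (𝓝 0)) :
    Tendsto (fun n => ∫ h, Y n h * G1 n h * G2 n h * G3 n h ∂(mu0 P)) atTop (𝓝 0) := by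
  have leg := fun (D : Dir) (hD : LegLim P D) (c2 : Bool) (w1 w2 : ℤ × ℤ) (m : ℕ → ℤ) =>
    legGen hinv hN hY hYB hG1 hG2 hG3 b1 b2 b3 i1 i3 D hD c2 w1 w2 m
  -- after all legs
  have T4 : ∀ k1 k2 k3 k4 : ℕ, ρ + k1 + 2 * k2 + k3 ≤ k4 →
      TT P N Y G1 G2 G3 (W1 k1 k2 k3 k4) (W2 k3 k4) := by
    intro k1 k2 k3 k4 hk
    have := hHP (fun n h => G3 n h * (sf (N n • W1 k1 k2 k3 k4) (G1 n) h *
      sf (N n • W2 k3 k4) (G2 n) h)) (fun n => ?_) (fun n h => ?_)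
    · refine this.congr fun n => ?_
      congr 1
      funext h
      ring
    · have hk' : ((ρ : ℤ) + k1 + 2 * k2 + k3) * N n ≤ k4 * N n :=
        mul_le_mul_of_nonneg_right (by exact_mod_cast hk) (by positivity)
      have hp1 : (0 : ℤ) ≤ k1 * N n := by positivity
      have hp2 : (0 : ℤ) ≤ k2 * N n := by positivity
      have l1 : Loc {q | q.2 ≤ 0} (sf (N n • W1 k1 k2 k3 k4) (G1 n)) :=
        (hG1 n).loc.pull (fun q hq => by
          obtain ⟨-, -, h2⟩ := hq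
          have h2 := (abs_le.mp h2).2
          show (q + N n • W1 k1 k2 k3 k4).2 ≤ 0
          rw [sm2, W1]
          nlinarith)
      have l2 : Loc {q | q.2 ≤ 0} (sf (N n • W2 k3 k4) (G2 n)) :=
        (hG2 n).pull (fun q hq => by
          obtain ⟨-, -, -, h2⟩ := hq
          have h2 := (abs_le.mp h2).2
          show (q + N n • W2 k3 k4).2 ≤ 0
          rw [sm2, W2]
          nlinarith)
      refine ((hG3 n).mono fun q hq => hq.1).mulLoc (B := 1)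
        (l1.comp₂ l2 (fun a b => a * b)) fun h => ?_
      rw [norm_mul]
      exact mul_le_one₀ (b1 n _) (norm_nonneg _) (b2 n _)
    · rw [norm_mul, norm_mul]
      exact mul_le_of_le_one_right (norm_nonneg _) (mul_le_one₀ (b1 n _) (norm_nonneg _) (b2 n _))
  -- leg 4
  have T3 : ∀ k1 k2 k3 : ℕ, 2 * ρ + 2 + 2 * k1 + k2 ≤ k3 →
      TT P N Y G1 G2 G3 (W1 k1 k2 k3 0) (W2 k3 0) := by
    intro k1 k2 k3 hk
    have hk' : ∀ n, (2 * (ρ : ℤ) + 2 + 2 * k1 + k2) * N n ≤ k3 * N n := fun n =>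
      mul_le_mul_of_nonneg_right (by exact_mod_cast hk) (by positivity)
    have hp : ∀ (k n : ℕ), (0 : ℤ) ≤ k * N n := fun k n => by positivity
    refine leg dX (hL dX (by simp)) true _ _ (fun n => ρ * N n) ?_ ?_ ?_ ?_ ?_
    · rintro n q ⟨-, -, -, h1, -⟩
      exact (abs_le.mp h1).2
    · rintro n q ⟨-, -, -, h1, -⟩
      exact (abs_le.mp h1).2
    · rintro n q ⟨-, h1, -⟩
      have h1 := (abs_le.mp h1).1
      show _ ≤ (q + N n • W1 k1 k2 k3 0).1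
      rw [sm1, W1]
      nlinarith [hk' n]
    · rintro n q ⟨-, -, h1, -⟩
      have h1 := (abs_le.mp h1).1
      rw [if_pos rfl]
      show _ ≤ (q + N n • W2 k3 0).1
      rw [sm1, W2]
      nlinarith [hk' n, hp k1 n, hp k2 n]
    · refine ⟨ρ + k1 + 2 * k2 + k3, fun k hk0 => ?_⟩
      have e1 : W1 k1 k2 k3 0 + k • dX.s = W1 k1 k2 k3 k := by
        apply Prod.ext <;> simp [W1, dX] <;> ring
      have e2 : W2 k3 0 + k • dX.s = W2 k3 k := by
        apply Prod.ext <;> simp [W2, dX] <;> ring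
      simp only [if_true]
      rw [e1, e2]
      exact T4 k1 k2 k3 k hk0
  -- leg 3
  have T2 : ∀ k1 k2 : ℕ, 3 * ρ + 2 + k1 ≤ k2 →
      TT P N Y G1 G2 G3 (W1 k1 k2 0 0) 0 := by
    intro k1 k2 hk
    have hk' : ∀ n, (3 * (ρ : ℤ) + 2 + k1) * N n ≤ k2 * N n := fun n =>
      mul_le_mul_of_nonneg_right (by exact_mod_cast hk) (by positivity)
    refine leg dA (hL dA (by simp)) true _ _ (fun n => sr n) ?_ ?_ ?_ ?_ ?_
    · rintro n q ⟨-, -, h3, -, -⟩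
      exact h3
    · rintro n q ⟨-, -, h3, -, -⟩
      exact h3
    · rintro n q ⟨-, h1, h2⟩
      have h1 := (abs_le.mp h1).1
      have h2 := (abs_le.mp h2).1
      have h3 := (abs_le.mp (hbox n).2).2
      show _ ≤ (q + N n • W1 k1 k2 0 0).1 + (q + N n • W1 k1 k2 0 0).2
      rw [sm1, sm2, W1]
      nlinarith [hk' n]
    · rintro n q ⟨h1, -, -, -⟩
      rw [if_pos rfl]
      show _ ≤ (q + N n • (0 : ℤ × ℤ)).1 + (q + N n • (0 : ℤ × ℤ)).2
      rw [sm1, sm2]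
      simp only [Prod.fst_zero, Prod.snd_zero, mul_zero, add_zero]
      exact h1
    · refine ⟨2 * ρ + 2 + 2 * k1 + k2, fun k hk0 => ?_⟩
      have e1 : W1 k1 k2 0 0 + k • dA.s = W1 k1 k2 k 0 := by
        apply Prod.ext <;> simp [W1, dA]
      have e2 : 0 + k • dA.s = W2 k 0 := by
        apply Prod.ext <;> simp [W2, dA]
      simp only [if_true]
      rw [e1, e2]
      exact T3 k1 k2 k hk0
  -- leg 2
  have T1 : ∀ k1 : ℕ, 2 * ρ + 2 ≤ k1 → TT P N Y G1 G2 G3 (W1 k1 0 0 0) 0 := by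
    intro k1 hk
    have hk' : ∀ n, (2 * (ρ : ℤ) + 2) * N n ≤ k1 * N n := fun n =>
      mul_le_mul_of_nonneg_right (by exact_mod_cast hk) (by positivity)
    refine leg dY (hL dY (by simp)) false _ _ (fun n => ρ * N n) ?_ ?_ ?_ ?_ ?_
    · rintro n q ⟨-, -, -, -, h2⟩
      exact (abs_le.mp h2).2
    · rintro n q ⟨-, -, -, -, h2⟩
      exact (abs_le.mp h2).2
    · rintro n q ⟨-, -, h2⟩
      have h2 := (abs_le.mp h2).1
      show _ ≤ (q + N n • W1 k1 0 0 0).2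
      rw [sm2, W1]
      nlinarith [hk' n]
    · rintro n q ⟨-, -, -, h2⟩
      rw [if_neg (by simp)]
      show (q + N n • (0 : ℤ × ℤ)).2 ≤ _
      rw [sm2]
      simp only [Prod.snd_zero, mul_zero, add_zero]
      exact (abs_le.mp h2).2
    · refine ⟨3 * ρ + 2 + k1, fun k hk0 => ?_⟩
      have e1 : W1 k1 0 0 0 + k • dY.s = W1 k1 k 0 0 := by
        apply Prod.ext <;> simp [W1, dY] <;> ring
      simp only [Bool.false_eq_true, if_false]
      rw [e1, add_zero]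
      exact T2 k1 k hk0
  -- leg 1
  have T0 : TT P N Y G1 G2 G3 0 0 := by
    refine leg dX.neg (hL dX.neg (by simp)) false _ _ (fun n => -xl n) ?_ ?_ ?_ ?_ ?_
    · rintro n q ⟨-, h1, -, -, -⟩
      show -q.1 ≤ _
      linarith
    · rintro n q ⟨-, h1, -, -, -⟩
      show -q.1 ≤ _
      linarith
    · rintro n q ⟨h1, -, -⟩
      show _ ≤ -(q + N n • (0 : ℤ × ℤ)).1
      rw [sm1]
      simp only [Prod.fst_zero, mul_zero, add_zero]
      linarith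
    · rintro n q ⟨-, h1, -, -⟩
      rw [if_neg (by simp)]
      show -(q + N n • (0 : ℤ × ℤ)).1 ≤ _
      rw [sm1]
      simp only [Prod.fst_zero, mul_zero, add_zero]
      linarith
    · refine ⟨2 * ρ + 2, fun k hk0 => ?_⟩
      have e1 : 0 + k • dX.neg.s = W1 k 0 0 0 := by
        apply Prod.ext <;> simp [W1, dX, Dir.neg] <;> ring
      simp only [Bool.false_eq_true, if_false]
      rw [e1, add_zero]
      exact T1 k hk0
  refine T0.congr fun n => ?_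
  congr 1
  funext h
  simp only [smul_zero, sf_zero]
  ring

/-! ### the product statement for the null functional -/

theorem ev_loc (w : (ℤ × ℤ) →₀ ℝ) {A : Set (ℤ × ℤ)} (h : ∀ q ∈ w.support, q ∈ A) :
    Loc A (ev w) := by
  refine ⟨w.support, h, fun a b hab => ?_⟩
  unfold ev Finsupp.sum
  refine Finset.sum_congr rfl fun q hq => ?_
  show w q * ((a q : ℤ) : ℝ) = w q * ((b q : ℤ) : ℝ)
  rw [hab q hq]

theorem Yf_loc (w u : (ℤ × ℤ) →₀ ℝ) (α : ℝ) {A : Set (ℤ × ℤ)} (h1 : ∀ q ∈ w.support, q ∈ A)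
    (h2 : ∀ q ∈ u.support, q ∈ A) : Loc A (Yf w u α) := by
  have := (ev_loc w h1).comp₂ (ev_loc u h2) (fun x y : ℝ =>
    Complex.exp (Complex.I * (x : ℂ)) * (Complex.exp (Complex.I * (y : ℂ)) - (α : ℂ)))
  exact this

/-- **Product form of the Schwinger-Dyson identity on the triangular lattice**, for the plane
measure: `Q` lies in the triangle `0 ≤ q.2`, `xl ≤ q.1`, `q.1 + q.2 ≤ sr`; `G1, G2, G3` are
arbitrary bounded lattice functionals of the three arms of the pinwheel around it. -/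
theorem fa_T (hP : GFF.Plane P) {w u φ : ℕ → (ℤ × ℤ) →₀ ℝ} {α : ℝ} (hSD : SDseq P w u φ α)
    (ρ : ℕ) (N : ℕ → ℕ) (xl sr : ℕ → ℤ) (hN : ∀ n, 1 ≤ N n)
    (hbox : ∀ n, |xl n| ≤ ρ * N n ∧ |sr n| ≤ ρ * N n)
    (hsupp : ∀ n, ∀ q, q ∈ (w n).support ∨ q ∈ (u n).support ∨ q ∈ (φ n).support →
      0 ≤ q.2 ∧ xl n ≤ q.1 ∧ q.1 + q.2 ≤ sr n ∧ |q.1| ≤ ρ * N n ∧ |q.2| ≤ ρ * N n)
    (G1 G2 G3 : ℕ → Hgt → ℂ) (C : ℝ)
    (hG1 : ∀ n, Adm P {q | q.1 ≤ xl n - 2 * N n ∧ |q.1| ≤ ρ * N n ∧ |q.2| ≤ ρ * N n} (G1 n))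
    (hG2 : ∀ n, Loc {q | sr n + 2 * N n ≤ q.1 + q.2 ∧ xl n ≤ q.1 ∧ |q.1| ≤ ρ * N n ∧
      |q.2| ≤ ρ * N n} (G2 n))
    (hG3 : ∀ n, Adm P {q | q.2 ≤ 0 ∧ xl n ≤ q.1 ∧ q.1 + q.2 ≤ sr n ∧ |q.1| ≤ ρ * N n ∧
      |q.2| ≤ ρ * N n} (G3 n))
    (b1 : ∀ n h, ‖G1 n h‖ ≤ 1) (b2 : ∀ n h, ‖G2 n h‖ ≤ 1) (b3 : ∀ n h, ‖G3 n h‖ ≤ 1)
    (i1 : ∀ n, ∫ h, ‖G1 n h‖ ∂(mu0 P) ≤ C) (i3 : ∀ n, ∫ h, ‖G3 n h‖ ∂(mu0 P) ≤ C)
    (hT : Tight P φ G3) :
    Tendsto (fun n => ∫ h, Yf (w n) (u n) α h * G1 n h * G2 n h * G3 n h ∂(mu0 P))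
      atTop (𝓝 0) := by
  have := hP.prob
  obtain ⟨hinv, hL, hI, hR⟩ := legs_T hP
  refine four_legs hinv hL ρ N xl sr hN hbox (fun n => Yf (w n) (u n) α) G1 G2 G3
    (1 + |α|) C ?_ (fun n h => norm_Yf _ _ _ _) hG1 hG2 hG3 b1 b2 b3 i1 i3 ?_
  · intro n
    exact Yf_loc _ _ _ (fun q hq => hsupp n q (Or.inl hq))
      (fun q hq => hsupp n q (Or.inr (Or.inl hq)))
  · intro G hG hle
    refine s_hp hI hR w u φ α hSD (fun n q hq => (hsupp n q hq).1) G C hG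
      (fun n h => (hle n h).trans (b3 n h)) (fun n => ?_) ?_
    · exact (integral_mono (hG n).int.norm (hG3 n).int.norm (hle n)).trans (i3 n)
    · intro ε hε
      obtain ⟨K0, hK0⟩ := hT ε hε
      refine ⟨K0, fun K hK => ?_⟩
      filter_upwards [hK0 K hK] with n hn
      refine le_trans ?_ hn
      have hm : Measurable (fun h : Hgt => 1 - Real.exp (-((ev (φ n) h) ^ 2 / (2 * K ^ 2)))) :=
        ((ev_loc (φ n) (A := Set.univ) (fun _ _ => trivial)).comp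
          (fun x : ℝ => 1 - Real.exp (-(x ^ 2 / (2 * K ^ 2))))).measS
      have h0 : ∀ h : Hgt, 0 ≤ 1 - Real.exp (-((ev (φ n) h) ^ 2 / (2 * K ^ 2))) := by
        intro h
        have : Real.exp (-((ev (φ n) h) ^ 2 / (2 * K ^ 2))) ≤ 1 :=
          Real.exp_le_one_iff.mpr (by
            have : 0 ≤ (ev (φ n) h) ^ 2 / (2 * K ^ 2) := by positivity
            linarith)
        linarith
      have h1 : ∀ h : Hgt, ‖1 - Real.exp (-((ev (φ n) h) ^ 2 / (2 * K ^ 2)))‖ ≤ 1 := by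
        intro h
        rw [Real.norm_eq_abs, abs_of_nonneg (h0 h)]
        have := Real.exp_pos (-((ev (φ n) h) ^ 2 / (2 * K ^ 2)))
        linarith
      apply integral_mono
      · exact (hG n).int.norm.mul_bdd hm.aestronglyMeasurable (Eventually.of_forall h1)
      · exact (hG3 n).int.norm.mul_bdd hm.aestronglyMeasurable (Eventually.of_forall h1)
      · intro h
        exact mul_le_mul_of_nonneg_right (hle n h) (h0 h)

end Vale.Agent.P153.F.SD
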