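import Vale.Agent.P153.F.SD.Defs
import Vale.Agent.P145.FA.Gauss
import Vale.Agent.P145.FA.Leg

/-! P153, product Schwinger-Dyson, half-plane statement: linear functionals, integrals against `mu0`, and the
Cauchy-Schwarz inequality of the reflection positive form. -/

namespace Vale.Agent.P153.F.SD

open Finset Filter Topology MeasureTheory
open Vale.Agent.P145.FA (gauss_sum PolyBdd LegForm extrap)

/-! ### linear functionals -/

lemma ev_add (w u : (ℤ × ℤ) →₀ ℝ) (h : Hgt) : ev (w + u) h = ev w h + ev u h := by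
  unfold ev
  exact Finsupp.sum_add_index' (fun q => by simp) (fun q a b => by ring)

lemma ev_smul (c : ℝ) (w : (ℤ × ℤ) →₀ ℝ) (h : Hgt) : ev (c • w) h = c * ev w h := by
  unfold ev
  rw [Finsupp.sum_smul_index' (fun q => by simp), Finsupp.mul_sum]
  exact Finsupp.sum_congr fun q _ => by rw [smul_eq_mul, mul_assoc]

lemma ev_sub (w u : (ℤ × ℤ) →₀ ℝ) (h : Hgt) : ev (w - u) h = ev w h - ev u h := by
  have e : w - u = w + (-1 : ℝ) • u := by
    ext q
    simp [sub_eq_add_neg]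
  rw [e, ev_add, ev_smul]
  ring

lemma ev_shift (w : (ℤ × ℤ) →₀ ℝ) (h : Hgt) (c : ℤ) :
    ev w (fun q => h q + c) = ev w h + mass w * c := by
  unfold ev mass
  rw [Finsupp.sum_mul, ← Finsupp.sum_add]
  exact Finsupp.sum_congr fun q _ => by push_cast; ring

lemma ev_rf (w : (ℤ × ℤ) →₀ ℝ) (h : Hgt) : ev (rf w) h = ev w (pb (dY.θ 0) h) := by
  unfold ev rf
  rw [Finsupp.sum_mapDomain_index (fun q => by simp) (fun q a b => by ring)]
  refine Finsupp.sum_congr fun q _ => ?_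
  simp only [pb, dY, mul_zero, zero_sub, sub_zero]

lemma mass_rf (w : (ℤ × ℤ) →₀ ℝ) : mass (rf w) = mass w := by
  unfold mass rf
  rw [Finsupp.sum_mapDomain_index (fun q => by simp) (fun q a b => by ring)]

lemma measurable_ev (w : (ℤ × ℤ) →₀ ℝ) : Measurable (ev w) := by
  unfold ev Finsupp.sum
  refine Finset.measurable_sum _ fun q _ => ?_
  refine Measurable.const_mul ?_ _
  exact measurable_from_top.comp (measurable_pi_apply q)

lemma measurable_pb (g : ℤ × ℤ → ℤ × ℤ) : Measurable (pb g) :=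
  measurable_pi_iff.2 fun q => measurable_pi_apply (g q)

/-! ### the measure -/

lemma measurable_pthq (q : ℤ × ℤ) : Measurable fun ω : Fld => pth ω q :=
  (measurable_from_top (f := fun a : ℤ => 2 * a)).comp (measurable_pi_apply q)

lemma measurable_hk (k : ℤ) : Measurable fun (ω : Fld) (q : ℤ × ℤ) => pth ω q + 2 * k :=
  measurable_pi_iff.2 fun q => (measurable_pthq q).add_const _

variable {P : Measure (Fld)}

lemma map_le_mu0 (k : ℤ) : P.map (fun (ω : Fld) (q : ℤ × ℤ) => pth ω q + 2 * k) ≤ mu0 P :=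
  Measure.le_sum (fun k : ℤ => P.map (fun (ω : Fld) (q : ℤ × ℤ) => pth ω q + 2 * k)) k

/-- integral against `mu0` -/
lemma hasSum_mu0 {R : Type*} [NormedAddCommGroup R] [NormedSpace ℝ R] {F : Hgt → R}
    (hF : Integrable F (mu0 P)) :
    HasSum (fun k : ℤ => ∫ ω, F (fun q => pth ω q + 2 * k) ∂P) (∫ h, F h ∂(mu0 P)) := by
  have h := hasSum_integral_measure (show Integrable F (Measure.sum fun k : ℤ =>
    P.map (fun (ω : Fld) (q : ℤ × ℤ) => pth ω q + 2 * k)) from hF)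
  have e : ∀ k : ℤ, ∫ h, F h ∂(P.map (fun (ω : Fld) (q : ℤ × ℤ) => pth ω q + 2 * k)) =
      ∫ ω, F (fun q => pth ω q + 2 * k) ∂P := fun k =>
    integral_map (measurable_hk k).aemeasurable (hF.1.mono_measure (map_le_mu0 k))
  simp only [e] at h
  exact h

/-- nonnegative integrals against `mu0` -/
lemma lintegral_mu0 {F : Hgt → ENNReal} (hF : Measurable F) :
    ∫⁻ h, F h ∂(mu0 P) = ∫⁻ ω, ∑' k : ℤ, F (fun q => pth ω q + 2 * k) ∂P := by
  have h := lintegral_tsum (μ := P) (f := fun (k : ℤ) (ω : Fld) =>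
    F (fun q => pth ω q + 2 * k)) (fun k => (hF.comp (measurable_hk k)).aemeasurable)
  unfold mu0
  rw [lintegral_sum_measure, h]
  exact tsum_congr fun k => lintegral_map hF (measurable_hk k)

/-- functions dominated by a Gaussian of a charged functional are integrable -/
lemma integrable_gauss [IsProbabilityMeasure P] {φ : (ℤ × ℤ) →₀ ℝ} (hφ : mass φ = 1) {K : ℝ}
    (hK : 1 ≤ K) : Integrable (fun h => Real.exp (-((ev φ h) ^ 2 / K ^ 2))) (mu0 P) := by
  obtain ⟨C, hC, hg⟩ := gauss_sum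
  have hm : Measurable fun h => Real.exp (-((ev φ h) ^ 2 / K ^ 2)) :=
    Real.measurable_exp.comp (((measurable_ev φ).pow_const 2).div_const _).neg
  refine ⟨hm.aestronglyMeasurable, ?_⟩
  rw [hasFiniteIntegral_iff_ofReal (Eventually.of_forall fun h => (Real.exp_pos _).le)]
  have h0 := lintegral_mu0 (P := P) (F := fun h => ENNReal.ofReal
    (Real.exp (-((ev φ h) ^ 2 / K ^ 2)))) (ENNReal.measurable_ofReal.comp hm)
  rw [h0]
  have h1 : ∀ ω : Fld, ∑' k : ℤ, ENNReal.ofReal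
      (Real.exp (-((ev φ (fun q => pth ω q + 2 * k)) ^ 2 / K ^ 2))) ≤
      ENNReal.ofReal (K * √Real.pi / 2 + C * (K * Real.exp (-K ^ 2))) := by
    intro ω
    have e : ∀ k : ℤ, ev φ (fun q => pth ω q + 2 * k) = ev φ (pth ω) + 2 * k := by
      intro k
      rw [ev_shift, hφ]
      push_cast
      ring
    simp only [e]
    obtain ⟨hs, hb⟩ := hg K hK (ev φ (pth ω))
    rw [← ENNReal.ofReal_tsum_of_nonneg (fun k => (Real.exp_pos _).le) hs]
    refine ENNReal.ofReal_le_ofReal ?_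
    have := (abs_le.1 hb).2
    linarith
  refine (lintegral_mono h1).trans_lt ?_
  rw [lintegral_const, measure_univ, mul_one]
  exact ENNReal.ofReal_lt_top

/-- integral of a product of a gradient functional and a Gaussian in the level -/
lemma integral_gauss [IsProbabilityMeasure P] {F : Hgt → ℂ} {Z : Fld → ℂ}
    {T : Fld → ℝ} {K B : ℝ} (hK : 1 ≤ K) (hFi : Integrable F (mu0 P))
    (hZ : ∀ ω, ‖Z ω‖ ≤ B) (hT : Measurable T) (hZm : Measurable Z)
    (hF : ∀ (ω : Fld) (k : ℤ), F (fun q => pth ω q + 2 * k) =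
      Z ω * ((Real.exp (-((T ω + 2 * k) ^ 2 / K ^ 2)) : ℝ) : ℂ)) :
    ∫ h, F h ∂(mu0 P) = ∫ ω, Z ω *
      ((∑' k : ℤ, Real.exp (-((T ω + 2 * k) ^ 2 / K ^ 2)) : ℝ) : ℂ) ∂P := by
  obtain ⟨C, hC, hg⟩ := gauss_sum
  have h1 := hasSum_mu0 hFi
  simp only [hF] at h1
  have hB : 0 ≤ B := (norm_nonneg _).trans (hZ (fun _ => 0))
  have hmk : ∀ k : ℤ, Measurable fun ω => Z ω *
      ((Real.exp (-((T ω + 2 * k) ^ 2 / K ^ 2)) : ℝ) : ℂ) := fun k =>
    hZm.mul (Complex.measurable_ofReal.comp (Real.measurable_exp.comp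
      ((((hT.add_const _).pow_const 2).div_const _).neg)))
  have h2 : ∫ ω, ∑' k : ℤ, Z ω * ((Real.exp (-((T ω + 2 * k) ^ 2 / K ^ 2)) : ℝ) : ℂ) ∂P =
      ∑' k : ℤ, ∫ ω, Z ω * ((Real.exp (-((T ω + 2 * k) ^ 2 / K ^ 2)) : ℝ) : ℂ) ∂P := by
    refine integral_tsum (fun k => (hmk k).aestronglyMeasurable) ?_
    have hme : ∀ k : ℤ, Measurable fun ω => ENNReal.ofReal
        (Real.exp (-((T ω + 2 * k) ^ 2 / K ^ 2))) := fun k =>
      ENNReal.measurable_ofReal.comp (Real.measurable_exp.comp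
        ((((hT.add_const _).pow_const 2).div_const _).neg))
    have hle : ∑' k : ℤ, ∫⁻ ω, ‖Z ω * ((Real.exp (-((T ω + 2 * k) ^ 2 / K ^ 2)) : ℝ) : ℂ)‖ₑ ∂P ≤
        ENNReal.ofReal B * ENNReal.ofReal (K * √Real.pi / 2 + C * (K * Real.exp (-K ^ 2))) := by
      calc ∑' k : ℤ, ∫⁻ ω, ‖Z ω * ((Real.exp (-((T ω + 2 * k) ^ 2 / K ^ 2)) : ℝ) : ℂ)‖ₑ ∂P
          ≤ ∑' k : ℤ, ENNReal.ofReal B * ∫⁻ ω, ENNReal.ofReal
              (Real.exp (-((T ω + 2 * k) ^ 2 / K ^ 2))) ∂P := by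
            refine ENNReal.tsum_le_tsum fun k => ?_
            rw [← lintegral_const_mul _ (hme k)]
            refine lintegral_mono fun ω => ?_
            rw [enorm_mul, ← ofReal_norm, ← ofReal_norm, Complex.norm_real, Real.norm_eq_abs,
              abs_of_pos (Real.exp_pos _)]
            exact mul_le_mul' (ENNReal.ofReal_le_ofReal (hZ ω)) le_rfl
        _ = ENNReal.ofReal B * ∫⁻ ω, ∑' k : ℤ, ENNReal.ofReal
              (Real.exp (-((T ω + 2 * k) ^ 2 / K ^ 2))) ∂P := by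
            rw [ENNReal.tsum_mul_left, lintegral_tsum (fun k => (hme k).aemeasurable)]
        _ ≤ ENNReal.ofReal B * ∫⁻ _ω, ENNReal.ofReal
              (K * √Real.pi / 2 + C * (K * Real.exp (-K ^ 2))) ∂P := by
            refine mul_le_mul' le_rfl (lintegral_mono fun ω => ?_)
            obtain ⟨hs, hb⟩ := hg K hK (T ω)
            rw [← ENNReal.ofReal_tsum_of_nonneg (fun k => (Real.exp_pos _).le) hs]
            refine ENNReal.ofReal_le_ofReal ?_
            have := (abs_le.1 hb).2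
            linarith
        _ = _ := by rw [lintegral_const, measure_univ, mul_one]
    exact (hle.trans_lt (ENNReal.mul_lt_top ENNReal.ofReal_lt_top ENNReal.ofReal_lt_top)).ne
  rw [← h1.tsum_eq, ← h2]
  refine integral_congr_ae (Eventually.of_forall fun ω => ?_)
  simp only
  rw [tsum_mul_left, Complex.ofReal_tsum]

/-! ### reflections -/

lemma mp_refl (hI : Inv P dY) : MeasurePreserving (pb (dY.θ 0)) (mu0 P) (mu0 P) :=
  ⟨measurable_pb _, hI.1 0⟩

lemma pb_pb (h : Hgt) : pb (dY.θ 0) (pb (dY.θ 0) h) = h := by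
  funext q
  show h _ = h q
  congr 1
  ext <;> simp [dY]

/-- reflected functionals -/
lemma Adm.refl {R : Type} [NormedAddCommGroup R] (hI : Inv P dY) {F : Hgt → R}
    {A B : Set (ℤ × ℤ)} (hF : Adm P A F) (hAB : ∀ q ∈ A, dY.θ 0 q ∈ B) :
    Adm P B (fun h => F (pb (dY.θ 0) h)) := by
  obtain ⟨Λ, hΛ, hloc⟩ := hF.loc
  obtain ⟨C, hC⟩ := hF.bdd
  refine ⟨⟨Λ.image (dY.θ 0), ?_, ?_⟩, ⟨C, fun h => hC _⟩, ?_⟩
  · intro q hq
    obtain ⟨r, hr, rfl⟩ := Finset.mem_image.1 hq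
    exact hAB r (hΛ r hr)
  · intro h h' hh
    refine hloc _ _ fun q hq => ?_
    exact hh _ (Finset.mem_image_of_mem _ hq)
  · exact (mp_refl hI).integrable_comp_of_integrable hF.int

lemma Loc.mulL {A : Set (ℤ × ℤ)} {F G : Hgt → ℝ} (hF : Loc A F) (hG : Loc A G) :
    Loc A (fun h => F h * G h) := by
  classical
  obtain ⟨Λ, h1, h2⟩ := hF
  obtain ⟨Λ', h1', h2'⟩ := hG
  refine ⟨Λ ∪ Λ', fun q hq => ?_, fun h h' hh => ?_⟩
  · rcases Finset.mem_union.1 hq with hq | hq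
    · exact h1 q hq
    · exact h1' q hq
  · simp only
    rw [h2 h h' fun q hq => hh q (Finset.mem_union_left _ hq),
      h2' h h' fun q hq => hh q (Finset.mem_union_right _ hq)]

lemma Adm.lin {A : Set (ℤ × ℤ)} {F G : Hgt → ℝ} (hF : Adm P A F) (hG : Adm P A G) (t : ℝ) :
    Adm P A (fun h => F h + t * G h) := by
  classical
  obtain ⟨Λ, h1, h2⟩ := hF.loc
  obtain ⟨Λ', h1', h2'⟩ := hG.loc
  obtain ⟨C, hC⟩ := hF.bdd
  obtain ⟨C', hC'⟩ := hG.bdd
  refine ⟨⟨Λ ∪ Λ', fun q hq => ?_, fun h h' hh => ?_⟩, ⟨C + |t| * C', fun h => ?_⟩,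
    hF.int.add (hG.int.const_mul t)⟩
  · rcases Finset.mem_union.1 hq with hq | hq
    · exact h1 q hq
    · exact h1' q hq
  · simp only
    rw [h2 h h' fun q hq => hh q (Finset.mem_union_left _ hq),
      h2' h h' fun q hq => hh q (Finset.mem_union_right _ hq)]
  · refine (norm_add_le _ _).trans (add_le_add (hC h) ?_)
    rw [norm_mul, Real.norm_eq_abs]
    exact mul_le_mul_of_nonneg_left (hC' h) (abs_nonneg _)

/-- products of admissible functionals are integrable -/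
lemma Adm.int_mul {A B : Set (ℤ × ℤ)} {F G : Hgt → ℝ} (hF : Adm P A F) (hG : Adm P B G) :
    Integrable (fun h => F h * G h) (mu0 P) := by
  obtain ⟨C, hC⟩ := hF.bdd
  exact hG.int.bdd_mul hF.int.1 (Eventually.of_forall hC)

/-- Cauchy-Schwarz inequality of the reflection form. -/
lemma rp_cs (hI : Inv P dY) (hR : RP P dY) {F G : Hgt → ℝ} (hF : Adm P {q | 0 ≤ q.2} F)
    (hG : Adm P {q | 0 ≤ q.2} G) :
    (∫ h, F h * G (pb (dY.θ 0) h) ∂(mu0 P)) ^ 2 ≤ (∫ h, F h * F (pb (dY.θ 0) h) ∂(mu0 P)) *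
      ∫ h, G h * G (pb (dY.θ 0) h) ∂(mu0 P) := by
  have hU : ∀ q ∈ {q : ℤ × ℤ | 0 ≤ q.2}, dY.θ 0 q ∈ {q : ℤ × ℤ | q.2 ≤ 0} := by
    intro q hq
    simp only [Set.mem_ofPred_eq, dY] at hq ⊢
    omega
  have hF' := hF.refl hI hU
  have hG' := hG.refl hI hU
  have iFF := hF.int_mul hF'
  have iFG := hF.int_mul hG'
  have iGF := hG.int_mul hF'
  have iGG := hG.int_mul hG'
  have hsym : ∫ h, G h * F (pb (dY.θ 0) h) ∂(mu0 P) = ∫ h, F h * G (pb (dY.θ 0) h) ∂(mu0 P) := by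
    have h1 := integral_map (μ := mu0 P) (φ := pb (dY.θ 0)) (measurable_pb _).aemeasurable
      (f := fun h => F h * G (pb (dY.θ 0) h)) (by rw [hI.1 0]; exact iFG.1)
    rw [hI.1 0] at h1
    rw [h1]
    refine integral_congr_ae (Eventually.of_forall fun h => ?_)
    simp only [pb_pb]
    ring
  have key : ∀ t : ℝ, 0 ≤ (∫ h, G h * G (pb (dY.θ 0) h) ∂(mu0 P)) * t ^ 2 +
      2 * (∫ h, F h * G (pb (dY.θ 0) h) ∂(mu0 P)) * t +
        ∫ h, F h * F (pb (dY.θ 0) h) ∂(mu0 P) := by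
    intro t
    have h0 := hR 0 _ ((show Adm P {q | (0 : ℤ) ≤ dY.l q} F from hF).lin
      (show Adm P {q | (0 : ℤ) ≤ dY.l q} G from hG) t)
    have e : ∫ h, (F h + t * G h) * (F (pb (dY.θ 0) h) + t * G (pb (dY.θ 0) h)) ∂(mu0 P) =
        (∫ h, G h * G (pb (dY.θ 0) h) ∂(mu0 P)) * t ^ 2 +
      2 * (∫ h, F h * G (pb (dY.θ 0) h) ∂(mu0 P)) * t +
        ∫ h, F h * F (pb (dY.θ 0) h) ∂(mu0 P) := by
      have e1 : ∀ h : Hgt, (F h + t * G h) * (F (pb (dY.θ 0) h) + t * G (pb (dY.θ 0) h)) =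
          F h * F (pb (dY.θ 0) h) + (t * (F h * G (pb (dY.θ 0) h)) +
            (t * (G h * F (pb (dY.θ 0) h)) + t ^ 2 * (G h * G (pb (dY.θ 0) h)))) := by
        intro h; ring
      simp only [e1]
      have i3 : Integrable (fun h => t * (G h * F (pb (dY.θ 0) h)) +
          t ^ 2 * (G h * G (pb (dY.θ 0) h))) (mu0 P) := (iGF.const_mul t).add (iGG.const_mul _)
      have i2 : Integrable (fun h => t * (F h * G (pb (dY.θ 0) h)) +
          (t * (G h * F (pb (dY.θ 0) h)) + t ^ 2 * (G h * G (pb (dY.θ 0) h)))) (mu0 P) :=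
        (iFG.const_mul t).add i3
      rw [integral_add iFF i2, integral_add (iFG.const_mul t) i3,
        integral_add (iGF.const_mul t) (iGG.const_mul _), integral_const_mul,
        integral_const_mul, integral_const_mul, hsym]
      ring
    rw [← e]
    exact h0
  have := discrim_le_zero (a := ∫ h, G h * G (pb (dY.θ 0) h) ∂(mu0 P))
    (b := 2 * ∫ h, F h * G (pb (dY.θ 0) h) ∂(mu0 P))
    (c := ∫ h, F h * F (pb (dY.θ 0) h) ∂(mu0 P)) (fun t => by
    have := key t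
    rwa [pow_two] at this)
  unfold discrim at this
  nlinarith

end Vale.Agent.P153.F.SD
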