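import Vale.Agent.P153.F.SD.Hp1

/-! P153, product Schwinger-Dyson, half-plane statement: complex Cauchy-Schwarz inequality. -/

namespace Vale.Agent.P153.F.SD

open Finset Filter Topology MeasureTheory
open Vale.Agent.P145.FA (gauss_sum PolyBdd LegForm extrap)

variable {P : Measure (Fld)}

lemma Adm.comp_clm {A : Set (ℤ × ℤ)} {W : Hgt → ℂ} (hW : Adm P A W) (L : ℂ →L[ℝ] ℝ)
    (hL : ∀ z, |L z| ≤ ‖z‖) : Adm P A (fun h => L (W h)) := by
  obtain ⟨Λ, h1, h2⟩ := hW.loc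
  obtain ⟨C, hC⟩ := hW.bdd
  exact ⟨⟨Λ, h1, fun h h' hh => congrArg L (h2 h h' hh)⟩, ⟨C, fun h => (hL _).trans (hC h)⟩,
    L.integrable_comp hW.int⟩

lemma Adm.re {A : Set (ℤ × ℤ)} {W : Hgt → ℂ} (hW : Adm P A W) : Adm P A (fun h => (W h).re) :=
  hW.comp_clm Complex.reCLM Complex.abs_re_le_norm

lemma Adm.im {A : Set (ℤ × ℤ)} {W : Hgt → ℂ} (hW : Adm P A W) : Adm P A (fun h => (W h).im) :=
  hW.comp_clm Complex.imCLM Complex.abs_im_le_norm

/-- real product of an upper and a lower functional -/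
lemma rp_cross (hI : Inv P dY) (hR : RP P dY) {F G : Hgt → ℝ} (hF : Adm P {q | 0 ≤ q.2} F)
    (hG : Adm P {q | q.2 ≤ 0} G) :
    |∫ h, F h * G h ∂(mu0 P)| ≤ √(∫ h, F h * F (pb (dY.θ 0) h) ∂(mu0 P)) *
      √(∫ h, G h ^ 2 ∂(mu0 P)) := by
  have hD : ∀ q ∈ {q : ℤ × ℤ | q.2 ≤ 0}, dY.θ 0 q ∈ {q : ℤ × ℤ | 0 ≤ q.2} := by
    intro q hq
    simp only [Set.mem_ofPred_eq, dY] at hq ⊢
    omega
  have hG' := hG.refl hI hD
  have h1 := rp_cs hI hR hF hG'
  simp only [pb_pb] at h1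
  have hA : 0 ≤ ∫ h, F h * F (pb (dY.θ 0) h) ∂(mu0 P) := hR 0 F hF
  have iG2 : Integrable (fun h => G h ^ 2) (mu0 P) := by
    have := hG.int_mul hG
    simpa only [← pow_two] using this
  have iG2' : Integrable (fun h => G (pb (dY.θ 0) h) ^ 2) (mu0 P) := by
    have := hG'.int_mul hG'
    simpa only [← pow_two] using this
  have hB : ∫ h, G (pb (dY.θ 0) h) * G h ∂(mu0 P) ≤ ∫ h, G h ^ 2 ∂(mu0 P) := by
    have e : ∫ h, G (pb (dY.θ 0) h) ^ 2 ∂(mu0 P) = ∫ h, G h ^ 2 ∂(mu0 P) := by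
      have h2 := integral_map (μ := mu0 P) (φ := pb (dY.θ 0)) (measurable_pb _).aemeasurable
        (f := fun h => G h ^ 2) (by rw [hI.1 0]; exact iG2.1)
      rw [hI.1 0] at h2
      exact h2.symm
    have h3 : ∫ h, G (pb (dY.θ 0) h) * G h ∂(mu0 P) ≤
        ∫ h, (1 / 2 * G (pb (dY.θ 0) h) ^ 2 + 1 / 2 * G h ^ 2) ∂(mu0 P) := by
      refine integral_mono (hG'.int_mul hG) ((iG2'.const_mul _).add (iG2.const_mul _)) fun h => ?_
      nlinarith [sq_nonneg (G (pb (dY.θ 0) h) - G h)]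
    rw [integral_add (iG2'.const_mul _) (iG2.const_mul _), integral_const_mul,
      integral_const_mul, e] at h3
    linarith
  rw [← Real.sqrt_mul hA]
  refine Real.abs_le_sqrt (h1.trans ?_)
  exact mul_le_mul_of_nonneg_left hB hA

/-- complex Cauchy-Schwarz inequality -/
theorem rp_csC (hI : Inv P dY) (hR : RP P dY) {W G : Hgt → ℂ} (hW : Adm P {q | 0 ≤ q.2} W)
    (hG : Adm P {q | q.2 ≤ 0} G) :
    ‖∫ h, W h * G h ∂(mu0 P)‖ ^ 2 ≤
      4 * (∫ h, W h * (starRingEnd ℂ) (W (pb (dY.θ 0) h)) ∂(mu0 P)).re *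
        ∫ h, ‖G h‖ ^ 2 ∂(mu0 P) := by
  have hU : ∀ q ∈ {q : ℤ × ℤ | 0 ≤ q.2}, dY.θ 0 q ∈ {q : ℤ × ℤ | q.2 ≤ 0} := by
    intro q hq
    simp only [Set.mem_ofPred_eq, dY] at hq ⊢
    omega
  have hW' := hW.refl hI hU
  set A1 := ∫ h, (W h).re * (W (pb (dY.θ 0) h)).re ∂(mu0 P) with hA1
  set A2 := ∫ h, (W h).im * (W (pb (dY.θ 0) h)).im ∂(mu0 P) with hA2
  set B1 := ∫ h, (G h).re ^ 2 ∂(mu0 P) with hB1
  set B2 := ∫ h, (G h).im ^ 2 ∂(mu0 P) with hB2
  have a1 : 0 ≤ A1 := hR 0 _ hW.re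
  have a2 : 0 ≤ A2 := hR 0 _ hW.im
  have b1 : 0 ≤ B1 := integral_nonneg fun h => sq_nonneg _
  have b2 : 0 ≤ B2 := integral_nonneg fun h => sq_nonneg _
  have i1 := hW.re.int_mul hG.re
  have i2 := hW.im.int_mul hG.im
  have i3 := hW.re.int_mul hG.im
  have i4 := hW.im.int_mul hG.re
  have c1 := rp_cross hI hR hW.re hG.re
  have c2 := rp_cross hI hR hW.im hG.im
  have c3 := rp_cross hI hR hW.re hG.im
  have c4 := rp_cross hI hR hW.im hG.re
  have hint : ∫ h, W h * G h ∂(mu0 P) =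
      ((∫ h, (W h).re * (G h).re ∂(mu0 P) - ∫ h, (W h).im * (G h).im ∂(mu0 P) : ℝ) : ℂ) +
      ((∫ h, (W h).re * (G h).im ∂(mu0 P) + ∫ h, (W h).im * (G h).re ∂(mu0 P) : ℝ) : ℂ) *
        Complex.I := by
    have hi1 : Integrable (fun h => (((W h).re * (G h).re - (W h).im * (G h).im : ℝ) : ℂ))
        (mu0 P) := (i1.sub i2).ofReal
    have hi2 : Integrable (fun h => (((W h).re * (G h).im + (W h).im * (G h).re : ℝ) : ℂ))
        (mu0 P) := (i3.add i4).ofReal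
    rw [← integral_sub i1 i2, ← integral_add i3 i4, ← integral_complex_ofReal,
      ← integral_complex_ofReal, ← integral_mul_const, ← integral_add hi1 (hi2.mul_const _)]
    refine integral_congr_ae (Eventually.of_forall fun h => ?_)
    simp only
    apply Complex.ext
    · simp
    · simp
  have hQ : (∫ h, W h * (starRingEnd ℂ) (W (pb (dY.θ 0) h)) ∂(mu0 P)).re = A1 + A2 := by
    have hi : Integrable (fun h => W h * (starRingEnd ℂ) (W (pb (dY.θ 0) h))) (mu0 P) := by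
      obtain ⟨C, hC⟩ := hW.bdd
      have hc : Integrable (fun h => (starRingEnd ℂ) (W (pb (dY.θ 0) h))) (mu0 P) :=
        Complex.conjCLE.integrable_comp_iff.2 hW'.int
      exact hc.bdd_mul hW.int.1 (Eventually.of_forall hC)
    have h1 := Complex.reCLM.integral_comp_comm hi
    have h2 : (∫ h, W h * (starRingEnd ℂ) (W (pb (dY.θ 0) h)) ∂(mu0 P)).re =
        ∫ h, (W h * (starRingEnd ℂ) (W (pb (dY.θ 0) h))).re ∂(mu0 P) := h1.symm
    rw [h2, hA1, hA2, ← integral_add (hW.re.int_mul hW'.re) (hW.im.int_mul hW'.im)]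
    refine integral_congr_ae (Eventually.of_forall fun h => ?_)
    simp
  have hG2 : ∫ h, ‖G h‖ ^ 2 ∂(mu0 P) = B1 + B2 := by
    have j1 : Integrable (fun h => (G h).re ^ 2) (mu0 P) := by
      have := hG.re.int_mul hG.re
      simpa only [← pow_two] using this
    have j2 : Integrable (fun h => (G h).im ^ 2) (mu0 P) := by
      have := hG.im.int_mul hG.im
      simpa only [← pow_two] using this
    rw [hB1, hB2, ← integral_add j1 j2]
    refine integral_congr_ae (Eventually.of_forall fun h => ?_)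
    simp only
    rw [← Complex.normSq_eq_norm_sq, Complex.normSq_apply]
    ring
  have hn : ‖∫ h, W h * G h ∂(mu0 P)‖ ≤ (√A1 + √A2) * (√B1 + √B2) := by
    rw [hint]
    refine (norm_add_le _ _).trans ?_
    rw [norm_mul, Complex.norm_I, mul_one, Complex.norm_real, Complex.norm_real,
      Real.norm_eq_abs, Real.norm_eq_abs]
    have e1 := abs_sub (∫ h, (W h).re * (G h).re ∂(mu0 P)) (∫ h, (W h).im * (G h).im ∂(mu0 P))
    have e2 := abs_add_le (∫ h, (W h).re * (G h).im ∂(mu0 P))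
      (∫ h, (W h).im * (G h).re ∂(mu0 P))
    nlinarith
  have hs1 := Real.sq_sqrt a1
  have hs2 := Real.sq_sqrt a2
  have ht1 := Real.sq_sqrt b1
  have ht2 := Real.sq_sqrt b2
  have h5 : (√A1 + √A2) ^ 2 ≤ 2 * (A1 + A2) := by
    nlinarith [sq_nonneg (√A1 - √A2)]
  have h6 : (√B1 + √B2) ^ 2 ≤ 2 * (B1 + B2) := by
    nlinarith [sq_nonneg (√B1 - √B2)]
  rw [hQ, hG2]
  calc ‖∫ h, W h * G h ∂(mu0 P)‖ ^ 2 ≤ ((√A1 + √A2) * (√B1 + √B2)) ^ 2 :=
        pow_le_pow_left₀ (norm_nonneg _) hn 2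
    _ = (√A1 + √A2) ^ 2 * (√B1 + √B2) ^ 2 := by ring
    _ ≤ (2 * (A1 + A2)) * (2 * (B1 + B2)) :=
        mul_le_mul h5 h6 (sq_nonneg _) (by positivity)
    _ = 4 * (A1 + A2) * (B1 + B2) := by ring

end Vale.Agent.P153.F.SD
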