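import Vale.Agent.P153.F.SD.Hp2

/-! P153, product Schwinger-Dyson, half-plane statement: the reflected square of the null functional. -/

namespace Vale.Agent.P153.F.SD

open Finset Filter Topology MeasureTheory
open Vale.Agent.P145.FA (gauss_sum PolyBdd LegForm extrap)

variable {P : Measure (Fld)}

lemma ev_congr {w : (ℤ × ℤ) →₀ ℝ} {h h' : Hgt} (hh : ∀ q ∈ w.support, h q = h' q) :
    ev w h = ev w h' := by
  unfold ev
  exact Finsupp.sum_congr fun q hq => by rw [hh q hq]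

lemma norm_exp_ev (x : ℝ) : ‖Complex.exp (Complex.I * (x : ℂ))‖ = 1 := by
  rw [mul_comm]; exact Complex.norm_exp_ofReal_mul_I x

lemma norm_fac (x α : ℝ) : ‖Complex.exp (Complex.I * (x : ℂ)) - (α : ℂ)‖ ≤ 1 + |α| := by
  refine (norm_sub_le _ _).trans ?_
  rw [norm_exp_ev, Complex.norm_real, Real.norm_eq_abs]

lemma norm_Yf (w u : (ℤ × ℤ) →₀ ℝ) (α : ℝ) (h : Hgt) : ‖Yf w u α h‖ ≤ 1 + |α| := by
  unfold Yf
  rw [norm_mul, norm_exp_ev, one_mul]
  exact norm_fac _ _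

lemma measurable_Yf (w u : (ℤ × ℤ) →₀ ℝ) (α : ℝ) : Measurable (Yf w u α) := by
  have h1 : ∀ v : (ℤ × ℤ) →₀ ℝ, Measurable fun h : Hgt =>
      Complex.exp (Complex.I * (ev v h : ℂ)) := fun v =>
    Complex.measurable_exp.comp ((Complex.measurable_ofReal.comp (measurable_ev v)).const_mul _)
  exact (h1 w).mul ((h1 u).sub_const _)

lemma norm_Wf (w u φ : (ℤ × ℤ) →₀ ℝ) (α K : ℝ) (h : Hgt) :
    ‖Wf w u φ α K h‖ ≤ (1 + |α|) * Real.exp (-((ev φ h) ^ 2 / (2 * K ^ 2))) := by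
  unfold Wf
  rw [norm_mul, Complex.norm_real, Real.norm_eq_abs, abs_of_pos (Real.exp_pos _)]
  exact mul_le_mul_of_nonneg_right (norm_Yf _ _ _ _) (Real.exp_pos _).le

lemma measurable_Wf (w u φ : (ℤ × ℤ) →₀ ℝ) (α K : ℝ) : Measurable (Wf w u φ α K) :=
  (measurable_Yf w u α).mul (Complex.measurable_ofReal.comp (Real.measurable_exp.comp
    (((measurable_ev φ).pow_const 2).div_const _).neg))

lemma integrable_gauss2 [IsProbabilityMeasure P] {φ : (ℤ × ℤ) →₀ ℝ} (hφ : mass φ = 1) {K : ℝ}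
    (hK : 1 ≤ K) : Integrable (fun h => Real.exp (-((ev φ h) ^ 2 / (2 * K ^ 2)))) (mu0 P) := by
  have h2 : (1 : ℝ) ≤ √2 := by
    rw [show (1 : ℝ) = √1 by simp]
    exact Real.sqrt_le_sqrt (by norm_num)
  have h := integrable_gauss (P := P) hφ (K := √2 * K) (by nlinarith)
  rwa [mul_pow, Real.sq_sqrt (by norm_num)] at h

lemma adm_Wf [IsProbabilityMeasure P] {w u φ : (ℤ × ℤ) →₀ ℝ} (hφ : mass φ = 1) (α : ℝ) {K : ℝ}
    (hK : 1 ≤ K) {A : Set (ℤ × ℤ)}
    (hA : ∀ q, q ∈ w.support ∨ q ∈ u.support ∨ q ∈ φ.support → q ∈ A) :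
    Adm P A (Wf w u φ α K) := by
  classical
  refine ⟨⟨w.support ∪ (u.support ∪ φ.support), fun q hq => ?_, fun h h' hh => ?_⟩,
    ⟨(1 + |α|), fun h => ?_⟩, ?_⟩
  · simp only [Finset.mem_union] at hq
    exact hA q hq
  · have e1 : ev w h = ev w h' := ev_congr fun q hq => hh q (Finset.mem_union_left _ hq)
    have e2 : ev u h = ev u h' := ev_congr fun q hq =>
      hh q (Finset.mem_union_right _ (Finset.mem_union_left _ hq))
    have e3 : ev φ h = ev φ h' := ev_congr fun q hq =>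
      hh q (Finset.mem_union_right _ (Finset.mem_union_right _ hq))
    unfold Wf Yf
    rw [e1, e2, e3]
  · refine (norm_Wf w u φ α K h).trans (mul_le_of_le_one_right (by positivity) ?_)
    exact Real.exp_le_one_iff.2 (neg_nonpos.2 (by positivity))
  · refine Integrable.mono' ((integrable_gauss2 hφ hK).const_mul (1 + |α|))
      (measurable_Wf w u φ α K).aestronglyMeasurable (Eventually.of_forall (norm_Wf w u φ α K))

/-- gradient part of the reflected square -/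
noncomputable def Zf (w u φ : (ℤ × ℤ) →₀ ℝ) (α : ℝ) (ω : Fld) : ℂ :=
  Complex.exp (Complex.I * ((ev w (pth ω) - ev (rf w) (pth ω) : ℝ) : ℂ)) *
    (Complex.exp (Complex.I * (ev u (pth ω) : ℂ)) - (α : ℂ)) *
    (Complex.exp (Complex.I * ((-ev (rf u) (pth ω) : ℝ) : ℂ)) - (α : ℂ))

lemma measurable_evp (v : (ℤ × ℤ) →₀ ℝ) : Measurable fun ω => ev v (pth ω) :=
  (measurable_ev v).comp (measurable_pi_iff.2 fun q => measurable_pthq q)

lemma measurable_expc {X : Fld → ℝ} (hX : Measurable X) :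
    Measurable fun ω => Complex.exp (Complex.I * (X ω : ℂ)) :=
  Complex.measurable_exp.comp ((Complex.measurable_ofReal.comp hX).const_mul _)

lemma measurable_Zf (w u φ : (ℤ × ℤ) →₀ ℝ) (α : ℝ) : Measurable (Zf w u φ α) :=
  ((measurable_expc ((measurable_evp w).sub (measurable_evp _))).mul
    ((measurable_expc (measurable_evp u)).sub_const _)).mul
    ((measurable_expc (measurable_evp (rf u)).neg).sub_const _)

lemma norm_Zf (w u φ : (ℤ × ℤ) →₀ ℝ) (α : ℝ) (ω : Fld) :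
    ‖Zf w u φ α ω‖ ≤ (1 + |α|) ^ 2 := by
  unfold Zf
  rw [norm_mul, norm_mul, norm_exp_ev, one_mul, pow_two]
  exact mul_le_mul (norm_fac _ _) (norm_fac _ _) (norm_nonneg _) (by positivity)

/-- the reflected square, before summation over the levels -/
lemma Wf_refl {w u φ : (ℤ × ℤ) →₀ ℝ} (hu : mass u = 0) (hφ : mass φ = 1) (α K : ℝ) (hK : K ≠ 0)
    (ω : Fld) (k : ℤ) :
    Wf w u φ α K (fun q => pth ω q + 2 * k) *
      (starRingEnd ℂ) (Wf w u φ α K (pb (dY.θ 0) (fun q => pth ω q + 2 * k))) =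
    (Zf w u φ α ω * ((Real.exp (-((ev (rf φ) (pth ω) - ev φ (pth ω)) ^ 2 / (4 * K ^ 2))) : ℝ) : ℂ)) *
      ((Real.exp (-(((ev φ (pth ω) + ev (rf φ) (pth ω)) / 2 + 2 * k) ^ 2 / K ^ 2)) : ℝ) : ℂ) := by
  have e : ∀ v : (ℤ × ℤ) →₀ ℝ, ev v (fun q => pth ω q + 2 * k) = ev v (pth ω) + mass v * (2 * k) := by
    intro v
    rw [ev_shift]
    push_cast
    ring
  unfold Wf Yf Zf
  simp only [← ev_rf, e, hu, hφ, mass_rf]
  simp only [map_mul, map_sub, Complex.conj_ofReal, ← Complex.exp_conj, map_add, Complex.conj_I]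
  have hexp : Real.exp (-((ev φ (pth ω) + 1 * (2 * k)) ^ 2 / (2 * K ^ 2))) *
      Real.exp (-((ev (rf φ) (pth ω) + 1 * (2 * k)) ^ 2 / (2 * K ^ 2))) =
      Real.exp (-((ev (rf φ) (pth ω) - ev φ (pth ω)) ^ 2 / (4 * K ^ 2))) *
      Real.exp (-(((ev φ (pth ω) + ev (rf φ) (pth ω)) / 2 + 2 * k) ^ 2 / K ^ 2)) := by
    rw [← Real.exp_add, ← Real.exp_add]
    congr 1
    field_simp
    ring
  have hexpC : ((Real.exp (-((ev φ (pth ω) + 1 * (2 * k)) ^ 2 / (2 * K ^ 2))) : ℝ) : ℂ) *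
      ((Real.exp (-((ev (rf φ) (pth ω) + 1 * (2 * k)) ^ 2 / (2 * K ^ 2))) : ℝ) : ℂ) =
      ((Real.exp (-((ev (rf φ) (pth ω) - ev φ (pth ω)) ^ 2 / (4 * K ^ 2))) : ℝ) : ℂ) *
      ((Real.exp (-(((ev φ (pth ω) + ev (rf φ) (pth ω)) / 2 + 2 * k) ^ 2 / K ^ 2)) : ℝ) : ℂ) := by
    rw [← Complex.ofReal_mul, ← Complex.ofReal_mul, hexp]
  have hw : Complex.exp (Complex.I * ((ev w (pth ω) + mass w * (2 * k) : ℝ) : ℂ)) *
      Complex.exp (-Complex.I * ((ev (rf w) (pth ω) + mass w * (2 * k) : ℝ) : ℂ)) =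
      Complex.exp (Complex.I * ((ev w (pth ω) - ev (rf w) (pth ω) : ℝ) : ℂ)) := by
    rw [← Complex.exp_add]
    congr 1
    push_cast
    ring
  have hu1 : Complex.exp (Complex.I * ((ev u (pth ω) + 0 * (2 * k) : ℝ) : ℂ)) =
      Complex.exp (Complex.I * (ev u (pth ω) : ℂ)) := by
    rw [zero_mul, add_zero]
  have hu2 : Complex.exp (-Complex.I * ((ev (rf u) (pth ω) + 0 * (2 * k) : ℝ) : ℂ)) =
      Complex.exp (Complex.I * ((-ev (rf u) (pth ω) : ℝ) : ℂ)) := by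
    rw [zero_mul, add_zero]
    congr 1
    push_cast
    ring
  rw [hu1, hu2]
  calc _ = (Complex.exp (Complex.I * ((ev w (pth ω) + mass w * (2 * k) : ℝ) : ℂ)) *
      Complex.exp (-Complex.I * ((ev (rf w) (pth ω) + mass w * (2 * k) : ℝ) : ℂ))) *
      (Complex.exp (Complex.I * (ev u (pth ω) : ℂ)) - (α : ℂ)) *
      (Complex.exp (Complex.I * ((-ev (rf u) (pth ω) : ℝ) : ℂ)) - (α : ℂ)) *
      (((Real.exp (-((ev φ (pth ω) + 1 * (2 * k)) ^ 2 / (2 * K ^ 2))) : ℝ) : ℂ) *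
      ((Real.exp (-((ev (rf φ) (pth ω) + 1 * (2 * k)) ^ 2 / (2 * K ^ 2))) : ℝ) : ℂ)) := by ring
    _ = _ := by
      rw [hw, hexpC]
      ring

end Vale.Agent.P153.F.SD
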