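import Vale.Agent.P153.F.SD.Hp3

/-! P153, product Schwinger-Dyson: the half-plane statement. -/

namespace Vale.Agent.P153.F.SD

open Finset Filter Topology MeasureTheory
open Vale.Agent.P145.FA (gauss_sum PolyBdd LegForm extrap)

variable {P : Measure (Fld)}

/-- the neutral exponentials -/
noncomputable def En (w u φ : (ℤ × ℤ) →₀ ℝ) (s t z : ℝ) (ω : Fld) : ℂ :=
  Complex.exp (Complex.I * ((ev (w - rf w + s • u - t • rf u + z • (rf φ - φ)) (pth ω) : ℝ) : ℂ))

lemma measurable_En (w u φ : (ℤ × ℤ) →₀ ℝ) (s t z : ℝ) : Measurable (En w u φ s t z) :=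
  measurable_expc (measurable_evp _)

lemma norm_En (w u φ : (ℤ × ℤ) →₀ ℝ) (s t z : ℝ) (ω : Fld) : ‖En w u φ s t z ω‖ = 1 :=
  norm_exp_ev _

lemma Zf_expand (w u φ : (ℤ × ℤ) →₀ ℝ) (α z : ℝ) (ω : Fld) :
    Zf w u φ α ω * Complex.exp (Complex.I *
      ((ev (rf φ) (pth ω) - ev φ (pth ω) : ℝ) : ℂ) * (z : ℂ)) =
    En w u φ 1 1 z ω - α * En w u φ 1 0 z ω - α * En w u φ 0 1 z ω + α ^ 2 * En w u φ 0 0 z ω := by
  have e : ∀ s t : ℝ, En w u φ s t z ω =
      Complex.exp (Complex.I * ((ev w (pth ω) - ev (rf w) (pth ω) : ℝ) : ℂ)) *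
      Complex.exp (Complex.I * ((s * ev u (pth ω) : ℝ) : ℂ)) *
      Complex.exp (Complex.I * ((t * -ev (rf u) (pth ω) : ℝ) : ℂ)) *
      Complex.exp (Complex.I * ((ev (rf φ) (pth ω) - ev φ (pth ω) : ℝ) : ℂ) * (z : ℂ)) := by
    intro s t
    unfold En
    rw [← Complex.exp_add, ← Complex.exp_add, ← Complex.exp_add]
    congr 1
    rw [ev_add, ev_smul, ev_sub, ev_sub, ev_add, ev_sub, ev_smul, ev_smul]
    push_cast
    ring
  rw [e, e, e, e]
  unfold Zf
  simp only [one_mul, zero_mul, Complex.ofReal_zero, mul_zero, Complex.exp_zero, mul_one]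
  ring

lemma gauss_fourier {K : ℝ} (hK : 0 < K) (x : ℝ) :
    ((Real.exp (-(x ^ 2 / (4 * K ^ 2))) : ℝ) : ℂ) =
      ((K / √Real.pi : ℝ) : ℂ) * ∫ z : ℝ, Complex.exp (Complex.I * (x : ℂ) * (z : ℂ)) *
        Complex.exp (-((K ^ 2 : ℝ) : ℂ) * (z : ℂ) ^ 2) := by
  have hb : 0 < (((K ^ 2 : ℝ) : ℂ)).re := by rw [Complex.ofReal_re]; positivity
  rw [fourierIntegral_gaussian hb (x : ℂ)]
  have hpi := Real.pi_pos
  have e1 : (((Real.pi : ℝ) : ℂ) / ((K ^ 2 : ℝ) : ℂ)) ^ (1 / 2 : ℂ) = ((√Real.pi / K : ℝ) : ℂ) := by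
    rw [← Complex.ofReal_div]
    have h2 : (((Real.pi / K ^ 2 : ℝ)) : ℂ) ^ (1 / 2 : ℂ) =
        (((Real.pi / K ^ 2) ^ (1 / 2 : ℝ) : ℝ) : ℂ) := by
      rw [Complex.ofReal_cpow (by positivity)]
      push_cast
      rfl
    rw [h2, ← Real.sqrt_eq_rpow, Real.sqrt_div hpi.le, Real.sqrt_sq hK.le]
  rw [e1, ← mul_assoc, ← Complex.ofReal_mul]
  have e2 : K / √Real.pi * (√Real.pi / K) = 1 := by
    have : √Real.pi ≠ 0 := (Real.sqrt_pos.2 hpi).ne'
    field_simp
  rw [e2, Complex.ofReal_one, one_mul, Complex.ofReal_exp]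
  congr 1
  push_cast
  ring

/-- integral of the gradient part against a Gaussian -/
lemma integral_Zf [IsProbabilityMeasure P] (w u φ : (ℤ × ℤ) →₀ ℝ) (α : ℝ) {K : ℝ} (hK : 0 < K) :
    ∫ ω, Zf w u φ α ω * ((Real.exp (-((ev (rf φ) (pth ω) - ev φ (pth ω)) ^ 2 / (4 * K ^ 2))) : ℝ) :
      ℂ) ∂P = ((K / √Real.pi : ℝ) : ℂ) * ∫ z : ℝ, (∫ ω, Zf w u φ α ω * Complex.exp (Complex.I *
      ((ev (rf φ) (pth ω) - ev φ (pth ω) : ℝ) : ℂ) * (z : ℂ)) ∂P) *
        Complex.exp (-((K ^ 2 : ℝ) : ℂ) * (z : ℂ) ^ 2) := by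
  have hg : Integrable (fun z : ℝ => Real.exp (-(K ^ 2) * z ^ 2)) :=
    integrable_exp_neg_mul_sq (by positivity)
  have hnorm : ∀ z : ℝ, ‖Complex.exp (-((K ^ 2 : ℝ) : ℂ) * (z : ℂ) ^ 2)‖ =
      Real.exp (-(K ^ 2) * z ^ 2) := by
    intro z
    rw [Complex.norm_exp]
    congr 1
    rw [← Complex.ofReal_pow, ← Complex.ofReal_neg, ← Complex.ofReal_mul, Complex.ofReal_re]
  have hmeas : Measurable fun p : Fld × ℝ => Zf w u φ α p.1 * (Complex.exp (Complex.I *
      ((ev (rf φ) (pth p.1) - ev φ (pth p.1) : ℝ) : ℂ) * (p.2 : ℂ)) *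
        Complex.exp (-((K ^ 2 : ℝ) : ℂ) * (p.2 : ℂ) ^ 2)) := by
    refine ((measurable_Zf w u φ α).comp measurable_fst).mul ?_
    refine Measurable.mul ?_ ?_
    · refine Complex.measurable_exp.comp ?_
      refine Measurable.mul ?_ (Complex.measurable_ofReal.comp measurable_snd)
      refine Measurable.const_mul (Complex.measurable_ofReal.comp ?_) _
      exact (((measurable_evp (rf φ)).sub (measurable_evp φ)).comp measurable_fst)
    · refine Complex.measurable_exp.comp ?_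
      exact ((Complex.measurable_ofReal.comp measurable_snd).pow_const 2).const_mul _
  have hint : Integrable (fun p : Fld × ℝ => Zf w u φ α p.1 * (Complex.exp (Complex.I *
      ((ev (rf φ) (pth p.1) - ev φ (pth p.1) : ℝ) : ℂ) * (p.2 : ℂ)) *
        Complex.exp (-((K ^ 2 : ℝ) : ℂ) * (p.2 : ℂ) ^ 2))) (P.prod volume) := by
    refine Integrable.mono' (((hg.comp_snd P)).const_mul ((1 + |α|) ^ 2)) hmeas.aestronglyMeasurable
      (Eventually.of_forall fun p => ?_)
    rw [norm_mul, norm_mul, hnorm]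
    have h1 : ‖Complex.exp (Complex.I * ((ev (rf φ) (pth p.1) - ev φ (pth p.1) : ℝ) : ℂ) *
        (p.2 : ℂ))‖ = 1 := by
      rw [mul_assoc, ← Complex.ofReal_mul]
      exact norm_exp_ev _
    rw [h1, one_mul]
    exact mul_le_mul_of_nonneg_right (norm_Zf _ _ _ _ _) (Real.exp_pos _).le
  have h1 : ∀ ω : Fld, Zf w u φ α ω *
      ((Real.exp (-((ev (rf φ) (pth ω) - ev φ (pth ω)) ^ 2 / (4 * K ^ 2))) : ℝ) : ℂ) =
      ((K / √Real.pi : ℝ) : ℂ) * ∫ z : ℝ, Zf w u φ α ω * (Complex.exp (Complex.I *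
      ((ev (rf φ) (pth ω) - ev φ (pth ω) : ℝ) : ℂ) * (z : ℂ)) *
        Complex.exp (-((K ^ 2 : ℝ) : ℂ) * (z : ℂ) ^ 2)) := by
    intro ω
    rw [gauss_fourier hK, integral_const_mul]
    ring
  simp only [h1]
  rw [integral_const_mul, integral_integral_swap hint]
  congr 1
  refine integral_congr_ae (Eventually.of_forall fun z => ?_)
  simp only
  rw [← integral_mul_const]
  refine integral_congr_ae (Eventually.of_forall fun ω => ?_)
  simp only
  ring

/-- the Gaussian integral of the gradient part tends to zero -/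
lemma tendsto_Zf [IsProbabilityMeasure P] {w u φ : ℕ → (ℤ × ℤ) →₀ ℝ} {α : ℝ}
    (hS : SDseq P w u φ α) {K : ℝ} (hK : 0 < K) :
    Tendsto (fun n => ∫ ω, Zf (w n) (u n) (φ n) α ω *
      ((Real.exp (-((ev (rf (φ n)) (pth ω) - ev (φ n) (pth ω)) ^ 2 / (4 * K ^ 2))) : ℝ) : ℂ) ∂P)
      atTop (𝓝 0) := by
  obtain ⟨L, hL1, hL2, hL3⟩ := hS.lim
  have hg : Integrable (fun z : ℝ => Real.exp (-(K ^ 2) * z ^ 2)) :=
    integrable_exp_neg_mul_sq (by positivity)
  have hnorm : ∀ z : ℝ, ‖Complex.exp (-((K ^ 2 : ℝ) : ℂ) * (z : ℂ) ^ 2)‖ =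
      Real.exp (-(K ^ 2) * z ^ 2) := by
    intro z
    rw [Complex.norm_exp]
    congr 1
    rw [← Complex.ofReal_pow, ← Complex.ofReal_neg, ← Complex.ofReal_mul, Complex.ofReal_re]
  have hinner : ∀ z : ℝ, Tendsto (fun n => ∫ ω, Zf (w n) (u n) (φ n) α ω *
      Complex.exp (Complex.I * ((ev (rf (φ n)) (pth ω) - ev (φ n) (pth ω) : ℝ) : ℂ) * (z : ℂ)) ∂P)
      atTop (𝓝 0) := by
    intro z
    have hi : ∀ (n : ℕ) (s t : ℝ), Integrable (En (w n) (u n) (φ n) s t z) P := fun n s t =>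
      Integrable.of_bound (measurable_En _ _ _ _ _ _).aestronglyMeasurable 1
        (Eventually.of_forall fun ω => (norm_En _ _ _ _ _ _ ω).le)
    have e : ∀ n, ∫ ω, Zf (w n) (u n) (φ n) α ω *
      Complex.exp (Complex.I * ((ev (rf (φ n)) (pth ω) - ev (φ n) (pth ω) : ℝ) : ℂ) * (z : ℂ)) ∂P =
      ∫ ω, En (w n) (u n) (φ n) 1 1 z ω ∂P - α * ∫ ω, En (w n) (u n) (φ n) 1 0 z ω ∂P -
        α * ∫ ω, En (w n) (u n) (φ n) 0 1 z ω ∂P + α ^ 2 * ∫ ω, En (w n) (u n) (φ n) 0 0 z ω ∂P := by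
      intro n
      simp only [Zf_expand]
      have j10 : Integrable (fun ω => (α : ℂ) * En (w n) (u n) (φ n) 1 0 z ω) P :=
        (hi n 1 0).const_mul _
      have j01 : Integrable (fun ω => (α : ℂ) * En (w n) (u n) (φ n) 0 1 z ω) P :=
        (hi n 0 1).const_mul _
      have j00 : Integrable (fun ω => (α : ℂ) ^ 2 * En (w n) (u n) (φ n) 0 0 z ω) P :=
        (hi n 0 0).const_mul _
      have ja : Integrable (fun ω => En (w n) (u n) (φ n) 1 1 z ω -
        (α : ℂ) * En (w n) (u n) (φ n) 1 0 z ω) P := (hi n 1 1).sub j10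
      have jb : Integrable (fun ω => En (w n) (u n) (φ n) 1 1 z ω -
        (α : ℂ) * En (w n) (u n) (φ n) 1 0 z ω - (α : ℂ) * En (w n) (u n) (φ n) 0 1 z ω) P :=
        ja.sub j01
      rw [integral_add jb j00, integral_sub ja j01, integral_sub (hi n 1 1) j10,
        integral_const_mul, integral_const_mul, integral_const_mul]
    simp only [e]
    have t11 := hL1 1 1 z (Or.inr rfl) (Or.inr rfl)
    have t10 := hL1 1 0 z (Or.inr rfl) (Or.inl rfl)
    have t01 := hL1 0 1 z (Or.inl rfl) (Or.inr rfl)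
    have t00 := hL1 0 0 z (Or.inl rfl) (Or.inl rfl)
    have h := ((t11.sub (t10.const_mul (α : ℂ))).sub (t01.const_mul (α : ℂ))).add
      (t00.const_mul ((α : ℂ) ^ 2))
    have h0 : L 1 1 z - α * L 1 0 z - α * L 0 1 z + (α : ℂ) ^ 2 * L 0 0 z = 0 := by
      have a1 := hL2 1 z (Or.inr rfl)
      have a2 := hL2 0 z (Or.inl rfl)
      have a3 := hL3 0 z (Or.inl rfl)
      rw [a1, a2, a3]
      ring
    rw [h0] at h
    exact h
  simp only [integral_Zf _ _ _ _ hK]
  have hdc := tendsto_integral_of_dominated_convergence (μ := (volume : Measure ℝ))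
    (F := fun n (z : ℝ) => (∫ ω, Zf (w n) (u n) (φ n) α ω * Complex.exp (Complex.I *
      ((ev (rf (φ n)) (pth ω) - ev (φ n) (pth ω) : ℝ) : ℂ) * (z : ℂ)) ∂P) *
        Complex.exp (-((K ^ 2 : ℝ) : ℂ) * (z : ℂ) ^ 2)) (f := fun _ => 0)
    (fun z => (1 + |α|) ^ 2 * Real.exp (-(K ^ 2) * z ^ 2)) ?_ (hg.const_mul _) ?_ ?_
  · have h := hdc.const_mul (((K / √Real.pi : ℝ) : ℂ))
    rw [integral_zero, mul_zero] at h
    exact h
  · intro n
    refine AEStronglyMeasurable.mul ?_ ?_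
    · refine Measurable.aestronglyMeasurable ?_
      refine StronglyMeasurable.measurable ?_
      refine StronglyMeasurable.integral_prod_left (f := fun (ω : Fld) (z : ℝ) =>
        Zf (w n) (u n) (φ n) α ω * Complex.exp (Complex.I *
      ((ev (rf (φ n)) (pth ω) - ev (φ n) (pth ω) : ℝ) : ℂ) * (z : ℂ))) ?_
      refine Measurable.stronglyMeasurable ?_
      refine ((measurable_Zf _ _ _ _).comp measurable_fst).mul ?_
      refine Complex.measurable_exp.comp ?_
      refine Measurable.mul ?_ (Complex.measurable_ofReal.comp measurable_snd)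
      refine Measurable.const_mul (Complex.measurable_ofReal.comp ?_) _
      exact (((measurable_evp (rf (φ n))).sub (measurable_evp (φ n))).comp measurable_fst)
    · refine Measurable.aestronglyMeasurable (Complex.measurable_exp.comp ?_)
      exact (Complex.measurable_ofReal.pow_const 2).const_mul _
  · intro n
    refine Eventually.of_forall fun z => ?_
    rw [norm_mul, hnorm]
    refine mul_le_mul_of_nonneg_right ?_ (Real.exp_pos _).le
    refine (norm_integral_le_of_norm_le_const (C := (1 + |α|) ^ 2)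
      (Eventually.of_forall fun ω => ?_)).trans ?_
    · rw [norm_mul]
      have h1 : ‖Complex.exp (Complex.I * ((ev (rf (φ n)) (pth ω) - ev (φ n) (pth ω) : ℝ) : ℂ) *
          (z : ℂ))‖ = 1 := by
        rw [mul_assoc, ← Complex.ofReal_mul]
        exact norm_exp_ev _
      rw [h1, mul_one]
      exact norm_Zf _ _ _ _ _
    · rw [measureReal_def, measure_univ, ENNReal.toReal_one, mul_one]
  · refine Eventually.of_forall fun z => ?_
    have := (hinner z).mul_const (Complex.exp (-((K ^ 2 : ℝ) : ℂ) * (z : ℂ) ^ 2))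
    rwa [zero_mul] at this

/-- Half-plane statement. -/
theorem hp_main (P : Measure Fld) [IsProbabilityMeasure P] (hI : Inv P dY) (hR : RP P dY)
    (w u φ : ℕ → (ℤ × ℤ) →₀ ℝ) (α : ℝ) (hS : SDseq P w u φ α)
    (hsupp : ∀ n, ∀ q, q ∈ (w n).support ∨ q ∈ (u n).support ∨ q ∈ (φ n).support → 0 ≤ q.2) :
    ∃ e : ℝ → ℝ, Tendsto (fun K => K ^ 2 * e K) atTop (𝓝 0) ∧ ∀ K ≥ 1,
    (∀ n, Adm P {q | 0 ≤ q.2} (Wf (w n) (u n) (φ n) α K)) ∧
    ∀ ε > 0, ∀ᶠ n in atTop, ∀ G : Hgt → ℂ, Adm P {q | q.2 ≤ 0} G →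
    ‖∫ h, Wf (w n) (u n) (φ n) α K h * G h ∂(mu0 P)‖ ^ 2 ≤
      (e K + ε) * ∫ h, ‖G h‖ ^ 2 ∂(mu0 P) := by
  obtain ⟨C, hC, hg⟩ := gauss_sum
  refine ⟨fun K => 4 * ((1 + |α|) ^ 2 * (C * (K * Real.exp (-K ^ 2)))), ?_, fun K hK => ?_⟩
  · have h1 : Tendsto (fun K : ℝ => K ^ 3 * Real.exp (-K)) atTop (𝓝 0) :=
      Real.tendsto_pow_mul_exp_neg_atTop_nhds_zero 3
    have h2 : Tendsto (fun K : ℝ => K ^ 3 * Real.exp (-K ^ 2)) atTop (𝓝 0) := by
      refine squeeze_zero' ?_ ?_ h1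
      · filter_upwards [eventually_ge_atTop (0 : ℝ)] with K hK
        positivity
      · filter_upwards [eventually_ge_atTop (1 : ℝ)] with K hK
        refine mul_le_mul_of_nonneg_left (Real.exp_le_exp.2 ?_) (by positivity)
        nlinarith
    have h3 := h2.const_mul (4 * ((1 + |α|) ^ 2 * C))
    rw [mul_zero] at h3
    refine h3.congr fun K => ?_
    ring
  · have hK0 : 0 < K := by linarith
    have hW : ∀ n, Adm P {q : ℤ × ℤ | 0 ≤ q.2} (Wf (w n) (u n) (φ n) α K) := fun n =>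
      adm_Wf (hS.mφ n) α hK fun q hq => hsupp n q hq
    refine ⟨hW, fun ε hε => ?_⟩
    have ht := tendsto_Zf hS hK0
    have hcpos : 0 < K * √Real.pi / 2 := by have := Real.pi_pos; positivity
    have hev := (Metric.tendsto_nhds.1 ht) (ε / 4 / (K * √Real.pi / 2)) (by positivity)
    filter_upwards [hev] with n hn
    intro G hG
    have hU : ∀ q ∈ {q : ℤ × ℤ | 0 ≤ q.2}, dY.θ 0 q ∈ {q : ℤ × ℤ | q.2 ≤ 0} := by
      intro q hq
      simp only [Set.mem_ofPred_eq, dY] at hq ⊢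
      omega
    set Z : Fld → ℂ := fun ω => Zf (w n) (u n) (φ n) α ω *
      ((Real.exp (-((ev (rf (φ n)) (pth ω) - ev (φ n) (pth ω)) ^ 2 / (4 * K ^ 2))) : ℝ) : ℂ) with hZd
    set T : Fld → ℝ := fun ω => (ev (φ n) (pth ω) + ev (rf (φ n)) (pth ω)) / 2 with hTd
    have hZn : ∀ ω, ‖Z ω‖ ≤ (1 + |α|) ^ 2 := by
      intro ω
      rw [hZd]
      simp only
      rw [norm_mul, Complex.norm_real, Real.norm_eq_abs, abs_of_pos (Real.exp_pos _)]
      refine (mul_le_of_le_one_right (norm_nonneg _) ?_).trans (norm_Zf _ _ _ _ _)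
      exact Real.exp_le_one_iff.2 (neg_nonpos.2 (by positivity))
    have hZm : Measurable Z := (measurable_Zf _ _ _ _).mul (Complex.measurable_ofReal.comp
      (Real.measurable_exp.comp ((((measurable_evp (rf (φ n))).sub
        (measurable_evp (φ n))).pow_const 2).div_const _).neg))
    have hTm : Measurable T := ((measurable_evp (φ n)).add (measurable_evp _)).div_const _
    have hWi : Integrable (fun h => Wf (w n) (u n) (φ n) α K h *
        (starRingEnd ℂ) (Wf (w n) (u n) (φ n) α K (pb (dY.θ 0) h))) (mu0 P) := by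
      obtain ⟨C', hC'⟩ := (hW n).bdd
      have hc : Integrable (fun h => (starRingEnd ℂ) (Wf (w n) (u n) (φ n) α K (pb (dY.θ 0) h)))
        (mu0 P) := Complex.conjCLE.integrable_comp_iff.2 ((hW n).refl hI hU).int
      exact hc.bdd_mul (hW n).int.1 (Eventually.of_forall hC')
    have hQ := integral_gauss (P := P) hK hWi hZn hTm hZm (fun ω k =>
      Wf_refl (hS.mu n) (hS.mφ n) α K hK0.ne' ω k)
    have hSm : Measurable fun ω => ∑' k : ℤ, Real.exp (-((T ω + 2 * k) ^ 2 / K ^ 2)) := by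
      have hme : ∀ k : ℤ, Measurable fun ω => ENNReal.ofReal
        (Real.exp (-((T ω + 2 * k) ^ 2 / K ^ 2))) := fun k =>
        ENNReal.measurable_ofReal.comp (Real.measurable_exp.comp
          ((((hTm.add_const _).pow_const 2).div_const _).neg))
      have h1 := (Measurable.ennreal_tsum hme).ennreal_toReal
      have e : (fun ω => ∑' k : ℤ, Real.exp (-((T ω + 2 * k) ^ 2 / K ^ 2))) = fun ω =>
          (∑' k : ℤ, ENNReal.ofReal (Real.exp (-((T ω + 2 * k) ^ 2 / K ^ 2)))).toReal := by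
        funext ω
        rw [← ENNReal.ofReal_tsum_of_nonneg (fun k => (Real.exp_pos _).le) (hg K hK (T ω)).1,
          ENNReal.toReal_ofReal (tsum_nonneg fun k => (Real.exp_pos _).le)]
      rw [e]
      exact h1
    have hZi : Integrable Z P := Integrable.of_bound hZm.aestronglyMeasurable _
      (Eventually.of_forall hZn)
    have hbd : ∀ ω, ‖Z ω * (((∑' k : ℤ, Real.exp (-((T ω + 2 * k) ^ 2 / K ^ 2)) -
        K * √Real.pi / 2 : ℝ)) : ℂ)‖ ≤ (1 + |α|) ^ 2 * (C * (K * Real.exp (-K ^ 2))) := by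
      intro ω
      rw [norm_mul, Complex.norm_real, Real.norm_eq_abs]
      exact mul_le_mul (hZn ω) (hg K hK (T ω)).2 (abs_nonneg _) (by positivity)
    have hDi : Integrable (fun ω => Z ω * (((∑' k : ℤ, Real.exp (-((T ω + 2 * k) ^ 2 / K ^ 2)) -
        K * √Real.pi / 2 : ℝ)) : ℂ)) P := Integrable.of_bound
      (hZm.mul (Complex.measurable_ofReal.comp (hSm.sub_const _))).aestronglyMeasurable _
      (Eventually.of_forall hbd)
    have hsplit : ∫ h, Wf (w n) (u n) (φ n) α K h *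
        (starRingEnd ℂ) (Wf (w n) (u n) (φ n) α K (pb (dY.θ 0) h)) ∂(mu0 P) =
        ((K * √Real.pi / 2 : ℝ) : ℂ) * ∫ ω, Z ω ∂P + ∫ ω, Z ω * (((∑' k : ℤ,
          Real.exp (-((T ω + 2 * k) ^ 2 / K ^ 2)) - K * √Real.pi / 2 : ℝ)) : ℂ) ∂P := by
      rw [hQ, ← integral_const_mul, ← integral_add (hZi.const_mul _) hDi]
      refine integral_congr_ae (Eventually.of_forall fun ω => ?_)
      simp only
      push_cast
      ring
    have hre : (∫ h, Wf (w n) (u n) (φ n) α K h *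
        (starRingEnd ℂ) (Wf (w n) (u n) (φ n) α K (pb (dY.θ 0) h)) ∂(mu0 P)).re ≤
        ε / 4 + (1 + |α|) ^ 2 * (C * (K * Real.exp (-K ^ 2))) := by
      refine (Complex.re_le_norm _).trans ?_
      rw [hsplit]
      refine (norm_add_le _ _).trans (add_le_add ?_ ?_)
      · rw [norm_mul, Complex.norm_real, Real.norm_eq_abs, abs_of_pos hcpos]
        rw [dist_eq_norm, sub_zero] at hn
        have h1 := mul_le_mul_of_nonneg_left hn.le hcpos.le
        refine h1.trans (le_of_eq ?_)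
        field_simp
      · refine (norm_integral_le_of_norm_le_const (Eventually.of_forall hbd)).trans ?_
        rw [measureReal_def, measure_univ, ENNReal.toReal_one, mul_one]
    refine (rp_csC hI hR (hW n) hG).trans ?_
    refine mul_le_mul_of_nonneg_right ?_ (integral_nonneg fun h => sq_nonneg _)
    linarith

end Vale.Agent.P153.F.SD
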