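import Vale.Agent.P153.F.SD.Sd1
import Vale.Agent.P145.FA.Sd2

/-!
P153, product Schwinger-Dyson: the macroscopic input `SDseq` from the Gaussian limit in the plane.
-/

namespace Vale.Agent.P153.F.SD

open Finset Filter Topology MeasureTheory
open Vale.Agent.P145.PT (Sm TestOn lap)
open Vale.Agent.P145.FA (gst SDdat gff_square gst_sm gst_cs gst_int rr int_a int_b int_rr lap_neg
  lap_rr rr_sm cs_rr)
open Vale.Agent.P153.GFF (var2)

variable {P : Measure Fld} {f ψ χ : ℝ × ℝ → ℝ}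

lemma gst_app {δ : ℕ → ℝ} {w u φ : ℕ → (ℤ × ℤ) →₀ ℝ} (hw : App δ f w)
    (hu : App δ (fun x => -lap ψ x) u) (hφ : App δ χ φ) (s t z : ℝ) :
    App δ (gst f ψ χ s t z) (fun n => w n - rf (w n) + s • u n - t • rf (u n)
      + z • (rf (φ n) - φ n)) :=
  ((((hw.sub hw.rf).add (hu.smul s)).sub (hu.rf.smul t)).add ((hφ.rf.sub hφ).smul z))

lemma gff_eq (f g : ℝ × ℝ → ℝ) : GFF.gffCov f g = P152.GFF.S.gffCov f g := rfl

/-- The macroscopic input of the half-plane statement. -/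
theorem sdseq (hP : GFF.Plane P) {A : ℝ} (hA0 : 0 ≤ A)
    (hA : ∀ x : ℤ × ℤ, var2 P x ≤ A * (1 + |(x.1 : ℝ)| + |(x.2 : ℝ)|)) {κ : ℝ} (hclt : CLT P κ)
    {δ : ℕ → ℝ} (hδ : Tendsto δ atTop (𝓝[>] 0)) (h : SDdat f ψ χ) {w u φ : ℕ → (ℤ × ℤ) →₀ ℝ}
    (hw : App δ f w) (hu : App δ (fun x => -lap ψ x) u) (hφ : App δ χ φ)
    (mu : ∀ n, mass (u n) = 0) (mφ : ∀ n, mass (φ n) = 1) :
    SDseq P w u φ (Real.exp (-(κ * ∫ x, ψ x * f x) - (κ / 2) * ∫ x, ψ x * (-lap ψ x))) := by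
  refine ⟨mu, mφ, fun s t z => Complex.exp (-((κ * GFF.gffCov (gst f ψ χ s t z)
    (gst f ψ χ s t z) / 2 : ℝ) : ℂ)), fun s t z _ _ => ?_, fun t z ht => ?_, fun s z hs => ?_⟩
  · exact app_char hP hA0 hA hclt hδ ⟨gst_sm h s t z, gst_cs h s t z, gst_int h s t z⟩
      (gst_app hw hu hφ s t z)
  · have e : gst f ψ χ 1 t z = fun x => gst f ψ χ 0 t z x + -lap ψ x := by
      funext x; unfold gst; ring
    have h1 := gff_square (gst_sm h 0 t z).continuous (gst_cs h 0 t z) h.p1 h.p2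
    beta_reduce
    rw [gff_eq, gff_eq, e, h1, int_a h t z, Complex.ofReal_exp, ← Complex.exp_add]
    congr 1
    push_cast
    ring
  · have hψ' : Sm (fun x => -ψ (rr x)) := (h.p1.comp rr_sm).neg
    have cψ' : HasCompactSupport (fun x => -ψ (rr x)) := (cs_rr h.p2).neg
    have elap : ∀ x, lap (fun x => -ψ (rr x)) x = - lap ψ (rr x) := fun x => by
      rw [lap_neg (f := fun x => ψ (rr x)), lap_rr h.p1]
    have e : gst f ψ χ s 1 z = fun x => gst f ψ χ s 0 z x + -lap (fun x => -ψ (rr x)) x := by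
      funext x; rw [elap]; unfold gst; ring
    have h1 := gff_square (gst_sm h s 0 z).continuous (gst_cs h s 0 z) hψ' cψ'
    have h2 : ∫ x, (-ψ (rr x)) * (-lap (fun x => -ψ (rr x)) x) = ∫ x, ψ x * (-lap ψ x) := by
      rw [← int_rr (fun x => ψ x * (-lap ψ x))]
      refine integral_congr_ae (Eventually.of_forall fun x => ?_)
      simp only
      rw [elap]
      ring
    beta_reduce
    rw [gff_eq, gff_eq, e, h1, int_b h s z, h2, Complex.ofReal_exp, ← Complex.exp_add]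
    congr 1
    push_cast
    ring

end Vale.Agent.P153.F.SD
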