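import Vale.Agent.P153.F.SD.Defs
import Vale.Agent.P153.GFF.WBounds

/-!
P153, bounded domains: a smooth compactly supported function is approximated by finitely supported
weights on the triangular lattice of mesh `δ` with the exact total mass.
-/

open MeasureTheory Filter Topology Set

namespace Vale.Agent.P153.F.SD

open Vale.Agent.P153.GFF (pos wt box Csts ker)

/-- Constants of a smooth compactly supported function. -/
lemma exists_csts {f : ℝ × ℝ → ℝ} (h1 : ContDiff ℝ ((⊤ : ℕ∞) : WithTop ℕ∞) f)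
    (h2 : HasCompactSupport f) : ∃ K, Csts f K := by
  have hc : Continuous f := h1.continuous
  obtain ⟨B, hB⟩ := hc.bounded_above_of_compact_support h2
  obtain ⟨C, hC⟩ := h1.lipschitzWith_of_hasCompactSupport h2 (by simp)
  obtain ⟨M, hM0, hM⟩ := GFF.second_diff (by exact_mod_cast contDiff_infty.1 h1 2) h2
  obtain ⟨R, hR⟩ := h2.isCompact.isBounded.subset_closedBall (0 : ℝ × ℝ)
  have hBn : 0 ≤ B := (norm_nonneg _).trans (hB 0)
  have hCn : (0 : ℝ) ≤ C := C.2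
  refine ⟨1 + |R| + B + C + M, by positivity, hc, h2, ?_, ?_, ?_, ?_⟩
  · intro z hz
    by_contra hne
    have h4 : z ∈ tsupport f := subset_tsupport _ hne
    have h5 := hR h4
    rw [mem_closedBall_zero_iff, Prod.norm_def, sup_le_iff, Real.norm_eq_abs, Real.norm_eq_abs] at h5
    have := le_abs_self R
    rcases hz with h | h <;> linarith [h5.1, h5.2]
  · intro z
    have := hB z
    rw [Real.norm_eq_abs] at this
    have := abs_nonneg R
    linarith
  · intro x y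
    have h4 := hC.dist_le_mul x y
    rw [Real.dist_eq, dist_eq_norm] at h4
    refine h4.trans (mul_le_mul_of_nonneg_right ?_ (norm_nonneg _))
    have := abs_nonneg R
    linarith
  · intro x y
    refine (hM x y).trans (mul_le_mul_of_nonneg_right ?_ (by positivity))
    have := abs_nonneg R
    linarith

lemma csts_mono {f : ℝ × ℝ → ℝ} {K K' : ℝ} (h : Csts f K) (hK : K ≤ K') : Csts f K' where
  pos := h.pos.trans_le hK
  cont := h.cont
  supp := h.supp
  zero z hz := h.zero z (hz.imp (fun a => hK.trans_lt a) fun a => hK.trans_lt a)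
  bdd z := (h.bdd z).trans hK
  lip x y := (h.lip x y).trans (mul_le_mul_of_nonneg_right hK (norm_nonneg _))
  sec x y := (h.sec x y).trans (mul_le_mul_of_nonneg_right hK (by positivity))

variable {g : ℝ × ℝ → ℝ} {K δ : ℝ}

/-- a value of the function against the weight -/
lemma val_sub_wt (hg : Csts g K) (hδ : 0 < δ) (q : ℤ × ℤ) :
    |√3 / 2 * δ ^ 2 * g (δ • pos q) - wt δ g q| ≤ 2 * K * δ ^ 3 := by
  have h := GFF.wt_close hg hδ q (δ • pos q) 0 (by simp)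
  have e : √3 / 2 * δ ^ 2 * g (δ • pos q) - wt δ g q =
      -(δ ^ 2 * (wt δ g q / δ ^ 2 - √3 / 2 * g (δ • pos q))) := by
    field_simp
    ring
  rw [e, abs_neg, abs_mul, abs_of_pos (by positivity : (0 : ℝ) < δ ^ 2)]
  calc δ ^ 2 * |wt δ g q / δ ^ 2 - √3 / 2 * g (δ • pos q)|
      ≤ δ ^ 2 * (K * (2 * δ + 0)) := mul_le_mul_of_nonneg_left h (by positivity)
    _ = 2 * K * δ ^ 3 := by ring

lemma val_zero (hg : Csts g K) (hδ : 0 < δ) {q : ℤ × ℤ} (hq : q ∉ box δ K) :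
    g (δ • pos q) = 0 := by
  by_contra hne
  have h2 : ¬(K < |(δ • pos q).1| ∨ K < |(δ • pos q).2|) := fun h => hne (hg.zero _ h)
  rw [not_or, not_lt, not_lt] at h2
  obtain ⟨h2a, h2b⟩ := h2
  rw [Prod.smul_fst, smul_eq_mul, abs_mul, abs_of_pos hδ] at h2a
  rw [Prod.smul_snd, smul_eq_mul, abs_mul, abs_of_pos hδ] at h2b
  have h3 : |(pos q).1| ≤ K / δ := by
    rw [le_div_iff₀ hδ]
    linarith
  have h4 : |(pos q).2| ≤ K / δ := by
    rw [le_div_iff₀ hδ]
    linarith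
  have hq0 : 0 ≤ K / δ := div_nonneg hg.pos.le hδ.le
  unfold pos at h3 h4
  simp only at h3 h4
  have h5 : (1 : ℝ) ≤ √3 := by
    rw [Real.one_le_sqrt]
    norm_num
  have h6 : |(q.2 : ℝ)| ≤ 2 * (K / δ) := by
    rw [abs_mul, abs_of_pos (by positivity : (0 : ℝ) < √3 / 2)] at h4
    nlinarith [abs_nonneg (q.2 : ℝ)]
  have h8 : |(q.1 : ℝ)| ≤ 2 * (K / δ) := by
    have h10 : |(q.1 : ℝ)| ≤ |(q.1 : ℝ) + q.2 / 2| + |(q.2 : ℝ) / 2| := by
      have := abs_sub ((q.1 : ℝ) + q.2 / 2) ((q.2 : ℝ) / 2)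
      rw [add_sub_cancel_right] at this
      exact this
    rw [abs_div, abs_of_pos (by norm_num : (0 : ℝ) < 2)] at h10
    linarith
  apply hq
  have hc := Int.le_ceil (2 * (K / δ) + 6)
  rw [box, Finset.mem_product, Finset.mem_Icc, Finset.mem_Icc]
  rw [abs_le] at h6 h8
  refine ⟨⟨?_, ?_⟩, ?_, ?_⟩
  · have : (-(⌈2 * (K / δ) + 6⌉ : ℝ)) ≤ q.1 := by linarith
    exact_mod_cast this
  · have : (q.1 : ℝ) ≤ ⌈2 * (K / δ) + 6⌉ := by linarith
    exact_mod_cast this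
  · have : (-(⌈2 * (K / δ) + 6⌉ : ℝ)) ≤ q.2 := by linarith
    exact_mod_cast this
  · have : (q.2 : ℝ) ≤ ⌈2 * (K / δ) + 6⌉ := by linarith
    exact_mod_cast this

lemma card_box_le (hK : 0 < K) (hδ : 0 < δ) (hδ1 : δ ≤ 1) :
    ((box δ K).card : ℝ) ≤ ((4 * K + 15) / δ) ^ 2 := by
  rw [box]
  set N : ℤ := ⌈2 * (K / δ) + 6⌉ with hN
  have hNpos : 0 < N := Int.ceil_pos.2 (by positivity)
  have hN2 : (N : ℝ) < 2 * (K / δ) + 6 + 1 := Int.ceil_lt_add_one _
  have e : ((Finset.Icc (-N) N ×ˢ Finset.Icc (-N) N : Finset (ℤ × ℤ)).card : ℝ) =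
      (2 * N + 1) ^ 2 := by
    rw [Finset.card_product, Int.card_Icc, sq]
    push_cast
    have : ((N + 1 - -N).toNat : ℝ) = 2 * N + 1 := by
      have h : ((N + 1 - -N).toNat : ℤ) = 2 * N + 1 := by
        rw [Int.toNat_of_nonneg (by omega)]
        ring
      exact_mod_cast h
    rw [this]
  rw [e]
  have hNr : (0 : ℝ) < N := by exact_mod_cast hNpos
  apply pow_le_pow_left₀ (by positivity)
  have h5 : 1 ≤ 1 / δ := by
    rw [le_div_iff₀ hδ]
    linarith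
  have h6 : (4 * K + 15) / δ = 4 * (K / δ) + 15 * (1 / δ) := by ring
  rw [h6]
  linarith

/-- Riemann sum -/
noncomputable def rs (δ K : ℝ) (g : ℝ × ℝ → ℝ) : ℝ :=
  ∑ q ∈ box δ K, √3 / 2 * δ ^ 2 * g (δ • pos q)

lemma rs_close (hg : Csts g K) (hδ : 0 < δ) (hδ1 : δ ≤ 1) :
    |rs δ K g - ∫ z, g z| ≤ 2 * K * (4 * K + 15) ^ 2 * δ := by
  rw [← GFF.sum_wt hδ hg.pos.le hg.cont hg.supp hg.zero, rs, ← Finset.sum_sub_distrib]
  refine (Finset.abs_sum_le_sum_abs _ _).trans ?_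
  refine (Finset.sum_le_card_nsmul _ _ _ fun q _ => val_sub_wt hg hδ q).trans ?_
  rw [nsmul_eq_mul]
  have hK := hg.pos
  refine (mul_le_mul_of_nonneg_right (card_box_le hK hδ hδ1) (by positivity)).trans (le_of_eq ?_)
  field_simp

/-- Finitely supported weights close to the samples of a smooth function, with exact mass. -/
theorem exists_app {f χ : ℝ × ℝ → ℝ} {O : Set (ℝ × ℝ)}
    (hf : ContDiff ℝ ((⊤ : ℕ∞) : WithTop ℕ∞) f) (hc : HasCompactSupport f)
    (_hfO : tsupport f ⊆ O) (hχ : ContDiff ℝ ((⊤ : ℕ∞) : WithTop ℕ∞) χ)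
    (hχc : HasCompactSupport χ) (_hχO : tsupport χ ⊆ O) (_hχ0 : ∀ z, 0 ≤ χ z)
    (hχ1 : ∫ z, χ z = 1) :
    ∃ C δ0 : ℝ, 0 ≤ C ∧ 0 < δ0 ∧ ∀ δ : ℝ, 0 < δ → δ ≤ δ0 → ∃ w : (ℤ × ℤ) →₀ ℝ,
      mass w = ∫ z, f z ∧
      (∀ q, w q ≠ 0 → δ • pos q ∈ tsupport f ∨ δ • pos q ∈ tsupport χ) ∧
      ∀ q, |w q - √3 / 2 * δ ^ 2 * f (δ • pos q)| ≤ C * δ ^ 3 := by
  obtain ⟨K1, hK1⟩ := exists_csts hf hc
  obtain ⟨K2, hK2⟩ := exists_csts hχ hχc
  set K : ℝ := K1 + K2 with hKdef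
  have hF : Csts f K := csts_mono hK1 (by linarith [hK2.pos])
  have hX : Csts χ K := csts_mono hK2 (by linarith [hK1.pos])
  have hK : 0 < K := hF.pos
  set A : ℝ := 2 * K * (4 * K + 15) ^ 2 with hA
  have hA0 : 0 < A := by positivity
  refine ⟨2 * K * A, min 1 (1 / (2 * A)), by positivity, lt_min one_pos (by positivity), ?_⟩
  intro δ hδ hδ0
  have hδ1 : δ ≤ 1 := hδ0.trans (min_le_left _ _)
  have hδ2 : A * δ ≤ 1 / 2 := by
    have := hδ0.trans (min_le_right _ _)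
    rw [le_div_iff₀ (by positivity)] at this
    linarith
  have hf1 := rs_close hF hδ hδ1
  have hx1 := rs_close hX hδ hδ1
  rw [hχ1] at hx1
  have hx2 : 1 / 2 ≤ rs δ K χ := by
    have := (abs_le.1 hx1).1
    linarith
  set a : ℝ := (rs δ K f - ∫ z, f z) / rs δ K χ with ha
  have ha1 : |a| ≤ 2 * (A * δ) := by
    rw [ha, abs_div, abs_of_pos (by linarith : 0 < rs δ K χ), div_le_iff₀ (by linarith)]
    nlinarith [mul_pos hA0 hδ]
  refine ⟨Finsupp.onFinset (box δ K)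
    (fun q => √3 / 2 * δ ^ 2 * (f (δ • pos q) - a * χ (δ • pos q))) ?_, ?_, ?_, ?_⟩
  · intro q hq
    by_contra hb
    apply hq
    rw [val_zero hF hδ hb, val_zero hX hδ hb]
    ring
  · unfold mass
    rw [Finsupp.onFinset_sum _ (fun _ => rfl)]
    have h1 : ∑ q ∈ box δ K, √3 / 2 * δ ^ 2 * (f (δ • pos q) - a * χ (δ • pos q)) =
        rs δ K f - a * rs δ K χ := by
      unfold rs
      rw [Finset.mul_sum, ← Finset.sum_sub_distrib]
      apply Finset.sum_congr rfl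
      intro q _
      ring
    rw [h1, ha, div_mul_cancel₀ _ (by linarith : rs δ K χ ≠ 0)]
    ring
  · intro q hq
    rw [Finsupp.onFinset_apply] at hq
    by_contra hcon
    rw [not_or] at hcon
    apply hq
    rw [image_eq_zero_of_notMem_tsupport hcon.1, image_eq_zero_of_notMem_tsupport hcon.2]
    ring
  · intro q
    rw [Finsupp.onFinset_apply]
    have e : √3 / 2 * δ ^ 2 * (f (δ • pos q) - a * χ (δ • pos q)) -
        √3 / 2 * δ ^ 2 * f (δ • pos q) = -(√3 / 2 * (δ ^ 2 * (a * χ (δ • pos q)))) := by ring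
    rw [e, abs_neg, abs_mul, abs_mul, abs_mul, abs_of_pos (by positivity : (0 : ℝ) < √3 / 2),
      abs_of_pos (by positivity : (0 : ℝ) < δ ^ 2)]
    have h3 : √3 / 2 ≤ 1 := by
      have : √3 ≤ 2 := Real.sqrt_le_iff.2 ⟨by norm_num, by norm_num⟩
      linarith
    have h4 : δ ^ 2 * (|a| * |χ (δ • pos q)|) ≤ δ ^ 2 * (2 * (A * δ) * K) := by
      apply mul_le_mul_of_nonneg_left _ (by positivity)
      exact mul_le_mul ha1 (hX.bdd _) (abs_nonneg _) (by positivity)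
    have h5 : 0 ≤ δ ^ 2 * (|a| * |χ (δ • pos q)|) := by positivity
    calc √3 / 2 * (δ ^ 2 * (|a| * |χ (δ • pos q)|))
        ≤ 1 * (δ ^ 2 * (|a| * |χ (δ • pos q)|)) := mul_le_mul_of_nonneg_right h3 h5
      _ ≤ δ ^ 2 * (2 * (A * δ) * K) := by rw [one_mul]; exact h4
      _ = 2 * K * A * δ ^ 3 := by ring

end Vale.Agent.P153.F.SD
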