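import Vale.Agent.P153.F.SD.Sd2
import Vale.Agent.P153.F.SD.Sd3

/-!
P153, product Schwinger-Dyson: the interpolated field `∫ h_δ f` as a lattice functional.
-/

namespace Vale.Agent.P153.F.SD

open MeasureTheory Filter Topology
open Vale.Agent.P153.GFF (Csts pos wt smear ker)

variable {f : ℝ × ℝ → ℝ} {K d : ℝ}

open Classical in
/-- The weights of `h ↦ ∫ h_δ f`. -/
noncomputable def Lw (d : ℝ) (f : ℝ × ℝ → ℝ) : (ℤ × ℤ) →₀ ℝ :=
  if h : (Function.support (wt d f)).Finite then Finsupp.ofSupportFinite (wt d f) h else 0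

theorem Lw_apply (hf : Csts f K) (hd : 0 < d) (q : ℤ × ℤ) : Lw d f q = wt d f q := by
  unfold Lw
  rw [dif_pos (GFF.wt_support_finite hf hd)]
  rfl

theorem ev_Lw (hf : Csts f K) (hd : 0 < d) (h : Hgt) : ev (Lw d f) h = smear h d f := by
  classical
  rw [GFF.smear_finsum hf hd]
  unfold ev Finsupp.sum
  rw [finsum_eq_sum_of_support_subset (s := (Lw d f).support)]
  · refine Finset.sum_congr rfl fun q _ => ?_
    rw [Lw_apply hf hd, mul_comm]
  · intro q hq
    rw [Finset.mem_coe, Finsupp.mem_support_iff, Lw_apply hf hd]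
    intro h0
    apply hq
    show (h q : ℝ) * wt d f q = 0
    rw [h0, mul_zero]

theorem mass_Lw (hf : Csts f K) (hd : 0 < d) : mass (Lw d f) = ∫ z, f z := by
  classical
  rw [← GFF.finsum_wt hf hd]
  unfold mass Finsupp.sum
  rw [finsum_eq_sum_of_support_subset (s := (Lw d f).support)]
  · exact Finset.sum_congr rfl fun q _ => Lw_apply hf hd q
  · intro q hq
    rw [Finset.mem_coe, Finsupp.mem_support_iff, Lw_apply hf hd]
    exact hq

theorem wt_shift (a q : ℤ × ℤ) : wt d (fun x => f (x + d • pos a)) q = wt d f (q + a) := by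
  unfold GFF.wt
  congr 2
  ext u
  show ker u * f (d • (u + pos q) + d • pos a) = ker u * f (d • (u + pos (q + a)))
  rw [GFF.pos_add, ← smul_add, add_assoc]

theorem Csts.shift (hf : Csts f K) (x0 : ℝ × ℝ) :
    Csts (fun x => f (x + x0)) (K + ‖x0‖) where
  pos := add_pos_of_pos_of_nonneg hf.pos (norm_nonneg _)
  cont := hf.cont.comp (continuous_id.add continuous_const)
  supp := hf.supp.comp_homeomorph (Homeomorph.addRight x0)
  zero z hz := by
    have h1 : |x0.1| ≤ ‖x0‖ := by
      rw [Prod.norm_def, ← Real.norm_eq_abs]; exact le_sup_left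
    have h2 : |x0.2| ≤ ‖x0‖ := by
      rw [Prod.norm_def, ← Real.norm_eq_abs]; exact le_sup_right
    have key : ∀ a b : ℝ, |a| ≤ |a + b| + |b| := fun a b => by
      have := abs_sub (a + b) b
      rw [add_sub_cancel_right] at this
      exact this
    refine hf.zero _ (hz.imp (fun h => ?_) fun h => ?_)
    · rw [Prod.fst_add]
      linarith [key z.1 x0.1]
    · rw [Prod.snd_add]
      linarith [key z.2 x0.2]
  bdd z := (hf.bdd _).trans (le_add_of_nonneg_right (norm_nonneg _))
  lip x y := by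
    refine (hf.lip _ _).trans ?_
    rw [add_sub_add_right_eq_sub]
    exact mul_le_mul_of_nonneg_right (le_add_of_nonneg_right (norm_nonneg _)) (norm_nonneg _)
  sec x y := by
    have := hf.sec (x + x0) y
    have e1 : x + y + x0 = x + x0 + y := by abel
    have e2 : x - y + x0 = x + x0 - y := by abel
    rw [e1, e2]
    exact this.trans (mul_le_mul_of_nonneg_right (le_add_of_nonneg_right (norm_nonneg _))
      (by positivity))

/-- The functionals of the shifted function approximate it. -/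
theorem app_Lw {δ : ℕ → ℝ} {a : ℕ → ℤ × ℤ} {x0 : ℝ × ℝ} {B : ℝ} (hB : 0 ≤ B) (hf : Csts f K)
    (hδ : ∀ n, 0 < δ n) (hδ1 : ∀ n, δ n ≤ 1) (ha : ∀ n, ‖δ n • pos (a n) - x0‖ ≤ B * δ n) :
    App δ (fun x => f (x + x0)) (fun n => Lw (δ n) (fun x => f (x + δ n • pos (a n)))) := by
  have hK := hf.pos
  refine ⟨2 * K + 7 + 2 * (‖x0‖ + B), 2 * K + K * B, by positivity, by positivity,
    fun n => ⟨fun q hq => ?_, fun q => ?_⟩⟩
  · rw [Lw_apply (Csts.shift hf _) (hδ n), wt_shift] at hq
    obtain ⟨h1, h2⟩ := GFF.wt_supp hf (hδ n) _ hq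
    have hd := hδ n
    have h3 := ha n
    have h4 : B * δ n ≤ B := mul_le_of_le_one_right hB (hδ1 n)
    have h5 : ‖δ n • pos (a n)‖ ≤ ‖x0‖ + B := by
      have := norm_add_le (δ n • pos (a n) - x0) x0
      rw [sub_add_cancel] at this
      linarith
    rw [Prod.norm_def, sup_le_iff, Real.norm_eq_abs, Real.norm_eq_abs] at h5
    unfold GFF.pos at h5
    simp only [Prod.smul_mk, smul_eq_mul] at h5
    obtain ⟨h6, h7⟩ := h5
    have hs3 : (1 : ℝ) ≤ √3 := by
      rw [Real.one_le_sqrt]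
      norm_num
    have h8 : |δ n * ((a n).2 : ℝ)| ≤ 2 * (‖x0‖ + B) := by
      have e : δ n * ((a n).2 * (√3 / 2)) = (δ n * (a n).2) * (√3 / 2) := by ring
      rw [e, abs_mul, abs_of_pos (by positivity : (0 : ℝ) < √3 / 2)] at h7
      nlinarith [abs_nonneg (δ n * ((a n).2 : ℝ))]
    have h9 : |δ n * ((a n).1 : ℝ)| ≤ 2 * (‖x0‖ + B) := by
      have e : δ n * ((a n).1 : ℝ) = δ n * ((a n).1 + (a n).2 / 2) - (δ n * (a n).2) / 2 := by ring
      rw [e]
      refine (abs_sub _ _).trans ?_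
      rw [abs_div, abs_two]
      linarith
    have key : ∀ x y : ℝ, |x + y| ≤ 2 * (K / δ n) + 7 → |δ n * y| ≤ 2 * (‖x0‖ + B) →
        |δ n * x| ≤ 2 * K + 7 + 2 * (‖x0‖ + B) := by
      intro x y hx hy
      have e : δ n * x = δ n * (x + y) - δ n * y := by ring
      rw [e]
      refine (abs_sub _ _).trans ?_
      have h10 : |δ n * (x + y)| ≤ 2 * K + 7 := by
        rw [abs_mul, abs_of_pos hd]
        have h11 := mul_le_mul_of_nonneg_left hx hd.le
        have e2 : δ n * (2 * (K / δ n) + 7) = 2 * K + 7 * δ n := by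
          field_simp
        rw [e2] at h11
        linarith [hδ1 n]
      linarith
    simp only [Prod.fst_add, Prod.snd_add] at h1 h2
    push_cast at h1 h2
    exact ⟨key _ _ h1 h9, key _ _ h2 h8⟩
  · have hd := hδ n
    rw [Lw_apply (Csts.shift hf _) hd, wt_shift]
    have h6 := GFF.wt_close hf hd (q + a n) (δ n • pos (q + a n)) 0 (by simp)
    have h7 : |wt (δ n) f (q + a n) - √3 / 2 * δ n ^ 2 * f (δ n • pos (q + a n))| ≤
        2 * K * δ n ^ 3 := by
      have e : wt (δ n) f (q + a n) - √3 / 2 * δ n ^ 2 * f (δ n • pos (q + a n)) =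
          δ n ^ 2 * (wt (δ n) f (q + a n) / δ n ^ 2 - √3 / 2 * f (δ n • pos (q + a n))) := by
        field_simp
      rw [e, abs_mul, abs_of_pos (by positivity : (0 : ℝ) < δ n ^ 2)]
      refine (mul_le_mul_of_nonneg_left h6 (by positivity)).trans (le_of_eq ?_)
      ring
    have h8 : |f (δ n • pos (q + a n)) - f (δ n • pos q + x0)| ≤ K * (B * δ n) := by
      refine (hf.lip _ _).trans (mul_le_mul_of_nonneg_left ?_ hK.le)
      rw [GFF.pos_add, smul_add, add_sub_add_left_eq_sub]
      exact ha n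
    have e : wt (δ n) f (q + a n) - √3 / 2 * δ n ^ 2 * f (δ n • pos q + x0) =
        (wt (δ n) f (q + a n) - √3 / 2 * δ n ^ 2 * f (δ n • pos (q + a n))) +
        √3 / 2 * δ n ^ 2 * (f (δ n • pos (q + a n)) - f (δ n • pos q + x0)) := by ring
    rw [e]
    refine (abs_add_le _ _).trans ?_
    have hs : √3 / 2 ≤ 1 := by linarith [GFF.sqrt3_le]
    have h9 : |√3 / 2 * δ n ^ 2 * (f (δ n • pos (q + a n)) - f (δ n • pos q + x0))| ≤
        K * B * δ n ^ 3 := by
      rw [abs_mul, abs_of_pos (by positivity : (0 : ℝ) < √3 / 2 * δ n ^ 2)]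
      calc √3 / 2 * δ n ^ 2 * |f (δ n • pos (q + a n)) - f (δ n • pos q + x0)|
          ≤ 1 * δ n ^ 2 * (K * (B * δ n)) := by
            refine mul_le_mul (mul_le_mul_of_nonneg_right hs (by positivity)) h8 (abs_nonneg _)
              (by positivity)
        _ = K * B * δ n ^ 3 := by ring
    linarith

/-- The weights live near the support. -/
theorem Lw_ne (hf : Csts f K) (hd : 0 < d) {q : ℤ × ℤ} (hq : Lw d f q ≠ 0) :
    ∃ z, f z ≠ 0 ∧ ‖z - d • pos q‖ ≤ 2 * d := by
  rw [Lw_apply hf hd] at hq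
  unfold GFF.wt at hq
  by_contra hcon
  push Not at hcon
  apply hq
  have : ∀ u : ℝ × ℝ, ker u * f (d • (u + pos q)) = 0 := by
    intro u
    by_cases hk : ker u = 0
    · rw [hk, zero_mul]
    · by_contra hne
      have hfu : f (d • (u + pos q)) ≠ 0 := fun h => hne (by rw [h, mul_zero])
      have h1 : ¬(2 < |u.1| ∨ 1 < |u.2|) := fun h => hk (GFF.ker_eq_zero h)
      rw [not_or, not_lt, not_lt] at h1
      have h2 : ‖u‖ ≤ 2 := by
        rw [Prod.norm_def, sup_le_iff, Real.norm_eq_abs, Real.norm_eq_abs]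
        exact ⟨h1.1, by linarith [h1.2]⟩
      have h3 := hcon _ hfu
      rw [smul_add, add_sub_cancel_right, norm_smul, Real.norm_eq_abs, abs_of_pos hd] at h3
      nlinarith
  simp_rw [this]
  simp

theorem ev_Lw_shift (hf : Csts f K) (hd : 0 < d) (a : ℤ × ℤ) (h : Hgt) :
    ev (Lw d (fun x => f (x + d • pos a))) (fun q => h (q + a)) = ev (Lw d f) h := by
  rw [ev_Lw hf hd, ev_Lw (Csts.shift hf _) hd, GFF.smear_finsum hf hd,
    GFF.smear_finsum (Csts.shift hf _) hd]
  rw [← finsum_comp_equiv (Equiv.addRight a) (f := fun v : ℤ × ℤ => (h v : ℝ) * wt d f v)]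
  refine finsum_congr fun q => ?_
  rw [wt_shift]
  rfl

theorem ev_const (w : (ℤ × ℤ) →₀ ℝ) (h : Hgt) (c : ℤ) :
    ev w (fun q => h q + c) = ev w h + c * mass w := by
  unfold ev mass Finsupp.sum
  rw [Finset.mul_sum, ← Finset.sum_add_distrib]
  refine Finset.sum_congr rfl fun q _ => ?_
  push_cast
  ring

end Vale.Agent.P153.F.SD
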