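import Vale.Agent.P153.F.SD.Sd4

/-!
P153, product Schwinger-Dyson: the lattice functionals `Wd δ f a`, `√3/2 δ² ∑ h(q) f(δ (q + a))`;
normalised functionals of mass one and of mass zero.
-/

namespace Vale.Agent.P153.F.SD

open Finset Filter Topology MeasureTheory
open Vale.Agent.P153.GFF (Csts pos wt box)
open Vale.Agent.P145.PT (Sm TestOn lap)

open Classical in
/-- The lattice functional `√3/2 δ² ∑ h(q) f(δ (q + a))`. -/
noncomputable def Wd (δ : ℝ) (f : ℝ × ℝ → ℝ) (a : ℤ × ℤ) : (ℤ × ℤ) →₀ ℝ :=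
  if h : {q | √3 / 2 * δ ^ 2 * f (δ • pos (q + a)) ≠ 0}.Finite then
    Finsupp.onFinset h.toFinset (fun q => √3 / 2 * δ ^ 2 * f (δ • pos (q + a)))
      (fun q hq => by simpa using hq)
  else 0

variable {f g χ : ℝ × ℝ → ℝ} {K δ : ℝ}

lemma wd_fin (hf : Csts f K) (hδ : 0 < δ) (a : ℤ × ℤ) :
    {q | √3 / 2 * δ ^ 2 * f (δ • pos (q + a)) ≠ 0}.Finite := by
  refine ((box δ K).finite_toSet.image (fun q => q - a)).subset fun q hq => ?_
  refine ⟨q + a, ?_, by simp⟩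
  by_contra hb
  apply hq
  rw [val_zero hf hδ hb, mul_zero]

lemma Wd_apply (hf : Csts f K) (hδ : 0 < δ) (a q : ℤ × ℤ) :
    Wd δ f a q = √3 / 2 * δ ^ 2 * f (δ • pos (q + a)) := by
  unfold Wd
  rw [dif_pos (wd_fin hf hδ a), Finsupp.onFinset_apply]

lemma Wd_supp (hf : Csts f K) (hδ : 0 < δ) {a q : ℤ × ℤ} (hq : Wd δ f a q ≠ 0) :
    f (δ • pos (q + a)) ≠ 0 := by
  rw [Wd_apply hf hδ] at hq
  intro h
  apply hq
  rw [h, mul_zero]

/-- The hypotheses on the mesh and the translations. -/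
structure Near (δ : ℕ → ℝ) (a : ℕ → ℤ × ℤ) (x0 : ℝ × ℝ) : Prop where
  pos : ∀ n, 0 < δ n
  near : ∀ n, ‖δ n • GFF.pos (a n) - x0‖ ≤ 2 * δ n

theorem app_Wd {δ : ℕ → ℝ} {a : ℕ → ℤ × ℤ} {x0 : ℝ × ℝ} (hf : Csts f K) (hN : Near δ a x0)
    (hδ1 : ∀ n, δ n ≤ 1) : App δ (fun x => f (x + x0)) (fun n => Wd (δ n) f (a n)) := by
  have hK := hf.pos
  obtain ⟨R, C, hR, hC, h⟩ := app_Lw (a := a) (x0 := x0) zero_le_two hf hN.pos hδ1 hN.near
  refine ⟨2 * (K + ‖x0‖ + 2), 2 * K, by positivity, by positivity, fun n => ⟨fun q hq => ?_,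
    fun q => ?_⟩⟩
  · have h1 := Wd_supp hf (hN.pos n) hq
    have hd := hN.pos n
    have h2 : ‖δ n • pos (q + a n)‖ ≤ K := by
      rw [Prod.norm_def, sup_le_iff, Real.norm_eq_abs, Real.norm_eq_abs]
      constructor
      · by_contra hcon
        exact h1 (hf.zero _ (Or.inl (not_le.1 hcon)))
      · by_contra hcon
        exact h1 (hf.zero _ (Or.inr (not_le.1 hcon)))
    have h3 := hN.near n
    have h4 : ‖δ n • pos q‖ ≤ K + ‖x0‖ + 2 := by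
      have e : δ n • pos q = δ n • pos (q + a n) - (δ n • pos (a n) - x0) - x0 := by
        rw [GFF.pos_add, smul_add]
        abel
      rw [e]
      refine (norm_sub_le _ _).trans ?_
      have := norm_sub_le (δ n • pos (q + a n)) (δ n • pos (a n) - x0)
      linarith [hδ1 n]
    rw [Prod.norm_def, sup_le_iff, Real.norm_eq_abs, Real.norm_eq_abs] at h4
    unfold GFF.pos at h4
    simp only [Prod.smul_mk, smul_eq_mul] at h4
    obtain ⟨h6, h7⟩ := h4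
    have hs3 : (1 : ℝ) ≤ √3 := by
      rw [Real.one_le_sqrt]
      norm_num
    have h8 : |δ n * (q.2 : ℝ)| ≤ 2 * (K + ‖x0‖ + 2) := by
      have e : δ n * (q.2 * (√3 / 2)) = (δ n * q.2) * (√3 / 2) := by ring
      rw [e, abs_mul, abs_of_pos (by positivity : (0 : ℝ) < √3 / 2)] at h7
      nlinarith [abs_nonneg (δ n * (q.2 : ℝ))]
    refine ⟨?_, h8⟩
    have e : δ n * (q.1 : ℝ) = δ n * (q.1 + q.2 / 2) - (δ n * q.2) / 2 := by ring
    rw [e]
    refine (abs_sub _ _).trans ?_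
    rw [abs_div, abs_two]
    linarith
  · rw [Wd_apply hf (hN.pos n)]
    have hd := hN.pos n
    have h8 : |f (δ n • pos (q + a n)) - f (δ n • pos q + x0)| ≤ K * (2 * δ n) := by
      refine (hf.lip _ _).trans (mul_le_mul_of_nonneg_left ?_ hK.le)
      rw [GFF.pos_add, smul_add, add_sub_add_left_eq_sub]
      exact hN.near n
    have e : √3 / 2 * δ n ^ 2 * f (δ n • pos (q + a n)) -
        √3 / 2 * δ n ^ 2 * f (δ n • pos q + x0) =
        √3 / 2 * δ n ^ 2 * (f (δ n • pos (q + a n)) - f (δ n • pos q + x0)) := by ring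
    rw [e]
    have hs : √3 / 2 ≤ 1 := by linarith [GFF.sqrt3_le]
    rw [abs_mul, abs_of_pos (by positivity : (0 : ℝ) < √3 / 2 * δ n ^ 2)]
    calc √3 / 2 * δ n ^ 2 * |f (δ n • pos (q + a n)) - f (δ n • pos q + x0)|
        ≤ 1 * δ n ^ 2 * (K * (2 * δ n)) := by
          refine mul_le_mul (mul_le_mul_of_nonneg_right hs (by positivity)) h8 (abs_nonneg _)
            (by positivity)
      _ = 2 * K * δ n ^ 3 := by ring

/-! ### Translations -/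

lemma ev_tsum (w : (ℤ × ℤ) →₀ ℝ) (h : Hgt) : ev w h = ∑' q, w q * (h q : ℝ) := by
  unfold ev Finsupp.sum
  symm
  refine tsum_eq_sum fun q hq => ?_
  rw [Finsupp.notMem_support_iff.1 hq, zero_mul]

lemma mass_tsum (w : (ℤ × ℤ) →₀ ℝ) : mass w = ∑' q, w q := by
  unfold mass Finsupp.sum
  symm
  exact tsum_eq_sum fun q hq => Finsupp.notMem_support_iff.1 hq

lemma Wd_shift0 (hf : Csts f K) (hδ : 0 < δ) (a q : ℤ × ℤ) : Wd δ f 0 (q + a) = Wd δ f a q := by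
  rw [Wd_apply hf hδ, Wd_apply hf hδ, add_zero]

/-- The functional `Wd δ f a` of the height function seen from `a`. -/
theorem ev_Wd_pb (hf : Csts f K) (hδ : 0 < δ) (a : ℤ × ℤ) (h : Hgt) :
    ev (Wd δ f a) (pb (fun q => q + a) h) = ev (Wd δ f 0) h := by
  rw [ev_tsum, ev_tsum, ← (Equiv.addRight a).tsum_eq (fun q => Wd δ f 0 q * (h q : ℝ))]
  refine tsum_congr fun q => ?_
  rw [Equiv.coe_addRight, Wd_shift0 hf hδ]
  rfl

theorem mass_Wd_shift (hf : Csts f K) (hδ : 0 < δ) (a : ℤ × ℤ) :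
    mass (Wd δ f a) = mass (Wd δ f 0) := by
  rw [mass_tsum, mass_tsum, ← (Equiv.addRight a).tsum_eq (fun q => Wd δ f 0 q)]
  refine tsum_congr fun q => ?_
  rw [Equiv.coe_addRight, Wd_shift0 hf hδ]

/-- Linearity in the test function. -/
lemma Wd_add (hf : Csts f K) {K' K'' : ℝ} (hg : Csts g K') (hfg : Csts (fun x => f x + g x) K'')
    (hδ : 0 < δ) (a : ℤ × ℤ) : Wd δ (fun x => f x + g x) a = Wd δ f a + Wd δ g a := by
  ext q
  rw [Finsupp.add_apply, Wd_apply hf hδ, Wd_apply hg hδ, Wd_apply hfg hδ]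
  ring

lemma Wd_smul (hf : Csts f K) {r K'' : ℝ} (hrf : Csts (fun x => r * f x) K'')
    (hδ : 0 < δ) (a : ℤ × ℤ) : Wd δ (fun x => r * f x) a = r • Wd δ f a := by
  ext q
  rw [Finsupp.smul_apply, smul_eq_mul, Wd_apply hf hδ, Wd_apply hrf hδ]
  ring

/-! ### The mass -/

theorem mass_Wd (hf : Csts f K) (hδ : 0 < δ) (hδ1 : δ ≤ 1) (a : ℤ × ℤ) :
    |mass (Wd δ f a) - ∫ x, f x| ≤ 2 * K * (4 * K + 15) ^ 2 * δ := by
  have h := rs_close hf hδ hδ1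
  have e : mass (Wd δ f a) = rs δ K f := by
    rw [mass_Wd_shift hf hδ a, mass_tsum, rs]
    have h6 : ∀ q, Wd δ f 0 q = √3 / 2 * δ ^ 2 * f (δ • pos q) := by
      intro q
      rw [Wd_apply hf hδ, add_zero]
    simp only [h6]
    refine tsum_eq_sum fun q hq => ?_
    rw [val_zero hf hδ hq, mul_zero]
  rw [e]
  exact h

/-! ### Normalised functionals -/

lemma mass_smul' (r : ℝ) (w : (ℤ × ℤ) →₀ ℝ) : mass (r • w) = r * mass w := by
  rw [mass_tsum, mass_tsum, ← tsum_mul_left]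
  rfl

lemma mass_sub' (w v : (ℤ × ℤ) →₀ ℝ) : mass (w - v) = mass w - mass v := by
  have key : ∀ w : (ℤ × ℤ) →₀ ℝ, Summable fun q => w q := fun w =>
    summable_of_ne_finset_zero (s := w.support) fun q hq => Finsupp.notMem_support_iff.1 hq
  rw [mass_tsum, mass_tsum, mass_tsum, ← (key w).tsum_sub (key v)]
  rfl

/-- Normalised functional of mass one. -/
noncomputable def nW (δ : ℝ) (χ : ℝ × ℝ → ℝ) (a : ℤ × ℤ) : (ℤ × ℤ) →₀ ℝ :=
  (mass (Wd δ χ a))⁻¹ • Wd δ χ a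

/-- Corrected functional of mass zero. -/
noncomputable def zW (δ : ℝ) (g χ : ℝ × ℝ → ℝ) (a : ℤ × ℤ) : (ℤ × ℤ) →₀ ℝ :=
  Wd δ g a - mass (Wd δ g a) • nW δ χ a

lemma nW_supp {a q : ℤ × ℤ} (hq : nW δ χ a q ≠ 0) : Wd δ χ a q ≠ 0 := by
  intro h
  apply hq
  unfold nW
  rw [Finsupp.smul_apply, h, smul_zero]

lemma zW_supp {a q : ℤ × ℤ} (hq : zW δ g χ a q ≠ 0) : Wd δ g a q ≠ 0 ∨ Wd δ χ a q ≠ 0 := by
  by_contra h
  push Not at h
  apply hq
  unfold zW nW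
  rw [Finsupp.sub_apply, Finsupp.smul_apply, Finsupp.smul_apply, h.1, h.2]
  simp

/-- The normalised functionals are admissible for small `δ`. -/
theorem exists_nW (hχ : Csts χ K) (h1 : ∫ x, χ x = 1) :
    ∃ δ0 C : ℝ, 0 < δ0 ∧ δ0 ≤ 1 ∧ 0 ≤ C ∧ ∀ δ : ℝ, 0 < δ → δ ≤ δ0 → ∀ a : ℤ × ℤ,
      mass (nW δ χ a) = 1 ∧
        (∀ q, |nW δ χ a q - Wd δ χ a q| ≤ C * δ ^ 3) ∧ ∀ q, |nW δ χ a q| ≤ C * δ ^ 2 := by
  have hK := hχ.pos
  set C : ℝ := 2 * K * (4 * K + 15) ^ 2 with hC'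
  have hC : 0 ≤ C := by positivity
  refine ⟨min 1 (1 / (2 * (C + 1))), max (2 * C * K) (2 * K), by positivity, min_le_left _ _,
    by positivity, fun δ hδ hδ0 a => ?_⟩
  have hd1 : δ ≤ 1 := hδ0.trans (min_le_left _ _)
  have hd2 : δ ≤ 1 / (2 * (C + 1)) := hδ0.trans (min_le_right _ _)
  have h2 := mass_Wd hχ hδ hd1 a
  rw [h1, ← hC'] at h2
  have h3 : C * δ ≤ 1 / 2 := by
    rw [le_div_iff₀ (by positivity)] at hd2
    nlinarith
  set m := mass (Wd δ χ a) with hmd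
  have h4 : 1 / 2 ≤ m := by
    have := (abs_le.1 h2).1
    linarith
  have hmpos : 0 < m := by linarith
  have h5 : |m⁻¹ - 1| ≤ 2 * (C * δ) := by
    have e : m⁻¹ - 1 = -(m - 1) * m⁻¹ := by field_simp; ring
    have h6 : m⁻¹ ≤ 2 := by
      rw [inv_le_comm₀ hmpos (by norm_num)]
      linarith
    rw [e, abs_mul, abs_neg, abs_of_pos (inv_pos.2 hmpos)]
    have := mul_le_mul h2 h6 (inv_pos.2 hmpos).le (by positivity)
    linarith
  have hs : √3 / 2 ≤ 1 := by linarith [GFF.sqrt3_le]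
  have hW : ∀ q, |Wd δ χ a q| ≤ δ ^ 2 * K := by
    intro q
    rw [Wd_apply hχ hδ, abs_mul, abs_of_pos (by positivity : (0 : ℝ) < √3 / 2 * δ ^ 2)]
    refine mul_le_mul ?_ (hχ.bdd _) (abs_nonneg _) (by positivity)
    nlinarith [sq_nonneg δ]
  have hdiff : ∀ q, |nW δ χ a q - Wd δ χ a q| ≤ 2 * C * K * δ ^ 3 := by
    intro q
    unfold nW
    rw [Finsupp.smul_apply, smul_eq_mul, ← hmd,
      show m⁻¹ * Wd δ χ a q - Wd δ χ a q = (m⁻¹ - 1) * Wd δ χ a q by ring, abs_mul]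
    calc |m⁻¹ - 1| * |Wd δ χ a q| ≤ (2 * (C * δ)) * (δ ^ 2 * K) :=
          mul_le_mul h5 (hW q) (abs_nonneg _) (by positivity)
      _ = 2 * C * K * δ ^ 3 := by ring
  refine ⟨?_, fun q => (hdiff q).trans ?_, fun q => ?_⟩
  · unfold nW
    rw [mass_smul', ← hmd]
    exact inv_mul_cancel₀ hmpos.ne'
  · exact mul_le_mul_of_nonneg_right (le_max_left _ _) (by positivity)
  · have h6 : m⁻¹ ≤ 2 := by
      rw [inv_le_comm₀ hmpos (by norm_num)]
      linarith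
    unfold nW
    rw [Finsupp.smul_apply, smul_eq_mul, ← hmd, abs_mul, abs_of_pos (inv_pos.2 hmpos)]
    calc m⁻¹ * |Wd δ χ a q| ≤ 2 * (δ ^ 2 * K) :=
          mul_le_mul h6 (hW q) (abs_nonneg _) (by norm_num)
      _ = 2 * K * δ ^ 2 := by ring
      _ ≤ _ := mul_le_mul_of_nonneg_right (le_max_right _ _) (by positivity)

lemma App.of_close {δ : ℕ → ℝ} {w v : ℕ → (ℤ × ℤ) →₀ ℝ} (hw : App δ f w)
    {R' C' : ℝ} (hR' : 0 < R') (hC' : 0 ≤ C')
    (hs : ∀ n q, v n q ≠ 0 → |δ n * (q.1 : ℝ)| ≤ R' ∧ |δ n * (q.2 : ℝ)| ≤ R')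
    (hc : ∀ n q, |v n q - w n q| ≤ C' * δ n ^ 3) : App δ f v := by
  obtain ⟨R, C, hR, hC, h⟩ := hw
  refine ⟨R', C + C', hR', by positivity, fun n => ⟨hs n, fun q => ?_⟩⟩
  have h1 := (h n).2 q
  have h2 := hc n q
  have e : v n q - √3 / 2 * δ n ^ 2 * f (δ n • pos q) = (v n q - w n q) +
      (w n q - √3 / 2 * δ n ^ 2 * f (δ n • pos q)) := by ring
  rw [e]
  refine (abs_add_le _ _).trans ?_
  rw [add_mul]
  linarith

/-- The functional of mass one. -/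
theorem app_nW (hχ : Csts χ K) (h1 : ∫ x, χ x = 1) :
    ∃ δ0 : ℝ, 0 < δ0 ∧ δ0 ≤ 1 ∧ ∀ (δ : ℕ → ℝ) (a : ℕ → ℤ × ℤ) (x0 : ℝ × ℝ), Near δ a x0 →
      (∀ n, δ n ≤ δ0) → App δ (fun x => χ (x + x0)) (fun n => nW (δ n) χ (a n)) ∧
        ∀ n, mass (nW (δ n) χ (a n)) = 1 := by
  obtain ⟨δ0, C, hδ0, hδ1, hC, h⟩ := exists_nW hχ h1
  refine ⟨δ0, hδ0, hδ1, fun δ a x0 hN hle => ⟨?_, fun n => (h _ (hN.pos n) (hle n) _).1⟩⟩
  have hA := app_Wd hχ hN (fun n => (hle n).trans hδ1)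
  obtain ⟨R', C', hR', _, hs⟩ := id hA
  refine hA.of_close hR' hC (fun n q hq => (hs n).1 q (nW_supp hq)) fun n q => ?_
  exact (h _ (hN.pos n) (hle n) _).2.1 q

/-- The functional of mass zero. -/
theorem app_zW (hχ : Csts χ K) (h1 : ∫ x, χ x = 1) {K' : ℝ} (hg : Csts g K')
    (h0 : ∫ x, g x = 0) :
    ∃ δ0 : ℝ, 0 < δ0 ∧ δ0 ≤ 1 ∧ ∀ (δ : ℕ → ℝ) (a : ℕ → ℤ × ℤ) (x0 : ℝ × ℝ), Near δ a x0 →
      (∀ n, δ n ≤ δ0) → App δ (fun x => g (x + x0)) (fun n => zW (δ n) g χ (a n)) ∧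
        ∀ n, mass (zW (δ n) g χ (a n)) = 0 := by
  have hK' := hg.pos
  obtain ⟨δ0, C, hδ0, hδ1, hC, h⟩ := exists_nW hχ h1
  refine ⟨δ0, hδ0, hδ1, fun δ a x0 hN hle => ⟨?_, fun n => ?_⟩⟩
  · have hA := app_Wd hχ hN (fun n => (hle n).trans hδ1)
    have hB := app_Wd hg hN (fun n => (hle n).trans hδ1)
    obtain ⟨R1, C1, hR1, _, hs1⟩ := hA
    obtain ⟨R2, C3, hR2, _, hs2⟩ := id hB
    refine hB.of_close (R' := max R1 R2) (C' := 2 * K' * (4 * K' + 15) ^ 2 * C)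
      (lt_max_of_lt_left hR1) (by positivity) (fun n q hq => ?_) fun n q => ?_
    · rcases zW_supp hq with h3 | h3
      · have := (hs2 n).1 q h3
        exact ⟨this.1.trans (le_max_right _ _), this.2.trans (le_max_right _ _)⟩
      · have := (hs1 n).1 q h3
        exact ⟨this.1.trans (le_max_left _ _), this.2.trans (le_max_left _ _)⟩
    · unfold zW
      rw [Finsupp.sub_apply, Finsupp.smul_apply, smul_eq_mul,
        show Wd (δ n) g (a n) q - mass (Wd (δ n) g (a n)) * nW (δ n) χ (a n) q -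
          Wd (δ n) g (a n) q = -(mass (Wd (δ n) g (a n)) * nW (δ n) χ (a n) q) by ring, abs_neg,
        abs_mul]
      have h3 := mass_Wd hg (hN.pos n) ((hle n).trans hδ1) (a n)
      rw [h0, sub_zero] at h3
      have h4 := (h _ (hN.pos n) (hle n) (a n)).2.2 q
      have hp := hN.pos n
      calc |mass (Wd (δ n) g (a n))| * |nW (δ n) χ (a n) q|
          ≤ (2 * K' * (4 * K' + 15) ^ 2 * δ n) * (C * δ n ^ 2) :=
            mul_le_mul h3 h4 (abs_nonneg _) (by positivity)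
        _ = 2 * K' * (4 * K' + 15) ^ 2 * C * δ n ^ 3 := by ring
  · unfold zW
    rw [mass_sub', mass_smul', (h _ (hN.pos n) (hle n) _).1, mul_one, sub_self]

end Vale.Agent.P153.F.SD
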