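import Vale.Agent.P153.F.SD.Sd1
import Vale.Agent.P153.F.SD.Hp5

/-! P153, product Schwinger-Dyson: localisation by Gaussians of a charged functional and tightness
(helper492). -/

namespace Vale.Agent.P153.F.SD

open Finset Filter Topology MeasureTheory
open Vale.Agent.P145.FA (gauss_sum)

/-- Gaussian sums over the even shifts are bounded uniformly. -/
lemma tg_sum {A : ℝ} (hA : 0 < A) : ∃ C : ℝ, 0 ≤ C ∧ ∀ x : ℝ,
    Summable (fun k : ℤ => Real.exp (-((x + 2 * k) ^ 2 / (2 * A ^ 2)))) ∧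
    ∑' k : ℤ, Real.exp (-((x + 2 * k) ^ 2 / (2 * A ^ 2))) ≤ C := by
  obtain ⟨C, hC, hg⟩ := gauss_sum
  set K : ℝ := 1 + 2 * A with hK
  have hK1 : 1 ≤ K := by rw [hK]; linarith
  have hKA : 2 * A ^ 2 ≤ K ^ 2 := by rw [hK]; nlinarith
  refine ⟨K * √Real.pi / 2 + C * (K * Real.exp (-K ^ 2)), by positivity, fun x => ?_⟩
  obtain ⟨hs, hb⟩ := hg K hK1 x
  have hle : ∀ k : ℤ, Real.exp (-((x + 2 * k) ^ 2 / (2 * A ^ 2))) ≤
      Real.exp (-((x + 2 * k) ^ 2 / K ^ 2)) := by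
    intro k
    refine Real.exp_le_exp.2 (neg_le_neg ?_)
    exact div_le_div_of_nonneg_left (sq_nonneg _) (by positivity) hKA
  have hs' := Summable.of_nonneg_of_le (fun k => (Real.exp_pos _).le) hle hs
  refine ⟨hs', (hs'.tsum_le_tsum hle hs).trans ?_⟩
  have := (abs_le.1 hb).2
  linarith

/-- Integration of a nonnegative functional against `mu0`. -/
lemma tg_int {P : Measure Fld} {F : Hgt → ℝ} (hF : Measurable F)
    (h0 : ∀ h, 0 ≤ F h) {b : Fld → ℝ} (hb : Integrable b P)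
    (hs : ∀ ω, Summable fun k : ℤ => F (fun q => pth ω q + 2 * k))
    (hle : ∀ ω, ∑' k : ℤ, F (fun q => pth ω q + 2 * k) ≤ b ω) :
    Integrable F (mu0 P) ∧ ∫ h, F h ∂(mu0 P) ≤ ∫ ω, b ω ∂P := by
  have h1 : ∫⁻ h, ENNReal.ofReal (F h) ∂(mu0 P) ≤ ∫⁻ ω, ENNReal.ofReal (b ω) ∂P := by
    have hm : Measurable fun h => ENNReal.ofReal (F h) := ENNReal.measurable_ofReal.comp hF
    rw [lintegral_mu0 hm]
    refine lintegral_mono fun ω => ?_
    rw [← ENNReal.ofReal_tsum_of_nonneg (fun k => h0 _) (hs ω)]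
    exact ENNReal.ofReal_le_ofReal (hle ω)
  have hb0 : ∀ ω, 0 ≤ b ω := fun ω => (tsum_nonneg fun k => h0 _).trans (hle ω)
  have h2 : ∫⁻ ω, ENNReal.ofReal (b ω) ∂P = ENNReal.ofReal (∫ ω, b ω ∂P) :=
    (ofReal_integral_eq_lintegral_ofReal hb (Eventually.of_forall hb0)).symm
  have hi : Integrable F (mu0 P) := by
    refine ⟨hF.aestronglyMeasurable, ?_⟩
    rw [hasFiniteIntegral_iff_ofReal (Eventually.of_forall h0)]
    exact h1.trans_lt (by rw [h2]; exact ENNReal.ofReal_lt_top)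
  refine ⟨hi, ?_⟩
  rw [integral_eq_lintegral_of_nonneg_ae (Eventually.of_forall h0) hF.aestronglyMeasurable]
  have h3 := ENNReal.toReal_mono (by rw [h2]; exact ENNReal.ofReal_ne_top) h1
  rw [h2, ENNReal.toReal_ofReal (integral_nonneg hb0)] at h3
  exact h3

lemma tg_ev {w : (ℤ × ℤ) →₀ ℝ} (hw : mass w = 1) (ω : Fld) (k : ℤ) :
    ev w (fun q => pth ω q + 2 * k) = ev w (pth ω) + 2 * k := by
  have e : (fun q => pth ω q + 2 * k) = fun q => pth ω q + (2 * k : ℤ) := rfl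
  rw [e, ev_shift, hw]
  push_cast
  ring

theorem loc_int (A : ℝ) (hA : 0 < A) : ∃ C : ℝ, 0 ≤ C ∧ ∀ (P : Measure Fld)
    [IsProbabilityMeasure P] (w : (ℤ × ℤ) →₀ ℝ), mass w = 1 →
    Integrable (fun h => Real.exp (-((ev w h) ^ 2 / (2 * A ^ 2)))) (mu0 P) ∧
    ∫ h, Real.exp (-((ev w h) ^ 2 / (2 * A ^ 2))) ∂(mu0 P) ≤ C := by
  obtain ⟨C, hC, hg⟩ := tg_sum hA
  refine ⟨C, hC, fun P _ w hw => ?_⟩
  have hm : Measurable fun h => Real.exp (-((ev w h) ^ 2 / (2 * A ^ 2))) :=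
    Real.measurable_exp.comp (((measurable_ev w).pow_const 2).div_const _).neg
  have h := tg_int (P := P) hm (fun h => (Real.exp_pos _).le) (b := fun _ => C)
    (integrable_const C) (fun ω => by simp only [tg_ev hw]; exact (hg _).1)
    (fun ω => by simp only [tg_ev hw]; exact (hg _).2)
  refine ⟨h.1, h.2.trans ?_⟩
  simp

/-- Tightness from convergence of the characteristic functions. -/
lemma tg_tail {P : Measure Fld} [IsProbabilityMeasure P] {Y : ℕ → Fld → ℝ}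
    (hY : ∀ n, Measurable (Y n)) {c : ℝ}
    (hc : ∀ t : ℝ, Tendsto (fun n => ∫ ω, Complex.exp (Complex.I * ((t * Y n ω : ℝ) : ℂ)) ∂P)
      atTop (𝓝 (Complex.exp (-((c * t ^ 2 : ℝ) : ℂ))))) {ε : ℝ} (hε : 0 < ε) :
    ∃ T : ℝ, 0 < T ∧ ∀ᶠ n in atTop, P.real {ω | T < |Y n ω|} ≤ ε := by
  have hcont : Continuous fun t : ℝ => Complex.exp (-((c * t ^ 2 : ℝ) : ℂ)) := by fun_prop
  obtain ⟨δ, hδ, hδ2⟩ := Metric.continuousAt_iff.1 (hcont.continuousAt (x := 0)) (ε / 4)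
    (by positivity)
  have hsmall : ∀ t : ℝ, |t| < δ → ‖1 - Complex.exp (-((c * t ^ 2 : ℝ) : ℂ))‖ ≤ ε / 4 := by
    intro t ht
    have := hδ2 (x := t) (by rw [Real.dist_eq, sub_zero]; exact ht)
    rw [dist_comm, dist_eq_norm] at this
    simpa using this.le
  set T : ℝ := 4 / δ with hT
  have hT0 : 0 < T := by positivity
  have hTi : 2 * T⁻¹ = δ / 2 := by
    rw [hT]
    field_simp
    norm_num
  refine ⟨T, hT0, ?_⟩
  have hμ : ∀ n t, charFun (P.map (Y n)) t =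
      ∫ ω, Complex.exp (Complex.I * ((t * Y n ω : ℝ) : ℂ)) ∂P := by
    intro n t
    rw [charFun_apply_real, integral_map (hY n).aemeasurable (by fun_prop)]
    refine integral_congr_ae (Eventually.of_forall fun ω => ?_)
    simp only
    congr 1
    push_cast
    ring
  have hpr : ∀ n, IsProbabilityMeasure (P.map (Y n)) := fun n =>
    Measure.isProbabilityMeasure_map (hY n).aemeasurable
  have hlim : Tendsto (fun n => ∫ t in (-2 * T⁻¹)..(2 * T⁻¹), 1 - charFun (P.map (Y n)) t) atTop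
      (𝓝 (∫ t in (-2 * T⁻¹)..(2 * T⁻¹), 1 - Complex.exp (-((c * t ^ 2 : ℝ) : ℂ)))) := by
    refine intervalIntegral.tendsto_integral_filter_of_dominated_convergence (fun _ => 2)
      (Eventually.of_forall fun n => ?_) (Eventually.of_forall fun n => ?_)
      intervalIntegrable_const ?_
    · exact (measurable_const.sub measurable_charFun).aestronglyMeasurable
    · refine Eventually.of_forall fun t _ => ?_
      have := hpr n
      calc ‖1 - charFun (P.map (Y n)) t‖ ≤ ‖(1 : ℂ)‖ + ‖charFun (P.map (Y n)) t‖ := norm_sub_le _ _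
        _ ≤ 1 + 1 := by
          rw [norm_one]
          linarith [norm_charFun_le_one (μ := P.map (Y n)) t]
        _ = 2 := by norm_num
    · refine Eventually.of_forall fun t _ => ?_
      simp only [hμ]
      exact (hc t).const_sub 1
  have hbd : ‖∫ t in (-2 * T⁻¹)..(2 * T⁻¹), 1 - Complex.exp (-((c * t ^ 2 : ℝ) : ℂ))‖ ≤
      ε / 4 * |2 * T⁻¹ - (-2 * T⁻¹)| := by
    refine intervalIntegral.norm_integral_le_of_norm_le_const fun t ht => ?_
    refine hsmall t ?_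
    rw [Set.uIoc_of_le (by linarith [inv_pos.2 hT0])] at ht
    have h1 : |t| ≤ 2 * T⁻¹ := by
      rw [abs_le]
      constructor
      · linarith [ht.1]
      · exact ht.2
    rw [hTi] at h1
    linarith
  have habs : |2 * T⁻¹ - (-2 * T⁻¹)| = 4 * T⁻¹ := by
    rw [abs_of_nonneg (by linarith [inv_pos.2 hT0])]
    ring
  rw [habs] at hbd
  have hev := hlim.norm.eventually (gt_mem_nhds (lt_of_le_of_lt hbd
    (show ε / 4 * (4 * T⁻¹) < 2 * ε * T⁻¹ by
      have : 0 < ε * T⁻¹ := mul_pos hε (inv_pos.2 hT0)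
      nlinarith)))
  filter_upwards [hev] with n hn
  have := hpr n
  have h1 := measureReal_abs_gt_le_integral_charFun (μ := P.map (Y n)) hT0
  have h2 : (P.map (Y n)).real {x | T < |x|} = P.real {ω | T < |Y n ω|} := by
    rw [map_measureReal_apply (hY n) (measurableSet_lt measurable_const (by fun_prop))]
    rfl
  rw [h2] at h1
  refine h1.trans ?_
  calc 2⁻¹ * T * ‖∫ t in (-2 * T⁻¹)..(2 * T⁻¹), 1 - charFun (P.map (Y n)) t‖
      ≤ 2⁻¹ * T * (2 * ε * T⁻¹) := by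
        refine mul_le_mul_of_nonneg_left hn.le (by positivity)
    _ = ε := by
        field_simp

/-- The pointwise inequality behind the tightness. -/
lemma tg_point {u Y K T : ℝ} (hK : 0 < K) (h : |Y| ≤ T) :
    1 - Real.exp (-((u + Y) ^ 2 / (2 * K ^ 2))) ≤ (u ^ 2 + T ^ 2) / K ^ 2 := by
  have h1 : 1 - (u + Y) ^ 2 / (2 * K ^ 2) ≤ Real.exp (-((u + Y) ^ 2 / (2 * K ^ 2))) := by
    have := Real.add_one_le_exp (-((u + Y) ^ 2 / (2 * K ^ 2)))
    linarith
  have h2 : (u + Y) ^ 2 / (2 * K ^ 2) ≤ (u ^ 2 + T ^ 2) / K ^ 2 := by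
    rw [div_le_div_iff₀ (by positivity) (by positivity)]
    have h3 : Y ^ 2 ≤ T ^ 2 := by
      rw [← sq_abs Y]
      exact pow_le_pow_left₀ (abs_nonneg _) h 2
    have h4 : (u + Y) ^ 2 ≤ 2 * (u ^ 2 + T ^ 2) := by nlinarith [sq_nonneg (u - Y)]
    calc (u + Y) ^ 2 * K ^ 2 ≤ 2 * (u ^ 2 + T ^ 2) * K ^ 2 :=
          mul_le_mul_of_nonneg_right h4 (by positivity)
      _ = (u ^ 2 + T ^ 2) * (2 * K ^ 2) := by ring
  linarith

/-- `u² exp(-u²/2A²) ≤ (8A²/3) exp(-u²/8A²)`. -/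
lemma tg_sqexp {A : ℝ} (hA : 0 < A) (u : ℝ) :
    u ^ 2 * Real.exp (-(u ^ 2 / (2 * A ^ 2))) ≤
      8 * A ^ 2 / 3 * Real.exp (-(u ^ 2 / (2 * (2 * A) ^ 2))) := by
  set x : ℝ := 3 * u ^ 2 / (8 * A ^ 2) with hx
  have h1 : x * Real.exp (-x) ≤ 1 := by
    have h2 : x ≤ Real.exp x := by linarith [Real.add_one_le_exp x]
    calc x * Real.exp (-x) ≤ Real.exp x * Real.exp (-x) :=
          mul_le_mul_of_nonneg_right h2 (Real.exp_pos _).le
      _ = 1 := by rw [← Real.exp_add, add_neg_cancel, Real.exp_zero]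
  have h2 : u ^ 2 = 8 * A ^ 2 / 3 * x := by
    rw [hx]
    field_simp
  have h3 : -(u ^ 2 / (2 * A ^ 2)) = -x + -(u ^ 2 / (2 * (2 * A) ^ 2)) := by
    rw [hx]
    field_simp
    ring
  calc u ^ 2 * Real.exp (-(u ^ 2 / (2 * A ^ 2)))
      = 8 * A ^ 2 / 3 * (x * Real.exp (-x)) * Real.exp (-(u ^ 2 / (2 * (2 * A) ^ 2))) := by
        rw [h3, Real.exp_add]
        nth_rewrite 1 [h2]
        ring
    _ ≤ 8 * A ^ 2 / 3 * 1 * Real.exp (-(u ^ 2 / (2 * (2 * A) ^ 2))) := by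
        refine mul_le_mul_of_nonneg_right ?_ (Real.exp_pos _).le
        exact mul_le_mul_of_nonneg_left h1 (by positivity)
    _ = _ := by ring

theorem tight_of {P : Measure Fld} [IsProbabilityMeasure P] {φ φ' : ℕ → (ℤ × ℤ) →₀ ℝ}
    (m1 : ∀ n, mass (φ n) = 1) (m2 : ∀ n, mass (φ' n) = 1) {c : ℝ}
    (hc : ∀ t : ℝ, Tendsto (fun n => ∫ ω, Complex.exp (Complex.I *
      ((t * (ev (φ n) (pth ω) - ev (φ' n) (pth ω)) : ℝ) : ℂ)) ∂P) atTop
      (𝓝 (Complex.exp (-((c * t ^ 2 : ℝ) : ℂ)))))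
    {G : ℕ → Hgt → ℂ} {A : ℝ} (hA : 0 < A) (hGm : ∀ n, Measurable (G n))
    (hG : ∀ n h, ‖G n h‖ ≤ Real.exp (-((ev (φ' n) h) ^ 2 / (2 * A ^ 2)))) : Tight P φ G := by
  obtain ⟨C, hC, hg⟩ := tg_sum hA
  obtain ⟨C', hC', hg'⟩ := tg_sum (A := 2 * A) (by positivity)
  intro ε hε
  have hYm : ∀ n, Measurable fun ω : Fld => ev (φ n) (pth ω) - ev (φ' n) (pth ω) := fun n =>
    (measurable_evp _).sub (measurable_evp _)
  obtain ⟨T, hT, hev⟩ := tg_tail (P := P) hYm hc (ε := ε / (2 * (C + 1))) (by positivity)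
  set M : ℝ := 8 * A ^ 2 / 3 * C' + T ^ 2 * C with hM
  have hM0 : 0 ≤ M := by positivity
  refine ⟨1 + 2 * M / ε, fun K hK => ?_⟩
  have hK1 : 1 ≤ K := by
    have : 0 ≤ 2 * M / ε := by positivity
    linarith
  have hK0 : 0 < K := by linarith
  have hMK : M / K ^ 2 ≤ ε / 2 := by
    rw [div_le_iff₀ (by positivity)]
    have h1 : 2 * M / ε ≤ K := by linarith
    rw [div_le_iff₀ hε] at h1
    have h2 : K ≤ K ^ 2 := by nlinarith
    nlinarith
  filter_upwards [hev] with n hn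
  set S : Set Fld := {ω | T < |ev (φ n) (pth ω) - ev (φ' n) (pth ω)|} with hS
  have hSm : MeasurableSet S := measurableSet_lt measurable_const (hYm n).abs
  have hF : Measurable fun h => ‖G n h‖ * (1 - Real.exp (-((ev (φ n) h) ^ 2 / (2 * K ^ 2)))) :=
    (hGm n).norm.mul (measurable_const.sub
      (Real.measurable_exp.comp (((measurable_ev (φ n)).pow_const 2).div_const _).neg))
  have h1e : ∀ x : ℝ, 0 ≤ 1 - Real.exp (-(x ^ 2 / (2 * K ^ 2))) := by
    intro x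
    have : Real.exp (-(x ^ 2 / (2 * K ^ 2))) ≤ 1 := by
      rw [Real.exp_le_one_iff]
      have : 0 ≤ x ^ 2 / (2 * K ^ 2) := by positivity
      linarith
    linarith
  have h0 : ∀ h, 0 ≤ ‖G n h‖ * (1 - Real.exp (-((ev (φ n) h) ^ 2 / (2 * K ^ 2)))) := fun h =>
    mul_nonneg (norm_nonneg _) (h1e _)
  -- the dominating series
  set D : Fld → ℤ → ℝ := fun ω k =>
    (8 * A ^ 2 / 3 / K ^ 2) * Real.exp (-((ev (φ' n) (pth ω) + 2 * k) ^ 2 / (2 * (2 * A) ^ 2))) +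
      (T ^ 2 / K ^ 2 + S.indicator (fun _ => (1 : ℝ)) ω) *
        Real.exp (-((ev (φ' n) (pth ω) + 2 * k) ^ 2 / (2 * A ^ 2))) with hD
  have hDs : ∀ ω, Summable (D ω) := fun ω =>
    ((hg' (ev (φ' n) (pth ω))).1.mul_left _).add ((hg (ev (φ' n) (pth ω))).1.mul_left _)
  have hi0 : ∀ ω, 0 ≤ S.indicator (fun _ => (1 : ℝ)) ω := fun ω =>
    Set.indicator_nonneg (fun _ _ => zero_le_one) ω
  have hDt : ∀ ω, ∑' k, D ω k ≤ M / K ^ 2 + S.indicator (fun _ => (1 : ℝ)) ω * C := by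
    intro ω
    have e1 : ∑' k, D ω k = (8 * A ^ 2 / 3 / K ^ 2) *
        ∑' k : ℤ, Real.exp (-((ev (φ' n) (pth ω) + 2 * k) ^ 2 / (2 * (2 * A) ^ 2))) +
        (T ^ 2 / K ^ 2 + S.indicator (fun _ => (1 : ℝ)) ω) *
        ∑' k : ℤ, Real.exp (-((ev (φ' n) (pth ω) + 2 * k) ^ 2 / (2 * A ^ 2))) := by
      rw [← tsum_mul_left, ← tsum_mul_left, ← Summable.tsum_add
        ((hg' (ev (φ' n) (pth ω))).1.mul_left _) ((hg (ev (φ' n) (pth ω))).1.mul_left _)]
    rw [e1]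
    have e2 := mul_le_mul_of_nonneg_left (hg' (ev (φ' n) (pth ω))).2
      (show 0 ≤ 8 * A ^ 2 / 3 / K ^ 2 by positivity)
    have e3 := mul_le_mul_of_nonneg_left (hg (ev (φ' n) (pth ω))).2
      (show 0 ≤ T ^ 2 / K ^ 2 + S.indicator (fun _ => (1 : ℝ)) ω by
        have := hi0 ω
        positivity)
    refine (add_le_add e2 e3).trans (le_of_eq ?_)
    rw [hM]
    ring
  have hFD : ∀ ω (k : ℤ), ‖G n (fun q => pth ω q + 2 * k)‖ *
      (1 - Real.exp (-((ev (φ n) (fun q => pth ω q + 2 * k)) ^ 2 / (2 * K ^ 2)))) ≤ D ω k := by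
    intro ω k
    set u : ℝ := ev (φ' n) (pth ω) + 2 * k with hu
    have hev1 : ev (φ n) (fun q => pth ω q + 2 * k) =
        u + (ev (φ n) (pth ω) - ev (φ' n) (pth ω)) := by
      rw [tg_ev (m1 n), hu]
      ring
    have hGle : ‖G n (fun q => pth ω q + 2 * k)‖ ≤ Real.exp (-(u ^ 2 / (2 * A ^ 2))) := by
      have := hG n (fun q => pth ω q + 2 * k)
      rwa [tg_ev (m2 n)] at this
    have hle : 1 - Real.exp (-((ev (φ n) (fun q => pth ω q + 2 * k)) ^ 2 / (2 * K ^ 2))) ≤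
        (u ^ 2 + T ^ 2) / K ^ 2 + S.indicator (fun _ => (1 : ℝ)) ω := by
      rw [hev1]
      by_cases hω : ω ∈ S
      · rw [Set.indicator_of_mem hω]
        have h2 : 0 ≤ (u ^ 2 + T ^ 2) / K ^ 2 := by positivity
        have h3 := Real.exp_pos (-((u + (ev (φ n) (pth ω) - ev (φ' n) (pth ω))) ^ 2 / (2 * K ^ 2)))
        linarith
      · rw [Set.indicator_of_notMem hω, add_zero]
        exact tg_point hK0 (not_lt.1 hω)
    calc ‖G n (fun q => pth ω q + 2 * k)‖ *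
          (1 - Real.exp (-((ev (φ n) (fun q => pth ω q + 2 * k)) ^ 2 / (2 * K ^ 2))))
        ≤ Real.exp (-(u ^ 2 / (2 * A ^ 2))) *
          ((u ^ 2 + T ^ 2) / K ^ 2 + S.indicator (fun _ => (1 : ℝ)) ω) :=
          mul_le_mul hGle hle (h1e _) (Real.exp_pos _).le
      _ = (u ^ 2 * Real.exp (-(u ^ 2 / (2 * A ^ 2)))) / K ^ 2 +
          (T ^ 2 / K ^ 2 + S.indicator (fun _ => (1 : ℝ)) ω) *
            Real.exp (-(u ^ 2 / (2 * A ^ 2))) := by ring
      _ ≤ (8 * A ^ 2 / 3 * Real.exp (-(u ^ 2 / (2 * (2 * A) ^ 2)))) / K ^ 2 +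
          (T ^ 2 / K ^ 2 + S.indicator (fun _ => (1 : ℝ)) ω) *
            Real.exp (-(u ^ 2 / (2 * A ^ 2))) := by
          refine add_le_add (div_le_div_of_nonneg_right (tg_sqexp hA u) (by positivity)) le_rfl
      _ = D ω k := by
          rw [hD]
          ring
  have hFs : ∀ ω, Summable fun k : ℤ => ‖G n (fun q => pth ω q + 2 * k)‖ *
      (1 - Real.exp (-((ev (φ n) (fun q => pth ω q + 2 * k)) ^ 2 / (2 * K ^ 2)))) := fun ω =>
    Summable.of_nonneg_of_le (fun k => h0 _) (hFD ω) (hDs ω)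
  have hbi : Integrable (fun ω => M / K ^ 2 + S.indicator (fun _ => (1 : ℝ)) ω * C) P :=
    (integrable_const _).add (((integrable_const (1 : ℝ)).indicator hSm).mul_const C)
  have hfin := (tg_int (P := P) hF h0 hbi hFs
    (fun ω => ((hFs ω).tsum_le_tsum (hFD ω) (hDs ω)).trans (hDt ω))).2
  refine hfin.trans ?_
  rw [integral_add (integrable_const _) (((integrable_const (1 : ℝ)).indicator hSm).mul_const C),
    integral_const, integral_mul_const, integral_indicator hSm, setIntegral_const]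
  simp only [probReal_univ, smul_eq_mul, mul_one]
  have h5 : P.real S * C ≤ ε / 2 := by
    calc P.real S * C ≤ ε / (2 * (C + 1)) * C := mul_le_mul_of_nonneg_right hn hC
      _ ≤ ε / (2 * (C + 1)) * (C + 1) := by
        refine mul_le_mul_of_nonneg_left (by linarith) (by positivity)
      _ = ε / 2 := by
        field_simp
  linarith

end Vale.Agent.P153.F.SD
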