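import Vale.Agent.P153.F.SD.UseT
import Vale.Agent.P145.FA.Use

/-!
P153, block F-SD: the Schwinger-Dyson equations for the moments under a product of three local
functionals (triangular pinwheel).
-/

namespace Vale.Agent.P153.F.SD

open Finset Filter Topology MeasureTheory
open Vale.Agent.P145.PT (Sm TestOn lap)
open Vale.Agent.P145.FA (SDdat int_lap)
open Vale.Agent.P145.FA.Use (pt_bound expI_sub expI_sub_one norm_expI lap_smul est tendsto_of_param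
  BM moments)
open Vale.Agent.P153.GFF (Csts pos var2)
open Vale.Agent.P153.F.Top (c1 c2 cell)

/-! ### A bump function away from `ψ` -/

lemma cell_open (x y s : ℝ) : IsOpen (cell x y s) := by
  have hc1 : Continuous c1 := by unfold Top.c1; fun_prop
  have hc2 : Continuous c2 := by unfold Top.c2; fun_prop
  have h1 : IsOpen {z : ℝ × ℝ | x < c1 z} := isOpen_lt continuous_const hc1
  have h2 : IsOpen {z : ℝ × ℝ | y < c2 z} := isOpen_lt continuous_const hc2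
  have h3 : IsOpen {z : ℝ × ℝ | c1 z + c2 z < s} := isOpen_lt (hc1.add hc2) continuous_const
  exact h1.inter (h2.inter h3)

lemma exists_chi {b : PW} (hb : b.x0 + b.y0 < b.s0) {ψ : ℝ × ℝ → ℝ}
    (hψ : TestOn b.box ψ) : ∃ χ : ℝ × ℝ → ℝ, TestOn b.box χ ∧ (∫ x, χ x = 1) ∧
      ∀ x, ψ x * χ x = 0 := by
  have hbo : IsOpen b.box := cell_open _ _ _
  set O : Set (ℝ × ℝ) := b.box ∩ (tsupport ψ)ᶜ with hO
  have hOo : IsOpen O := hbo.inter (isClosed_tsupport ψ).isOpen_compl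
  have h3 : (0 : ℝ) < √3 := by positivity
  have hne : O.Nonempty := by
    set m : ℝ := (b.y0 + b.s0 - b.x0) / 2 with hm
    have e1 : ∀ t : ℝ, c1 (b.x0 + m / 2 + t, m * (√3 / 2)) = b.x0 + t := by
      intro t
      unfold Top.c1
      simp only
      field_simp
      ring
    have e2 : ∀ t : ℝ, c2 (b.x0 + m / 2 + t, m * (√3 / 2)) = m := by
      intro t
      unfold Top.c2
      simp only
      field_simp
    have hpn : (b.x0 + m / 2 + 0, m * (√3 / 2)) ∈ (tsupport ψ)ᶜ := by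
      intro h
      have h1 := (hψ.2.2 h).1
      rw [e1, add_zero] at h1
      exact lt_irrefl _ h1
    obtain ⟨r, hr, hball⟩ := Metric.isOpen_iff.1 (isClosed_tsupport ψ).isOpen_compl _ hpn
    set t : ℝ := min (r / 2) ((b.s0 - b.x0 - b.y0) / 4) with ht
    have ht0 : 0 < t := lt_min (by linarith) (by linarith)
    refine ⟨(b.x0 + m / 2 + t, m * (√3 / 2)), ⟨?_, ?_, ?_⟩, hball ?_⟩
    · rw [e1]; linarith
    · rw [e2]; linarith
    · rw [e1, e2]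
      have := min_le_right (r / 2) ((b.s0 - b.x0 - b.y0) / 4)
      linarith
    · rw [Metric.mem_ball, Prod.dist_eq, max_lt_iff]
      simp only [dist_self, Real.dist_eq]
      refine ⟨?_, hr⟩
      rw [add_sub_add_left_eq_sub, sub_zero, abs_of_pos ht0]
      have := min_le_left (r / 2) ((b.s0 - b.x0 - b.y0) / 4)
      linarith
  obtain ⟨p, hp⟩ := hne
  obtain ⟨r, hr, hball⟩ := Metric.isOpen_iff.1 hOo p hp
  have hs : 0 < r / 2 := by linarith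
  have hsub : Metric.closedBall p (r / 2) ⊆ O :=
    (Metric.closedBall_subset_ball (by linarith)).trans hball
  have hT : TestOn O (P145.PT.bump (r / 2) p) := P145.PT.bump_test hs hsub
  refine ⟨P145.PT.bump (r / 2) p, hT.mono Set.inter_subset_left, P145.PT.bump_int hs p,
    fun x => ?_⟩
  by_cases h : ψ x = 0
  · rw [h, zero_mul]
  · have h1 : x ∈ tsupport ψ := subset_tsupport _ h
    have h2 : P145.PT.bump (r / 2) p x = 0 := by
      by_contra h3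
      exact (hT.2.2 (subset_tsupport _ h3)).2 h1
    rw [h2, mul_zero]

/-! ### Restriction of a functional to a set of vertices -/

open Classical in
/-- The part of `ev w` in `A`. -/
noncomputable def evK (w : (ℤ × ℤ) →₀ ℝ) (A : Set (ℤ × ℤ)) (h : Hgt) : ℝ :=
  ∑ q ∈ w.support, if q ∈ A then w q * (h q : ℝ) else 0

open Classical in
lemma loc_evK (w : (ℤ × ℤ) →₀ ℝ) (A : Set (ℤ × ℤ)) : Loc A (evK w A) := by
  refine ⟨w.support.filter (· ∈ A), fun q hq => (Finset.mem_filter.1 hq).2, fun h h' hh => ?_⟩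
  unfold evK
  refine Finset.sum_congr rfl fun q hq => ?_
  split_ifs with hA
  · rw [hh q (Finset.mem_filter.2 ⟨hq, hA⟩)]
  · rfl

open Classical in
lemma evK_sum (w : (ℤ × ℤ) →₀ ℝ) {A1 A2 A3 : Set (ℤ × ℤ)}
    (hsub : ∀ q, w q ≠ 0 → q ∈ A1 ∨ q ∈ A2 ∨ q ∈ A3)
    (h12 : ∀ q ∈ A1, q ∉ A2) (h13 : ∀ q ∈ A1, q ∉ A3)
    (h23 : ∀ q ∈ A2, q ∉ A3) (h : Hgt) :
    ev w h = evK w A1 h + evK w A2 h + evK w A3 h := by
  unfold ev Finsupp.sum evK
  rw [← Finset.sum_add_distrib, ← Finset.sum_add_distrib]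
  refine Finset.sum_congr rfl fun q hq => ?_
  rcases hsub q (Finsupp.mem_support_iff.1 hq) with h1 | h1 | h1
  · rw [if_pos h1, if_neg (h12 q h1), if_neg (h13 q h1)]; ring
  · rw [if_pos h1, if_neg (fun h => h12 q h h1), if_neg (h23 q h1)]; ring
  · rw [if_pos h1, if_neg (fun h => h13 q h h1), if_neg (fun h => h23 q h h1)]; ring

lemma ev_arms {b : PW} (he : 0 < b.e) {g : ℝ × ℝ → ℝ} {K : ℝ}
    (cg : Csts g K) (hg : ∀ x, g x ≠ 0 → x ∈ b.K1 ∨ x ∈ b.K2 ∨ x ∈ b.K3)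
    {δ : ℝ} (hδ : 0 < δ) (h : Hgt) :
    ev (Wd δ g 0) h = evK (Wd δ g 0) (lat δ b.K1) h + evK (Wd δ g 0) (lat δ b.K2) h +
      evK (Wd δ g 0) (lat δ b.K3) h := by
  refine evK_sum _ (fun q hq => ?_) ?_ ?_ ?_ h
  · have h1 := Wd_supp cg hδ hq
    have h2 := hg _ h1
    rw [add_zero] at h2
    exact h2
  all_goals
    intro q h1 h2
    simp only [lat, PW.K1, PW.K2, PW.K3, Set.mem_ofPred_eq] at h1 h2
    linarith

/-! ### The data -/

/-- The functional of a test function. -/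
noncomputable def Lf (δ : ℝ) (f : ℝ × ℝ → ℝ) (h : Hgt) : ℝ := ev (Wd δ f 0) h

/-- Hypotheses on the three factors and on the moments. -/
structure Dat (P : Measure Fld) (δ : ℕ → ℝ) (b : PW) (D : Set (ℝ × ℝ))
    (X1 X2 X3 X : ℕ → Hgt → ℝ) : Prop where
  hb : b.x0 + b.y0 < b.s0
  he : 0 < b.e
  hbD : b.box ⊆ D
  l1 : ∀ n, Loc (lat (δ n) b.K1) (X1 n)
  l2 : ∀ n, Loc (lat (δ n) b.K2) (X2 n)
  l3 : ∀ n, Loc (lat (δ n) b.K3) (X3 n)
  n1 : ∀ n h, 0 ≤ X1 n h ∧ X1 n h ≤ 1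
  n2 : ∀ n h, 0 ≤ X2 n h ∧ X2 n h ≤ 1
  n3 : ∀ n h, 0 ≤ X3 n h ∧ X3 n h ≤ 1
  hX : ∀ n h, X n h = X1 n h * X2 n h * X3 n h
  int : ∀ᶠ n in atTop, Integrable (X n) (mu0 P)
  pos : ∃ c0 : ℝ, 0 < c0 ∧ ∀ᶠ n in atTop, c0 ≤ ∫ h, X n h ∂(mu0 P)
  mom : ∀ f, TestOn D f → ∀ k : ℕ, ∃ C : ℝ, 0 ≤ C ∧ ∀ᶠ n in atTop,
    Integrable (fun h => |Lf (δ n) f h| ^ k * X n h) (mu0 P) ∧
    ∫ h, |Lf (δ n) f h| ^ k * X n h ∂(mu0 P) ≤ C * ∫ h, X n h ∂(mu0 P)
  r1 : ∃ ρ : ℝ × ℝ → ℝ, TestOn b.K1 ρ ∧ TestOn D ρ ∧ ∫ x, ρ x = 1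
  r3 : ∃ ρ : ℝ × ℝ → ℝ, TestOn b.K3 ρ ∧ TestOn D ρ ∧ ∫ x, ρ x = 1

variable {P : Measure Fld} {δ : ℕ → ℝ} {b : PW} {D : Set (ℝ × ℝ)}
  {X1 X2 X3 X : ℕ → Hgt → ℝ}

lemma Dat.X_nonneg (d : Dat P δ b D X1 X2 X3 X) (n : ℕ) (h : Hgt) : 0 ≤ X n h := by
  rw [d.hX]
  exact mul_nonneg (mul_nonneg (d.n1 n h).1 (d.n2 n h).1) (d.n3 n h).1

lemma Dat.X_meas (d : Dat P δ b D X1 X2 X3 X) (n : ℕ) : Measurable (X n) := by
  have e : X n = fun h => X1 n h * X2 n h * X3 n h := funext fun h => d.hX n h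
  rw [e]
  exact ((d.l1 n).measS.mul (d.l2 n).measS).mul (d.l3 n).measS

lemma measurable_Lf (δ : ℝ) (f : ℝ × ℝ → ℝ) : Measurable (Lf δ f) := measurable_ev _

/-- Normalised functionals. -/
lemma nW_bound {f : ℝ × ℝ → ℝ} {A δ : ℝ} (hf1 : ∫ x, f x = 1)
    (h1 : |mass (Wd δ f 0) - ∫ x, f x| ≤ A * δ) (h2 : A * δ ≤ 1 / 2) (h : Hgt) :
    |ev (nW δ f 0) h| ≤ 2 * |Lf δ f h| := by
  rw [hf1] at h1
  have h3 : 1 / 2 ≤ mass (Wd δ f 0) := by
    have := (abs_le.1 h1).1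
    linarith
  have h4 : 0 < mass (Wd δ f 0) := by linarith
  unfold nW
  rw [ev_smul, abs_mul, abs_of_pos (inv_pos.2 h4)]
  refine mul_le_mul_of_nonneg_right ?_ (abs_nonneg _)
  rw [inv_le_comm₀ h4 (by norm_num)]
  linarith

lemma pp_bound {φ1 φ4 : (ℤ × ℤ) →₀ ℝ} {L η : ℝ} (hL2 : (L ^ 2)⁻¹ = η) (hη : 0 ≤ η) {h : Hgt}
    {r1 r4 : ℝ} (v1 : |ev φ1 h| ≤ 2 * |r1|) (v4 : |ev φ4 h| ≤ 2 * |r4|) :
    1 - gl φ1 L h * gl φ4 L h ≤ 4 * η * |r1| ^ 2 + 4 * η * |r4| ^ 2 := by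
  have a1 := one_sub_gl φ1 L h
  have a2 := one_sub_gl φ4 L h
  have a3 := gl_le_one φ1 L h
  have a4 := gl_le_one φ4 L h
  have key : ∀ {φ : (ℤ × ℤ) →₀ ℝ} {r : ℝ}, |ev φ h| ≤ 2 * |r| →
      (ev φ h) ^ 2 / (2 * L ^ 2) ≤ 4 * η * |r| ^ 2 := by
    intro φ r v
    have e : (ev φ h) ^ 2 / (2 * L ^ 2) = |ev φ h| ^ 2 * η / 2 := by
      rw [sq_abs, ← hL2]
      field_simp
    rw [e]
    have h1 := pow_le_pow_left₀ (abs_nonneg _) v 2
    have h2 := mul_le_mul_of_nonneg_right h1 hη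
    have h3 : (2 * |r|) ^ 2 * η = 4 * η * |r| ^ 2 := by ring
    have h4 : 0 ≤ |ev φ h| ^ 2 * η := by positivity
    linarith
  have a7 := key v1
  have a8 := key v4
  have a9 : 1 - gl φ1 L h * gl φ4 L h ≤ (1 - gl φ1 L h) + (1 - gl φ4 L h) := by
    have : 0 ≤ (1 - gl φ1 L h) * (1 - gl φ4 L h) :=
      mul_nonneg (by linarith) (by linarith)
    linarith
  linarith

/-- The exponential form of the Schwinger-Dyson equation. -/
theorem char_lim (hP : GFF.Plane P) {A0 : ℝ} (hA0 : 0 ≤ A0)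
    (hA : ∀ x : ℤ × ℤ, var2 P x ≤ A0 * (1 + |(x.1 : ℝ)| + |(x.2 : ℝ)|)) {κ : ℝ}
    (hclt : CLT P κ) (hδp : ∀ n, 0 < δ n) (hδ : Tendsto δ atTop (𝓝[>] 0))
    (d : Dat P δ b D X1 X2 X3 X) {ψ f0 g : ℝ × ℝ → ℝ} (hψ : TestOn b.box ψ) (hf0 : TestOn b.box f0) (hg : TestOn D g)
    (hgK : ∀ x, g x ≠ 0 → x ∈ b.K1 ∨ x ∈ b.K2 ∨ x ∈ b.K3) (s t : ℝ) :
    Tendsto (fun n => (∫ h, (X n h : ℂ) * (Complex.exp (Complex.I *
      ((t * Lf (δ n) (fun x => f0 x + g x) h : ℝ) : ℂ)) *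
      (Complex.exp (Complex.I * ((s * Lf (δ n) (fun x => -lap ψ x) h : ℝ) : ℂ)) -
        ((Real.exp (-(κ * (s * t * ∫ x, ψ x * f0 x)) -
          κ / 2 * (s ^ 2 * ∫ x, ψ x * (-lap ψ x))) : ℝ) : ℂ))) ∂(mu0 P)) /
      ((∫ h, X n h ∂(mu0 P) : ℝ) : ℂ)) atTop (𝓝 0) := by
  obtain ⟨χ, hχ, iχ, hψχ⟩ := exists_chi d.hb hψ
  obtain ⟨ρ1, hρ1, hρ1D, iρ1⟩ := d.r1
  obtain ⟨ρ4, hρ4, hρ4D, iρ4⟩ := d.r3
  have hV : TestOn D (fun x => -lap ψ x) := (hψ.lap.neg).mono d.hbD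
  obtain ⟨C1, hC1, m1⟩ := d.mom ρ1 hρ1D 2
  obtain ⟨C4, hC4, m4⟩ := d.mom ρ4 hρ4D 2
  obtain ⟨Cχ, hCχ, mχ⟩ := d.mom χ (hχ.mono d.hbD) 1
  obtain ⟨c0, hc0, hpos⟩ := d.pos
  -- masses
  have hmass : ∀ {f : ℝ × ℝ → ℝ}, Sm f → HasCompactSupport f → ∃ C : ℝ, 0 ≤ C ∧ ∀ δ : ℝ, 0 < δ →
      δ ≤ 1 → |mass (Wd δ f 0) - ∫ x, f x| ≤ C * δ := by
    intro f hf cf
    obtain ⟨K, hK⟩ := exists_csts hf cf
    have := hK.pos
    exact ⟨2 * K * (4 * K + 15) ^ 2, by positivity, fun δ h1 h2 => mass_Wd hK h1 h2 0⟩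
  obtain ⟨A1, hA1, ma1⟩ := hmass hρ1.1 hρ1.2.1
  obtain ⟨A4, hA4, ma4⟩ := hmass hρ4.1 hρ4.2.1
  obtain ⟨Aχ, hAχ, maχ⟩ := hmass hχ.1 hχ.2.1
  obtain ⟨AV, hAV, maV⟩ := hmass hV.1 hV.2.1
  have hV0 : ∫ x, -lap ψ x = 0 := by rw [integral_neg, int_lap hψ.1 hψ.2.1, neg_zero]
  set p : ℝ := ∫ x, ψ x * f0 x with hp
  set q : ℝ := ∫ x, ψ x * (-lap ψ x) with hq
  set α : ℝ := Real.exp (-(κ * (s * t * p)) - κ / 2 * (s ^ 2 * q)) with hα
  have h0 : Tendsto δ atTop (𝓝 0) := hδ.mono_right nhdsWithin_le_nhds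
  set ψ' : ℝ × ℝ → ℝ := fun x => s * ψ x with hψ'd
  set f0' : ℝ × ℝ → ℝ := fun x => t * f0 x with hf0'd
  set g' : ℝ × ℝ → ℝ := fun x => t * g x with hg'd
  have hψ' : TestOn b.box ψ' := hψ.smul s
  have hf0' : TestOn b.box f0' := hf0.smul t
  obtain ⟨_, kf0⟩ := exists_csts hf0.1 hf0.2.1
  obtain ⟨_, kf0'⟩ := exists_csts hf0'.1 hf0'.2.1
  obtain ⟨_, kg⟩ := exists_csts hg.1 hg.2.1
  obtain ⟨_, kg'⟩ := exists_csts (hg.smul t).1 (hg.smul t).2.1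
  obtain ⟨_, kfg⟩ := exists_csts ((hf0.mono d.hbD).add hg).1 ((hf0.mono d.hbD).add hg).2.1
  obtain ⟨_, kV⟩ := exists_csts hV.1 hV.2.1
  obtain ⟨_, kV'⟩ := exists_csts (hV.smul s).1 (hV.smul s).2.1
  have hg'K : ∀ x, g' x ≠ 0 → x ∈ b.K1 ∨ x ∈ b.K2 ∨ x ∈ b.K3 := by
    intro x hx
    refine hgK x fun h => hx ?_
    simp only [hg'd, h, mul_zero]
  have eα : Real.exp (-(κ * ∫ x, ψ' x * f0' x) - (κ / 2) * ∫ x, ψ' x * (-lap ψ' x)) = α := by
    rw [hα]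
    have e1 : ∫ x, ψ' x * f0' x = s * t * p := by
      rw [hp, ← integral_const_mul]
      refine integral_congr_ae (Eventually.of_forall fun x => ?_)
      simp only [hψ'd, hf0'd]
      ring
    have e2 : ∫ x, ψ' x * (-lap ψ' x) = s ^ 2 * q := by
      rw [hq, ← integral_const_mul]
      refine integral_congr_ae (Eventually.of_forall fun x => ?_)
      simp only [hψ'd]
      rw [lap_smul ψ hψ.1]
      ring
    rw [e1, e2]
  have hψχ' : ∀ x, ψ' x * χ x = 0 := fun x => by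
    simp only [hψ'd]; rw [mul_assoc, hψχ, mul_zero]
  refine tendsto_of_param (C := (1 + |α|) * (4 * (C1 + C4))) (h0 := 1) one_pos fun η hη hη1 => ?_
  set L : ℝ := (√η)⁻¹ with hL
  have hsη : 0 < √η := Real.sqrt_pos.2 hη
  have hL1 : 1 ≤ L := by
    rw [hL]
    refine (one_le_inv₀ hsη).2 ?_
    exact Real.sqrt_le_one.2 hη1.le
  have hL2 : (L ^ 2)⁻¹ = η := by
    rw [hL, inv_pow, inv_inv, Real.sq_sqrt hη.le]
  set G1 : ℕ → Hgt → ℂ := fun n h => ((X1 n h * gl (nW (δ n) ρ1 0) L h : ℝ) : ℂ) *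
    Complex.exp (Complex.I * ((evK (Wd (δ n) g' 0) (lat (δ n) b.K1) h : ℝ) : ℂ)) with hG1
  set G2 : ℕ → Hgt → ℂ := fun n h => ((X2 n h : ℝ) : ℂ) *
    Complex.exp (Complex.I * ((evK (Wd (δ n) g' 0) (lat (δ n) b.K2) h : ℝ) : ℂ)) with hG2
  set G3 : ℕ → Hgt → ℂ := fun n h => ((X3 n h * gl (nW (δ n) ρ4 0) L h : ℝ) : ℂ) *
    Complex.exp (Complex.I * ((evK (Wd (δ n) g' 0) (lat (δ n) b.K3) h : ℝ) : ℂ)) with hG3
  have locgl : ∀ {K : Set (ℝ × ℝ)} {ρ : ℝ × ℝ → ℝ} (n : ℕ), TestOn K ρ →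
      Loc (lat (δ n) K) (gl (nW (δ n) ρ 0) L) := by
    intro K ρ n hρ
    obtain ⟨k, hk⟩ := exists_csts hρ.1 hρ.2.1
    have hl : Loc (lat (δ n) K) (ev (Wd (δ n) ρ 0)) :=
      loc_Wd hk (fun x hx => hρ.2.2 (subset_tsupport _ hx)) (hδp n)
    have e : gl (nW (δ n) ρ 0) L = fun h => (fun r : ℝ => Real.exp (-(((mass (Wd (δ n) ρ 0))⁻¹ * r)
        ^ 2 / (2 * L ^ 2)))) (ev (Wd (δ n) ρ 0) h) := by
      funext h
      unfold gl nW
      rw [ev_smul]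
    rw [e]
    exact hl.comp (fun r : ℝ => Real.exp (-(((mass (Wd (δ n) ρ 0))⁻¹ * r) ^ 2 / (2 * L ^ 2))))
  have l1 : ∀ n, Loc (lat (δ n) b.K1) (G1 n) := fun n =>
    ((d.l1 n).comp₂ (locgl n hρ1) (fun x y => ((x * y : ℝ) : ℂ))).comp₂ (loc_evK _ _)
      (fun x y => x * Complex.exp (Complex.I * ((y : ℝ) : ℂ)))
  have l2 : ∀ n, Loc (lat (δ n) b.K2) (G2 n) := fun n =>
    (d.l2 n).comp₂ (loc_evK _ _) (fun x y => (x : ℂ) * Complex.exp (Complex.I * ((y : ℝ) : ℂ)))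
  have l3 : ∀ n, Loc (lat (δ n) b.K3) (G3 n) := fun n =>
    ((d.l3 n).comp₂ (locgl n hρ4) (fun x y => ((x * y : ℝ) : ℂ))).comp₂ (loc_evK _ _)
      (fun x y => x * Complex.exp (Complex.I * ((y : ℝ) : ℂ)))
  have b2 : ∀ n h, ‖G2 n h‖ ≤ 1 := fun n h => by
    rw [hG2]
    simp only
    rw [norm_mul, norm_expI, mul_one, Complex.norm_real, Real.norm_eq_abs,
      abs_of_nonneg (d.n2 n h).1]
    exact (d.n2 n h).2
  have b1 : ∀ n h, ‖G1 n h‖ ≤ gl (nW (δ n) ρ1 0) L h := fun n h => by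
    rw [hG1]
    simp only
    have h1 := gl_pos (nW (δ n) ρ1 0) L h
    have h2 := d.n1 n h
    rw [norm_mul, norm_expI, mul_one, Complex.norm_real, Real.norm_eq_abs,
      abs_of_nonneg (mul_nonneg h2.1 h1.le)]
    nlinarith
  have b3 : ∀ n h, ‖G3 n h‖ ≤ gl (nW (δ n) ρ4 0) L h := fun n h => by
    rw [hG3]
    simp only
    have h1 := gl_pos (nW (δ n) ρ4 0) L h
    have h2 := d.n3 n h
    rw [norm_mul, norm_expI, mul_one, Complex.norm_real, Real.norm_eq_abs,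
      abs_of_nonneg (mul_nonneg h2.1 h1.le)]
    nlinarith
  have hfa := fa_box hP hA0 hA hclt hδ b d.he hf0' hψ' hχ iχ hψχ' hρ1 iρ1 hρ4 iρ4
    (lt_of_lt_of_le one_pos hL1) G1 G2 G3 l1 l2 l3 b2 b1 b3
  rw [eα] at hfa
  -- the functionals
  set V : ℕ → Hgt → ℝ := fun n h => Lf (δ n) (fun x => f0 x + g x) h with hVd
  set U : ℕ → Hgt → ℝ := fun n h => Lf (δ n) (fun x => -lap ψ x) h with hUd
  set m : ℕ → ℝ := fun n => mass (Wd (δ n) (fun x => -lap ψ x) 0) with hm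
  set Φ : ℕ → Hgt → ℝ := fun n h => ev (nW (δ n) χ 0) h with hΦ
  set pp : ℕ → Hgt → ℝ := fun n h => gl (nW (δ n) ρ1 0) L h * gl (nW (δ n) ρ4 0) L h with hpp
  have hprod : ∀ n h, Yf (Wd (δ n) f0' 0) (zW (δ n) (fun x => -lap ψ' x) χ 0) α h *
      G1 n h * G2 n h * G3 n h =
      (X n h : ℂ) * (((pp n h : ℝ) : ℂ) * (Complex.exp (Complex.I * ((t * V n h : ℝ) : ℂ)) *
        (Complex.exp (Complex.I * ((s * U n h - s * m n * Φ n h : ℝ) : ℂ)) - (α : ℂ)))) := by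
    intro n h
    have e1 : ev (Wd (δ n) f0' 0) h + ev (Wd (δ n) g' 0) h = t * V n h := by
      rw [hVd]
      simp only [Lf]
      rw [Wd_add kf0 kg kfg (hδp n), ev_add, Wd_smul kf0 kf0' (hδp n),
        Wd_smul kg kg' (hδp n), ev_smul, ev_smul]
      ring
    have e2 := ev_arms d.he kg' hg'K (hδp n) h
    have e3 : ev (zW (δ n) (fun x => -lap ψ' x) χ 0) h = s * U n h - s * m n * Φ n h := by
      have e4 : (fun x => -lap ψ' x) = fun x => s * (-lap ψ x) := by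
        funext x
        rw [hψ'd, lap_smul ψ hψ.1]
        ring
      rw [e4]
      unfold zW
      rw [Wd_smul kV kV' (hδp n), ev_sub, ev_smul, ev_smul, mass_smul']
      rfl
    rw [e2] at e1
    have e5 : Complex.exp (Complex.I * ((t * V n h : ℝ) : ℂ)) =
        Complex.exp (Complex.I * ((ev (Wd (δ n) f0' 0) h : ℝ) : ℂ)) *
        Complex.exp (Complex.I * ((evK (Wd (δ n) g' 0) (lat (δ n) b.K1) h : ℝ) : ℂ)) *
        Complex.exp (Complex.I * ((evK (Wd (δ n) g' 0) (lat (δ n) b.K2) h : ℝ) : ℂ)) *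
        Complex.exp (Complex.I * ((evK (Wd (δ n) g' 0) (lat (δ n) b.K3) h : ℝ) : ℂ)) := by
      rw [← Complex.exp_add, ← Complex.exp_add, ← Complex.exp_add, ← e1]
      congr 1
      push_cast
      ring
    rw [e5, d.hX n h]
    simp only [hG1, hG2, hG3, hpp, Yf]
    rw [e3]
    push_cast
    ring
  simp only [hprod] at hfa
  set An : ℕ → ℂ := fun n => ∫ h, (X n h : ℂ) * (((pp n h : ℝ) : ℂ) *
    (Complex.exp (Complex.I * ((t * V n h : ℝ) : ℂ)) *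
        (Complex.exp (Complex.I * ((s * U n h - s * m n * Φ n h : ℝ) : ℂ)) - (α : ℂ))))
    ∂(mu0 P) with hAn
  have hmn : Tendsto m atTop (𝓝 0) := by
    have h1 : Tendsto (fun n => AV * δ n) atTop (𝓝 0) := by
      have := h0.const_mul AV
      rwa [mul_zero] at this
    refine squeeze_zero_norm' ?_ h1
    filter_upwards [h0.eventually (ge_mem_nhds one_pos)] with n hn
    have := maV (δ n) (hδp n) hn
    rw [hV0, sub_zero] at this
    exact this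
  refine ⟨fun n => ‖An n‖ / c0 + |s| * |m n| * (2 * Cχ), ?_, ?_⟩
  · have a1 := (hfa.norm).div_const c0
    have a2 := (hmn.norm.const_mul |s|).mul_const (2 * Cχ)
    rw [norm_zero, zero_div] at a1
    rw [norm_zero, mul_zero, zero_mul] at a2
    have := a1.add a2
    rw [add_zero] at this
    exact this
  · have hms : ∀ {A : ℝ}, 0 ≤ A → ∀ᶠ n in atTop, A * δ n ≤ 1 / 2 := by
      intro A hA
      have h1 : Tendsto (fun n => A * δ n) atTop (𝓝 0) := by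
        have := h0.const_mul A
        rwa [mul_zero] at this
      exact h1.eventually (ge_mem_nhds (by norm_num))
    filter_upwards [h0.eventually (ge_mem_nhds one_pos), hms hA1, hms hA4, hms hAχ, m1, m4, mχ,
      d.int, hpos] with n hn1 q1 q4 qχ w1 w4 wχ hXi hIc
    have hIpos : 0 < ∫ h, X n h ∂(mu0 P) := lt_of_lt_of_le hc0 hIc
    set In : ℝ := ∫ h, X n h ∂(mu0 P) with hIn
    have v1 := nW_bound iρ1 (ma1 (δ n) (hδp n) hn1) q1
    have v4 := nW_bound iρ4 (ma4 (δ n) (hδp n) hn1) q4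
    have vχ := nW_bound iχ (maχ (δ n) (hδp n) hn1) qχ
    have hfin := est (μ := mu0 P) (Y := X n) (U := U n) (V := V n) (Φ := Φ n) (pp := pp n)
      (r1 := Lf (δ n) ρ1) (r4 := Lf (δ n) ρ4) (rχ := Lf (δ n) χ) (s := s) (t := t) (m := m n)
      (α := α) (η := η) (Cχ := Cχ) (C1 := C1) (C4 := C4) (I0 := In)
      (measurable_Lf _ _) (measurable_Lf _ _) (measurable_ev _)
      ((measurable_gl _ _).mul (measurable_gl _ _)) (d.X_nonneg n) hXi
      (fun h => ⟨mul_nonneg (gl_pos _ _ _).le (gl_pos _ _ _).le,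
        mul_le_one₀ (gl_le_one _ _ _) (gl_pos _ _ _).le (gl_le_one _ _ _)⟩) hη.le vχ
      (fun h => pp_bound hL2 hη.le (v1 h) (v4 h)) wχ w1 w4
    rw [norm_div, Complex.norm_real, Real.norm_eq_abs, abs_of_pos hIpos, div_le_iff₀ hIpos]
    refine hfin.trans ?_
    have h9 : ‖An n‖ ≤ ‖An n‖ / c0 * In := by
      rw [div_mul_eq_mul_div, le_div_iff₀ hc0]
      exact mul_le_mul_of_nonneg_left hIc (norm_nonneg _)
    rw [show (‖An n‖ / c0 + |s| * |m n| * (2 * Cχ) + (1 + |α|) * (4 * (C1 + C4)) * η) * In =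
      ‖An n‖ / c0 * In + (|s| * |m n| * (2 * Cχ) + (1 + |α|) * (4 * (C1 + C4)) * η) * In by ring]
    exact add_le_add h9 le_rfl

/-- The normalised measure. -/
noncomputable def MX (P : Measure Fld) (X : Hgt → ℝ) : Measure Hgt :=
  (mu0 P).withDensity fun h => ENNReal.ofReal (X h / ∫ h, X h ∂(mu0 P))

lemma MX_int {E : Type*} [NormedAddCommGroup E] [NormedSpace ℝ E] {X : Hgt → ℝ}
    (hXm : Measurable X) (hX0 : ∀ h, 0 ≤ X h) (F : Hgt → E) :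
    ∫ h, F h ∂(MX P X) = (∫ h, X h ∂(mu0 P))⁻¹ • ∫ h, X h • F h ∂(mu0 P) := by
  have hI : 0 ≤ ∫ h, X h ∂(mu0 P) := integral_nonneg hX0
  have hm : Measurable fun h => ENNReal.ofReal (X h / ∫ h, X h ∂(mu0 P)) :=
    ENNReal.measurable_ofReal.comp (hXm.div_const _)
  unfold MX
  rw [integral_withDensity_eq_integral_toReal_smul hm
    (Eventually.of_forall fun h => ENNReal.ofReal_lt_top), ← integral_smul]
  refine integral_congr_ae (Eventually.of_forall fun h => ?_)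
  simp only
  rw [ENNReal.toReal_ofReal (div_nonneg (hX0 h) hI), smul_smul, div_eq_inv_mul]

lemma MX_integrable {X : Hgt → ℝ} (hXm : Measurable X) (hX0 : ∀ h, 0 ≤ X h) {F : Hgt → ℝ}
    (hF : Integrable (fun h => F h * X h) (mu0 P)) : Integrable F (MX P X) := by
  have hI : 0 ≤ ∫ h, X h ∂(mu0 P) := integral_nonneg hX0
  have hm : Measurable fun h => ENNReal.ofReal (X h / ∫ h, X h ∂(mu0 P)) :=
    ENNReal.measurable_ofReal.comp (hXm.div_const _)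
  unfold MX
  rw [integrable_withDensity_iff_integrable_smul' hm
    (Eventually.of_forall fun h => ENNReal.ofReal_lt_top)]
  refine (hF.const_mul (∫ h, X h ∂(mu0 P))⁻¹).congr (Eventually.of_forall fun h => ?_)
  simp only [smul_eq_mul]
  rw [ENNReal.toReal_ofReal (div_nonneg (hX0 h) hI), div_eq_inv_mul]
  ring

lemma MX_finite {X : Hgt → ℝ} : IsFiniteMeasure (MX P X) := by
  unfold MX
  by_cases hXi : Integrable X (mu0 P)
  · exact isFiniteMeasure_withDensity_ofReal (hXi.div_const _).2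
  · rw [integral_undef hXi]
    simp only [div_zero, ENNReal.ofReal_zero]
    rw [show (fun _ : Hgt => (0 : ENNReal)) = 0 from rfl, withDensity_zero]
    infer_instance

lemma Dat.bm (d : Dat P δ b D X1 X2 X3 X) {f : ℝ × ℝ → ℝ} (hf : TestOn D f) :
    BM (fun n => MX P (X n)) (fun n => Lf (δ n) f) := by
  refine ⟨fun n => measurable_Lf _ _, fun k => ?_⟩
  obtain ⟨C, hC, hm⟩ := d.mom f hf k
  obtain ⟨c0, hc0, hpos⟩ := d.pos
  refine ⟨C, hC, ?_⟩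
  filter_upwards [hm, hpos] with n h1 h2
  have hI : 0 < ∫ h, X n h ∂(mu0 P) := lt_of_lt_of_le hc0 h2
  refine ⟨MX_integrable (d.X_meas n) (d.X_nonneg n) h1.1, ?_⟩
  rw [MX_int (d.X_meas n) (d.X_nonneg n), smul_eq_mul, inv_mul_le_iff₀ hI]
  refine le_trans (le_of_eq ?_) (h1.2.trans (le_of_eq (mul_comm _ _)))
  refine integral_congr_ae (Eventually.of_forall fun h => ?_)
  simp only [smul_eq_mul]
  ring

/-- **Schwinger-Dyson equations for the moments** under the product `X = X1 X2 X3` of local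
functionals in the arms of a pinwheel. -/
theorem use (hP : GFF.Plane P) {A0 : ℝ} (hA0 : 0 ≤ A0)
    (hA : ∀ x : ℤ × ℤ, var2 P x ≤ A0 * (1 + |(x.1 : ℝ)| + |(x.2 : ℝ)|)) {κ : ℝ}
    (hclt : CLT P κ) (hδp : ∀ n, 0 < δ n) (hδ : Tendsto δ atTop (𝓝[>] 0))
    (d : Dat P δ b D X1 X2 X3 X) {ψ f0 g : ℝ × ℝ → ℝ} (hψ : TestOn b.box ψ)
    (hf0 : TestOn b.box f0) (hg : TestOn D g)
    (hgK : ∀ x, g x ≠ 0 → x ∈ b.K1 ∨ x ∈ b.K2 ∨ x ∈ b.K3) (k : ℕ) :
    Tendsto (fun n => (∫ h, Lf (δ n) (lap ψ) h * Lf (δ n) (fun x => f0 x + g x) h ^ (k + 1) *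
        X n h ∂(mu0 P)) / (∫ h, X n h ∂(mu0 P)) +
      κ * (k + 1) * (∫ x, ψ x * f0 x) *
        ((∫ h, Lf (δ n) (fun x => f0 x + g x) h ^ k * X n h ∂(mu0 P)) /
          ∫ h, X n h ∂(mu0 P))) atTop (𝓝 0) := by
  have hf : TestOn D (fun x => f0 x + g x) := (hf0.mono d.hbD).add hg
  have hV : TestOn D (fun x => -lap ψ x) := (hψ.lap.neg).mono d.hbD
  have hfin : ∀ n, IsFiniteMeasure (MX P (X n)) := fun n => MX_finite
  obtain ⟨_, kl⟩ := exists_csts hψ.lap.1 hψ.lap.2.1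
  obtain ⟨_, kl'⟩ := exists_csts (hψ.lap.smul (-1)).1 (hψ.lap.smul (-1)).2.1
  have h1 := moments (M := fun n => MX P (X n)) (U := fun n => Lf (δ n) (fun x => -lap ψ x))
    (V := fun n => Lf (δ n) (fun x => f0 x + g x)) (κ := κ) (p := ∫ x, ψ x * f0 x)
    (q := ∫ x, ψ x * (-lap ψ x)) (d.bm hV) (d.bm hf) (fun s t => ?_) (k + 1)
  · have h2 := h1.neg
    rw [neg_zero] at h2
    refine h2.congr fun n => ?_
    have e1 : ∀ h, Lf (δ n) (fun x => -lap ψ x) h = - Lf (δ n) (lap ψ) h := by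
      intro h
      have e2 : (fun x => -lap ψ x) = fun x => (-1) * lap ψ x := by funext x; ring
      unfold Lf
      rw [e2, Wd_smul kl kl' (hδp n), ev_smul]
      ring
    rw [MX_int (d.X_meas n) (d.X_nonneg n), MX_int (d.X_meas n) (d.X_nonneg n), smul_eq_mul,
      smul_eq_mul, Nat.add_sub_cancel]
    have e3 : ∫ h, X n h • (Lf (δ n) (fun x => -lap ψ x) h *
        Lf (δ n) (fun x => f0 x + g x) h ^ (k + 1)) ∂(mu0 P) =
        - ∫ h, Lf (δ n) (lap ψ) h * Lf (δ n) (fun x => f0 x + g x) h ^ (k + 1) *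
        X n h ∂(mu0 P) := by
      rw [← integral_neg]
      refine integral_congr_ae (Eventually.of_forall fun h => ?_)
      simp only [smul_eq_mul]
      rw [e1]
      ring
    have e4 : ∫ h, X n h • Lf (δ n) (fun x => f0 x + g x) h ^ k ∂(mu0 P) =
        ∫ h, Lf (δ n) (fun x => f0 x + g x) h ^ k * X n h ∂(mu0 P) := by
      refine integral_congr_ae (Eventually.of_forall fun h => ?_)
      simp only [smul_eq_mul]
      ring
    rw [e3, e4]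
    push_cast
    ring
  · have h3 := char_lim hP hA0 hA hclt hδp hδ d hψ hf0 hg hgK s t
    refine h3.congr fun n => ?_
    rw [MX_int (d.X_meas n) (d.X_nonneg n)]
    rw [← Complex.coe_smul, smul_eq_mul, div_eq_inv_mul]
    push_cast
    simp only [Complex.real_smul]

end Vale.Agent.P153.F.SD
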