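import Vale.Agent.P153.F.SD.UseE
import Vale.Agent.P153.F.Mu

/-!
P153, block F-SD: the Schwinger-Dyson equations for the moments of the odd heights (measure
`muT P`).
-/

namespace Vale.Agent.P153.F.SD

open Finset Filter Topology MeasureTheory Complex
open Vale.Agent.P145.PT (Sm TestOn lap)
open Vale.Agent.P145.FA (SDdat int_lap)
open Vale.Agent.P145.FA.Use (BM moments norm_expI expI_sub_one)
open Vale.Agent.P153.GFF (Csts pos var2)
open Vale.Agent.P153.F.Top (c1 c2 cell)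

/-! ### Shift of the limit -/

section shift
variable {Ω : Type*} [MeasurableSpace Ω] {M : ℕ → Measure Ω} {U V : ℕ → Ω → ℝ}

/-- Bounded moments are stable under bounded shifts. -/
lemma bm_shift [∀ n, IsFiniteMeasure (M n)] (hU : BM M U) {c : ℕ → ℝ} {A : ℝ}
    (hc : ∀ᶠ n in atTop, |c n| ≤ A) : BM M (fun n ω => U n ω - c n) := by
  refine ⟨fun n => (hU.1 n).sub_const _, fun k => ?_⟩
  obtain ⟨C, hC, h1⟩ := hU.2 k
  obtain ⟨C0, hC0, h0⟩ := hU.2 0
  refine ⟨2 ^ (k - 1) * (C + |A| ^ k * C0), by positivity, ?_⟩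
  filter_upwards [h1, h0, hc] with n e1 e0 ec
  have key : ∀ ω, |U n ω - c n| ^ k ≤ 2 ^ (k - 1) * (|U n ω| ^ k + |A| ^ k * |U n ω| ^ 0) := by
    intro ω
    have a1 : |U n ω - c n| ≤ |U n ω| + |A| :=
      (abs_sub _ _).trans (add_le_add le_rfl (ec.trans (le_abs_self A)))
    rw [pow_zero, mul_one]
    exact (pow_le_pow_left₀ (abs_nonneg _) a1 k).trans
      (add_pow_le (abs_nonneg _) (abs_nonneg _) k)
  have i1 : Integrable (fun ω => 2 ^ (k - 1) * (|U n ω| ^ k + |A| ^ k * |U n ω| ^ 0)) (M n) :=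
    (e1.1.add (e0.1.const_mul _)).const_mul _
  have mU := hU.1 n
  have m1 : Measurable fun ω => |U n ω - c n| ^ k := by fun_prop
  have i2 : Integrable (fun ω => |U n ω - c n| ^ k) (M n) := by
    refine i1.mono' m1.aestronglyMeasurable (Eventually.of_forall fun ω => ?_)
    rw [Real.norm_eq_abs, abs_of_nonneg (by positivity)]
    exact key ω
  refine ⟨i2, (integral_mono i2 i1 key).trans ?_⟩
  rw [integral_const_mul, integral_add e1.1 (e0.1.const_mul _), integral_const_mul]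
  refine mul_le_mul_of_nonneg_left ?_ (by positivity)
  exact add_le_add e1.2 (mul_le_mul_of_nonneg_left e0.2 (by positivity))

/-- The limit of the characteristic functions is stable under shifts. -/
lemma char_shift [∀ n, IsFiniteMeasure (M n)] (mU : ∀ n, Measurable (U n))
    (mV : ∀ n, Measurable (V n)) {u v : ℕ → ℝ} (hu : Tendsto u atTop (𝓝 0)) {C : ℝ}
    (hM : ∀ᶠ n in atTop, (M n).real Set.univ ≤ C) {s t α : ℝ}
    (h : Tendsto (fun n => ∫ ω, cexp (I * ((t * V n ω : ℝ) : ℂ)) *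
      (cexp (I * ((s * U n ω : ℝ) : ℂ)) - (α : ℂ)) ∂(M n)) atTop (𝓝 0)) :
    Tendsto (fun n => ∫ ω, cexp (I * ((t * (V n ω - v n) : ℝ) : ℂ)) *
      (cexp (I * ((s * (U n ω - u n) : ℝ) : ℂ)) - (α : ℂ)) ∂(M n)) atTop (𝓝 0) := by
  have hb : Tendsto (fun n => ‖∫ ω, cexp (I * ((t * V n ω : ℝ) : ℂ)) *
      (cexp (I * ((s * U n ω : ℝ) : ℂ)) - (α : ℂ)) ∂(M n)‖ + |α| * (|s| * |u n|) * C)
      atTop (𝓝 0) := by
    have h1 := h.norm
    have h2 := ((hu.abs.const_mul |s|).const_mul |α|).mul_const C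
    rw [abs_zero, mul_zero, mul_zero, zero_mul] at h2
    rw [norm_zero] at h1
    have := h1.add h2
    rwa [add_zero] at this
  refine squeeze_zero_norm' ?_ hb
  filter_upwards [hM] with n hn
  have mUn := mU n
  have mVn := mV n
  have i1 : Integrable (fun ω => cexp (I * ((t * V n ω : ℝ) : ℂ)) *
      (cexp (I * ((s * U n ω : ℝ) : ℂ)) - (α : ℂ))) (M n) := by
    refine Integrable.of_bound (C := 1 + |α|) ?_ (Eventually.of_forall fun ω => ?_)
    · have : Measurable fun ω => cexp (I * ((t * V n ω : ℝ) : ℂ)) *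
        (cexp (I * ((s * U n ω : ℝ) : ℂ)) - (α : ℂ)) := by fun_prop
      exact this.aestronglyMeasurable
    · rw [norm_mul, norm_expI, one_mul]
      refine (norm_sub_le _ _).trans ?_
      rw [norm_expI, Complex.norm_real, Real.norm_eq_abs]
  have i2 : Integrable (fun ω => cexp (I * ((t * V n ω : ℝ) : ℂ))) (M n) := by
    refine Integrable.of_bound (C := 1) ?_ (Eventually.of_forall fun ω => ?_)
    · have : Measurable fun ω => cexp (I * ((t * V n ω : ℝ) : ℂ)) := by fun_prop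
      exact this.aestronglyMeasurable
    · rw [norm_expI]
  set E1 : ℂ := cexp (I * ((-(t * v n) : ℝ) : ℂ)) with hE1
  set E2 : ℂ := cexp (I * ((-(s * u n) : ℝ) : ℂ)) with hE2
  have key : ∀ ω, cexp (I * ((t * (V n ω - v n) : ℝ) : ℂ)) *
      (cexp (I * ((s * (U n ω - u n) : ℝ) : ℂ)) - (α : ℂ)) =
      E1 * (E2 * (cexp (I * ((t * V n ω : ℝ) : ℂ)) * (cexp (I * ((s * U n ω : ℝ) : ℂ)) - (α : ℂ))) +
        (α : ℂ) * (E2 - 1) * cexp (I * ((t * V n ω : ℝ) : ℂ))) := by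
    intro ω
    have a1 : cexp (I * ((t * (V n ω - v n) : ℝ) : ℂ)) = E1 * cexp (I * ((t * V n ω : ℝ) : ℂ)) := by
      rw [hE1, ← Complex.exp_add]
      congr 1
      push_cast
      ring
    have a2 : cexp (I * ((s * (U n ω - u n) : ℝ) : ℂ)) = E2 * cexp (I * ((s * U n ω : ℝ) : ℂ)) := by
      rw [hE2, ← Complex.exp_add]
      congr 1
      push_cast
      ring
    rw [a1, a2]
    ring
  simp only [key]
  rw [integral_const_mul, integral_add (i1.const_mul _) (i2.const_mul _), integral_const_mul,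
    integral_const_mul, norm_mul]
  have n1 : ‖E1‖ = 1 := norm_expI _
  have n2 : ‖E2‖ = 1 := norm_expI _
  have n3 : ‖E2 - 1‖ ≤ |s| * |u n| := by
    refine (expI_sub_one _).trans (le_of_eq ?_)
    rw [abs_neg, abs_mul]
  rw [n1, one_mul]
  refine (norm_add_le _ _).trans (add_le_add ?_ ?_)
  · rw [norm_mul, n2, one_mul]
  · rw [norm_mul, norm_mul, Complex.norm_real, Real.norm_eq_abs]
    have n4 : ‖∫ ω, cexp (I * ((t * V n ω : ℝ) : ℂ)) ∂(M n)‖ ≤ C := by
      refine (norm_integral_le_of_norm_le_const (C := 1) (Eventually.of_forall fun ω => ?_)).trans ?_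
      · rw [norm_expI]
      · rw [one_mul]; exact hn
    exact mul_le_mul (mul_le_mul_of_nonneg_left n3 (abs_nonneg _)) n4 (norm_nonneg _)
      (by positivity)

end shift

/-! ### Odd heights -/

/-- Shift of the heights by `-1`. -/
def sh (h : Hgt) : Hgt := fun q => h q - 1

lemma measurable_sh : Measurable sh := by
  refine measurable_pi_iff.2 fun x => ?_
  exact measurable_from_top (f := fun n : ℤ => n - 1).comp (measurable_pi_apply x)

/-- The law of the odd heights is the image of the law of the even heights. -/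
lemma muT_eq (P : Measure Fld) : muT P = (mu0 P).map sh := by
  have hm : ∀ k : ℤ, Measurable fun (φ : Fld) (q : ℤ × ℤ) => pth φ q + 2 * k := by
    intro k
    refine measurable_pi_iff.2 fun x => ?_
    exact measurable_from_top (f := fun n : ℤ => 2 * n + 2 * k).comp (measurable_pi_apply x)
  unfold F.muT mu0
  rw [Measure.map_sum measurable_sh.aemeasurable]
  congr 1
  funext k
  rw [Measure.map_map measurable_sh (hm k)]
  rfl

lemma Loc.sh {R : Type} {A : Set (ℤ × ℤ)} {F : Hgt → R} (hF : Loc A F) :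
    Loc A (fun h => F (sh h)) := by
  obtain ⟨Λ, h1, h2⟩ := hF
  refine ⟨Λ, h1, fun h h' hh => h2 _ _ fun q hq => ?_⟩
  unfold SD.sh
  rw [hh q hq]

lemma ev_sh (w : (ℤ × ℤ) →₀ ℝ) (h : Hgt) : ev w (sh h) = ev w h - mass w := by
  unfold ev mass SD.sh
  rw [← Finsupp.sum_sub]
  refine Finsupp.sum_congr fun q _ => ?_
  push_cast
  ring

lemma int_muT {P : Measure Fld} {E : Type*} [NormedAddCommGroup E] [NormedSpace ℝ E]
    {F : Hgt → E} (hF : StronglyMeasurable F) :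
    ∫ h, F h ∂(muT P) = ∫ h, F (sh h) ∂(mu0 P) := by
  rw [muT_eq, integral_map measurable_sh.aemeasurable hF.aestronglyMeasurable]

lemma integrable_muT {P : Measure Fld} {F : Hgt → ℝ} (hF : Measurable F) :
    Integrable F (muT P) ↔ Integrable (fun h => F (sh h)) (mu0 P) := by
  rw [muT_eq, integrable_map_measure hF.aestronglyMeasurable measurable_sh.aemeasurable]
  rfl

/-- Hypotheses on the three factors and on the even moments, for large `n`; odd heights. -/
structure DatM (P : Measure Fld) (δ : ℕ → ℝ) (b : PW) (D : Set (ℝ × ℝ))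
    (X1 X2 X3 X : ℕ → Hgt → ℝ) : Prop where
  hb : b.x0 + b.y0 < b.s0
  he : 0 < b.e
  hbD : b.box ⊆ D
  l1 : ∀ᶠ n in atTop, Loc (lat (δ n) b.K1) (X1 n)
  l2 : ∀ᶠ n in atTop, Loc (lat (δ n) b.K2) (X2 n)
  l3 : ∀ᶠ n in atTop, Loc (lat (δ n) b.K3) (X3 n)
  n1 : ∀ᶠ n in atTop, ∀ h, 0 ≤ X1 n h ∧ X1 n h ≤ 1
  n2 : ∀ᶠ n in atTop, ∀ h, 0 ≤ X2 n h ∧ X2 n h ≤ 1
  n3 : ∀ᶠ n in atTop, ∀ h, 0 ≤ X3 n h ∧ X3 n h ≤ 1
  hX : ∀ᶠ n in atTop, ∀ h, X n h = X1 n h * X2 n h * X3 n h
  int : ∀ᶠ n in atTop, Integrable (X n) (muT P)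
  pos : ∃ c0 : ℝ, 0 < c0 ∧ ∀ᶠ n in atTop, c0 ≤ ∫ h, X n h ∂(muT P)
  mom : ∀ f, TestOn D f → ∀ k : ℕ, ∃ C : ℝ, ∀ᶠ n in atTop,
    Integrable (fun h => Lf (δ n) f h ^ (2 * k) * X n h) (muT P) ∧
    ∫ h, Lf (δ n) f h ^ (2 * k) * X n h ∂(muT P) ≤ C * ∫ h, X n h ∂(muT P)
  r1 : ∃ ρ : ℝ × ℝ → ℝ, TestOn (b.K1 ∩ D) ρ ∧ ∫ x, ρ x = 1
  r3 : ∃ ρ : ℝ × ℝ → ℝ, TestOn (b.K3 ∩ D) ρ ∧ ∫ x, ρ x = 1

variable {P : Measure Fld} {δ : ℕ → ℝ} {b : PW} {D : Set (ℝ × ℝ)}
  {X1 X2 X3 X : ℕ → Hgt → ℝ}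

lemma Lf_sh (δ : ℝ) (f : ℝ × ℝ → ℝ) (h : Hgt) :
    Lf δ f (sh h) = Lf δ f h - mass (Wd δ f 0) := ev_sh _ _

/-- The mass converges to the integral. -/
lemma mass_lim {f : ℝ × ℝ → ℝ} (hf : Sm f) (cf : HasCompactSupport f) (hδp : ∀ n, 0 < δ n)
    (hδ : Tendsto δ atTop (𝓝[>] 0)) :
    Tendsto (fun n => mass (Wd (δ n) f 0)) atTop (𝓝 (∫ x, f x)) := by
  obtain ⟨K, hK⟩ := exists_csts hf cf
  have h0 : Tendsto δ atTop (𝓝 0) := hδ.mono_right nhdsWithin_le_nhds
  rw [← tendsto_sub_nhds_zero_iff]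
  have h1 : Tendsto (fun n => 2 * K * (4 * K + 15) ^ 2 * δ n) atTop (𝓝 0) := by
    have := h0.const_mul (2 * K * (4 * K + 15) ^ 2)
    rwa [mul_zero] at this
  refine squeeze_zero_norm' ?_ h1
  filter_upwards [h0.eventually (ge_mem_nhds one_pos)] with n hn
  exact mass_Wd hK (hδp n) hn 0

lemma DatM.X_meas (d : DatM P δ b D X1 X2 X3 X) : ∀ᶠ n in atTop, Measurable (X n) := by
  filter_upwards [d.l1, d.l2, d.l3, d.hX] with n a1 a2 a3 a4
  have e : X n = fun h => X1 n h * X2 n h * X3 n h := funext fun h => a4 h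
  rw [e]
  exact (a1.measS.mul a2.measS).mul a3.measS

lemma DatM.datE (d : DatM P δ b D X1 X2 X3 X) (hδp : ∀ n, 0 < δ n)
    (hδ : Tendsto δ atTop (𝓝[>] 0)) :
    DatE P δ b D (fun n h => X1 n (sh h)) (fun n h => X2 n (sh h)) (fun n h => X3 n (sh h))
      (fun n h => X n (sh h)) := by
  have hXm := d.X_meas
  refine ⟨d.hb, d.he, d.hbD, d.l1.mono fun n h => h.sh, d.l2.mono fun n h => h.sh,
    d.l3.mono fun n h => h.sh, d.n1.mono fun n h g => h _, d.n2.mono fun n h g => h _,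
    d.n3.mono fun n h g => h _, d.hX.mono fun n h g => h _, ?_, ?_, ?_, d.r1, d.r3⟩
  · filter_upwards [d.int, hXm] with n h1 h2
    exact (integrable_muT h2).1 h1
  · obtain ⟨c0, hc0, h⟩ := d.pos
    refine ⟨c0, hc0, ?_⟩
    filter_upwards [h, hXm] with n h1 h2
    rwa [int_muT h2.stronglyMeasurable] at h1
  · intro f hf k
    obtain ⟨C, hC⟩ := d.mom f hf k
    have hm := mass_lim hf.1 hf.2.1 hδp hδ
    have hmb : ∀ᶠ n in atTop, |mass (Wd (δ n) f 0)| ≤ |∫ x, f x| + 1 := by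
      have := hm.abs.eventually (ge_mem_nhds (show |∫ x, f x| < |∫ x, f x| + 1 by linarith))
      exact this
    set A : ℝ := |∫ x, f x| + 1 with hA
    refine ⟨2 ^ (2 * k - 1) * (C + A ^ (2 * k)), ?_⟩
    filter_upwards [hC, hmb, hXm, d.int, d.n1, d.n2, d.n3, d.hX] with n e1 e2 e3 e4 e5 e6 e7 e8
    have hX0 : ∀ h, 0 ≤ X n h := by
      intro h
      rw [e8 h]
      exact mul_nonneg (mul_nonneg (e5 h).1 (e6 h).1) (e7 h).1
    have mL : Measurable (Lf (δ n) f) := measurable_Lf _ _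
    have mLX : Measurable fun h => Lf (δ n) f h ^ (2 * k) * X n h := (mL.pow_const _).mul e3
    obtain ⟨g1, g2⟩ := e1
    rw [integrable_muT mLX] at g1
    rw [int_muT mLX.stronglyMeasurable, int_muT e3.stronglyMeasurable] at g2
    rw [integrable_muT e3] at e4
    have key : ∀ h, Lf (δ n) f h ^ (2 * k) * X n (sh h) ≤ 2 ^ (2 * k - 1) *
        (Lf (δ n) f (sh h) ^ (2 * k) * X n (sh h) + A ^ (2 * k) * X n (sh h)) := by
      intro h
      have a1 : |Lf (δ n) f h| ≤ |Lf (δ n) f (sh h)| + A := by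
        have a2 : Lf (δ n) f h = Lf (δ n) f (sh h) + mass (Wd (δ n) f 0) := by
          rw [Lf_sh]; ring
        rw [a2]
        exact (abs_add_le _ _).trans (add_le_add le_rfl e2)
      have a3 := (pow_le_pow_left₀ (abs_nonneg _) a1 (2 * k)).trans
        (add_pow_le (abs_nonneg _) (by positivity) (2 * k))
      rw [Even.pow_abs (even_two_mul k), Even.pow_abs (even_two_mul k)] at a3
      have a4 := mul_le_mul_of_nonneg_right a3 (hX0 (sh h))
      refine a4.trans (le_of_eq ?_)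
      ring
    have i1 : Integrable (fun h => 2 ^ (2 * k - 1) *
        (Lf (δ n) f (sh h) ^ (2 * k) * X n (sh h) + A ^ (2 * k) * X n (sh h))) (mu0 P) :=
      (g1.add (e4.const_mul _)).const_mul _
    have i2 : Integrable (fun h => Lf (δ n) f h ^ (2 * k) * X n (sh h)) (mu0 P) := by
      refine i1.mono' ?_ (Eventually.of_forall fun h => ?_)
      · exact ((mL.pow_const _).mul (e3.comp measurable_sh)).aestronglyMeasurable
      · rw [Real.norm_eq_abs, abs_of_nonneg]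
        · exact key h
        · exact mul_nonneg (Even.pow_nonneg (even_two_mul k) _) (hX0 _)
    refine ⟨i2, (integral_mono i2 i1 key).trans ?_⟩
    rw [integral_const_mul, integral_add g1 (e4.const_mul _), integral_const_mul, mul_assoc]
    refine mul_le_mul_of_nonneg_left ?_ (by positivity)
    rw [add_mul]
    exact add_le_add g2 le_rfl

/-- **Schwinger-Dyson equations for the moments of the odd heights.** -/
theorem useM (hP : GFF.Plane P) {A0 : ℝ} (hA0 : 0 ≤ A0)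
    (hA : ∀ x : ℤ × ℤ, var2 P x ≤ A0 * (1 + |(x.1 : ℝ)| + |(x.2 : ℝ)|)) {κ : ℝ}
    (hclt : CLT P κ) (hδp : ∀ n, 0 < δ n) (hδ : Tendsto δ atTop (𝓝[>] 0))
    (d : DatM P δ b D X1 X2 X3 X) {ψ f0 g : ℝ × ℝ → ℝ} (hψ : TestOn b.box ψ)
    (hf0 : TestOn b.box f0) (hg : TestOn D g)
    (hgK : ∀ x, g x ≠ 0 → x ∈ b.K1 ∨ x ∈ b.K2 ∨ x ∈ b.K3) (k : ℕ) :
    Tendsto (fun n => (∫ h, Lf (δ n) (lap ψ) h * Lf (δ n) (fun x => f0 x + g x) h ^ (k + 1) *
        X n h ∂(muT P) +
      κ * (k + 1) * (∫ x, ψ x * (f0 x + g x)) *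
        ∫ h, Lf (δ n) (fun x => f0 x + g x) h ^ k * X n h ∂(muT P)) /
          ∫ h, X n h ∂(muT P)) atTop (𝓝 0) := by
  obtain ⟨Y1, Y2, Y3, Y, dd, hYX⟩ := (d.datE hδp hδ).dat
  have hf : TestOn D (fun x => f0 x + g x) := (hf0.mono d.hbD).add hg
  have hV : TestOn D (fun x => -lap ψ x) := (hψ.lap.neg).mono d.hbD
  have hfin : ∀ n, IsFiniteMeasure (MX P (Y n)) := fun n => MX_finite
  obtain ⟨_, kl⟩ := exists_csts hψ.lap.1 hψ.lap.2.1
  obtain ⟨_, kl'⟩ := exists_csts (hψ.lap.smul (-1)).1 (hψ.lap.smul (-1)).2.1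
  set u : ℕ → ℝ := fun n => mass (Wd (δ n) (fun x => -lap ψ x) 0) with hu
  set v : ℕ → ℝ := fun n => mass (Wd (δ n) (fun x => f0 x + g x) 0) with hv
  have hV0 : ∫ x, -lap ψ x = 0 := by rw [integral_neg, int_lap hψ.1 hψ.2.1, neg_zero]
  have hut : Tendsto u atTop (𝓝 0) := by
    have := mass_lim hV.1 hV.2.1 hδp hδ
    rwa [hV0] at this
  have hvt : Tendsto v atTop (𝓝 (∫ x, f0 x + g x)) := mass_lim hf.1 hf.2.1 hδp hδ
  have hub : ∀ᶠ n in atTop, |u n| ≤ 1 := by
    have := hut.abs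
    rw [abs_zero] at this
    exact this.eventually (ge_mem_nhds one_pos)
  have hvb : ∀ᶠ n in atTop, |v n| ≤ |∫ x, f0 x + g x| + 1 :=
    hvt.abs.eventually (ge_mem_nhds (by linarith))
  obtain ⟨C0, hC0, hmass⟩ := (dd.bm hV).2 0
  have hM : ∀ᶠ n in atTop, (MX P (Y n)).real Set.univ ≤ C0 := by
    filter_upwards [hmass] with n hn
    have := hn.2
    simp only [pow_zero, integral_const, smul_eq_mul, mul_one] at this
    exact this
  have h1 := moments (M := fun n => MX P (Y n))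
    (U := fun n h => Lf (δ n) (fun x => -lap ψ x) h - u n)
    (V := fun n h => Lf (δ n) (fun x => f0 x + g x) h - v n) (κ := κ) (p := ∫ x, ψ x * f0 x)
    (q := ∫ x, ψ x * (-lap ψ x)) (bm_shift (dd.bm hV) hub) (bm_shift (dd.bm hf) hvb)
    (fun s t => ?_) (k + 1)
  · have h2 := h1.neg
    rw [neg_zero] at h2
    refine h2.congr' ?_
    filter_upwards [hYX, d.X_meas] with n hn hXm
    have e1 : ∀ h, Lf (δ n) (fun x => -lap ψ x) h - u n = - Lf (δ n) (lap ψ) (sh h) := by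
      intro h
      have e2 : (fun x => -lap ψ x) = fun x => (-1) * lap ψ x := by funext x; ring
      rw [hu]
      simp only
      rw [← Lf_sh]
      unfold Lf
      rw [e2, Wd_smul kl kl' (hδp n), ev_smul]
      ring
    have e1' : ∀ h, Lf (δ n) (fun x => f0 x + g x) h - v n =
        Lf (δ n) (fun x => f0 x + g x) (sh h) := fun h => (Lf_sh _ _ _).symm
    have e0 : ∀ h, Y n h = X n (sh h) := fun h => by rw [hn]
    rw [MX_int (dd.X_meas n) (dd.X_nonneg n), MX_int (dd.X_meas n) (dd.X_nonneg n), smul_eq_mul,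
      smul_eq_mul, Nat.add_sub_cancel]
    simp only [e1, e1', e0, smul_eq_mul]
    have mL : ∀ f : ℝ × ℝ → ℝ, Measurable (Lf (δ n) f) := fun f => measurable_Lf _ _
    have mA : Measurable fun h => Lf (δ n) (fun x => f0 x + g x) h ^ k * X n h :=
      ((mL _).pow_const _).mul hXm
    have mB : Measurable fun h => Lf (δ n) (lap ψ) h *
        Lf (δ n) (fun x => f0 x + g x) h ^ (k + 1) * X n h :=
      ((mL _).mul ((mL _).pow_const _)).mul hXm
    rw [int_muT hXm.stronglyMeasurable, int_muT mA.stronglyMeasurable,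
      int_muT mB.stronglyMeasurable]
    have e3 : ∫ h, X n (sh h) * (-Lf (δ n) (lap ψ) (sh h) *
        Lf (δ n) (fun x => f0 x + g x) (sh h) ^ (k + 1)) ∂(mu0 P) =
        - ∫ h, Lf (δ n) (lap ψ) (sh h) * Lf (δ n) (fun x => f0 x + g x) (sh h) ^ (k + 1) *
        X n (sh h) ∂(mu0 P) := by
      rw [← integral_neg]
      refine integral_congr_ae (Eventually.of_forall fun h => ?_)
      simp only
      ring
    have e4 : ∫ h, X n (sh h) * Lf (δ n) (fun x => f0 x + g x) (sh h) ^ k ∂(mu0 P) =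
        ∫ h, Lf (δ n) (fun x => f0 x + g x) (sh h) ^ k * X n (sh h) ∂(mu0 P) := by
      refine integral_congr_ae (Eventually.of_forall fun h => ?_)
      simp only
      ring
    have e5 : ∫ x, ψ x * (f0 x + g x) = ∫ x, ψ x * f0 x := by
      refine integral_congr_ae (Eventually.of_forall fun x => ?_)
      simp only
      rw [mul_add, psi_g d.he hψ hgK, add_zero]
    rw [e3, e4, e5, add_div]
    push_cast
    ring
  · refine char_shift (fun n => measurable_Lf _ _) (fun n => measurable_Lf _ _) hut hM ?_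
    have h3 := char_lim hP hA0 hA hclt hδp hδ dd hψ hf0 hg hgK s t
    refine h3.congr fun n => ?_
    rw [MX_int (dd.X_meas n) (dd.X_nonneg n)]
    rw [← Complex.coe_smul, smul_eq_mul, div_eq_inv_mul]
    push_cast
    simp only [Complex.real_smul]

end Vale.Agent.P153.F.SD
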