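import Vale.Agent.P153.F.SD.Final
import Vale.Agent.P153.F.SD.Sd5
import Vale.Agent.P153.F.SD.Tg
import Vale.Agent.P153.F.Top.Stmt
import Vale.Agent.P145.FA.UseC

/-!
P153, product Schwinger-Dyson: the statement for a triangular pinwheel in real coordinates.
-/

namespace Vale.Agent.P153.F.SD

open Finset Filter Topology MeasureTheory
open Vale.Agent.P145.PT (Sm TestOn lap)
open Vale.Agent.P145.FA (SDdat int_lap)
open Vale.Agent.P145.FA.Use (zle zabs lap_add sm_add cs_addr int_addr)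
open Vale.Agent.P153.GFF (Csts pos var2)
open Vale.Agent.P153.F.Top (c1 c2 cell)

/-- The central triangle, the width of the corridors and the radius of a pinwheel. -/
structure PW where
  x0 : ℝ
  y0 : ℝ
  s0 : ℝ
  e : ℝ
  R : ℝ

/-- The open triangle. -/
def PW.box (b : PW) : Set (ℝ × ℝ) := cell b.x0 b.y0 b.s0

/-- The three arms. -/
def PW.K1 (b : PW) : Set (ℝ × ℝ) := {z | c1 z ≤ b.x0 - b.e ∧ |c1 z| ≤ b.R ∧ |c2 z| ≤ b.R}
def PW.K2 (b : PW) : Set (ℝ × ℝ) :=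
  {z | b.s0 + b.e ≤ c1 z + c2 z ∧ b.x0 ≤ c1 z ∧ |c1 z| ≤ b.R ∧ |c2 z| ≤ b.R}
def PW.K3 (b : PW) : Set (ℝ × ℝ) :=
  {z | c2 z ≤ b.y0 - b.e ∧ b.x0 ≤ c1 z ∧ c1 z + c2 z ≤ b.s0 ∧ |c1 z| ≤ b.R ∧ |c2 z| ≤ b.R}

/-- Lattice points of a set. -/
def lat (δ : ℝ) (K : Set (ℝ × ℝ)) : Set (ℤ × ℤ) := {q | δ • pos q ∈ K}

lemma c1_pos (δ : ℝ) (q : ℤ × ℤ) : c1 (δ • pos q) = δ * q.1 := by
  have h3 : (0 : ℝ) < √3 := by positivity
  unfold Top.c1 GFF.pos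
  simp only [Prod.smul_mk, smul_eq_mul]
  field_simp
  ring

lemma c2_pos (δ : ℝ) (q : ℤ × ℤ) : c2 (δ • pos q) = δ * q.2 := by
  have h3 : (0 : ℝ) < √3 := by positivity
  unfold Top.c2 GFF.pos
  simp only [Prod.smul_mk, smul_eq_mul]
  field_simp

/-- Integer geometry of the pinwheel. -/
theorem geo (b : PW) (he : 0 < b.e) : ∃ ρ : ℕ, ∀ δ : ℝ,
    0 < δ → δ ≤ 1 → 8 * δ ≤ b.e → ∃ (a : ℤ × ℤ) (N : ℕ) (xl sr : ℤ),
    (‖δ • pos a - (b.y0 / 2, b.y0 * (√3 / 2))‖ ≤ 2 * δ) ∧ 1 ≤ N ∧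
    (|xl| ≤ ρ * N ∧ |sr| ≤ ρ * N) ∧
    (∀ q, q + a ∈ lat δ b.box →
      0 ≤ q.2 ∧ xl ≤ q.1 ∧ q.1 + q.2 ≤ sr ∧ |q.1| ≤ ρ * N ∧ |q.2| ≤ ρ * N) ∧
    (∀ q, q + a ∈ lat δ b.K1 → q.1 ≤ xl - 2 * N ∧ |q.1| ≤ ρ * N ∧ |q.2| ≤ ρ * N) ∧
    (∀ q, q + a ∈ lat δ b.K2 →
      sr + 2 * N ≤ q.1 + q.2 ∧ xl ≤ q.1 ∧ |q.1| ≤ ρ * N ∧ |q.2| ≤ ρ * N) ∧
    (∀ q, q + a ∈ lat δ b.K3 →
      q.2 ≤ 0 ∧ xl ≤ q.1 ∧ q.1 + q.2 ≤ sr ∧ |q.1| ≤ ρ * N ∧ |q.2| ≤ ρ * N) := by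
  set R' : ℝ := |b.x0| + |b.y0| + |b.s0| + |b.R| with hR'
  have r1 : |b.x0| ≤ R' := by
    rw [hR']; linarith [abs_nonneg b.y0, abs_nonneg b.s0, abs_nonneg b.R]
  have r2 : |b.y0| ≤ R' := by
    rw [hR']; linarith [abs_nonneg b.x0, abs_nonneg b.s0, abs_nonneg b.R]
  have r3 : |b.s0| ≤ R' := by
    rw [hR']; linarith [abs_nonneg b.y0, abs_nonneg b.x0, abs_nonneg b.R]
  have r5 : b.R ≤ R' := by
    rw [hR']; linarith [abs_nonneg b.y0, abs_nonneg b.s0, abs_nonneg b.x0, le_abs_self b.R]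
  rw [abs_le] at r1 r2 r3
  have hR0 : 0 ≤ R' := by rw [hR']; positivity
  obtain ⟨ρ, hρ⟩ := exists_nat_ge (24 * (R' + 1) / b.e)
  refine ⟨ρ, fun δ hδ hδ1 hδe => ?_⟩
  set A2 : ℤ := ⌊b.y0 / δ⌋ with hA2
  set F1 : ℤ := ⌊b.x0 / δ⌋ with hF1
  set F3 : ℤ := ⌈b.s0 / δ⌉ with hF3
  set N : ℕ := ⌊b.e / (4 * δ)⌋₊ with hN
  have cancel : ∀ x : ℝ, δ * (x / δ) = x := fun x => by field_simp
  have a1 : δ * (A2 : ℝ) ≤ b.y0 := by
    have := mul_le_mul_of_nonneg_left (Int.floor_le (b.y0 / δ)) hδ.le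
    rwa [cancel] at this
  have a2 : b.y0 < δ * (A2 : ℝ) + δ := by
    have := mul_lt_mul_of_pos_left (Int.lt_floor_add_one (b.y0 / δ)) hδ
    rw [cancel] at this
    linarith
  have b1 : δ * (F1 : ℝ) ≤ b.x0 := by
    have := mul_le_mul_of_nonneg_left (Int.floor_le (b.x0 / δ)) hδ.le
    rwa [cancel] at this
  have b2 : b.x0 < δ * (F1 : ℝ) + δ := by
    have := mul_lt_mul_of_pos_left (Int.lt_floor_add_one (b.x0 / δ)) hδ
    rw [cancel] at this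
    linarith
  have d1 : b.s0 ≤ δ * (F3 : ℝ) := by
    have := mul_le_mul_of_nonneg_left (Int.le_ceil (b.s0 / δ)) hδ.le
    rwa [cancel] at this
  have d2 : δ * (F3 : ℝ) < b.s0 + δ := by
    have := mul_lt_mul_of_pos_left (Int.ceil_lt_add_one (b.s0 / δ)) hδ
    rw [mul_add, cancel] at this
    linarith
  have n1 : δ * (N : ℝ) ≤ b.e / 4 := by
    have := mul_le_mul_of_nonneg_left (Nat.floor_le (by positivity : 0 ≤ b.e / (4 * δ))) hδ.le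
    have e : δ * (b.e / (4 * δ)) = b.e / 4 := by field_simp
    rwa [e] at this
  have n2 : b.e / 8 ≤ δ * (N : ℝ) := by
    have := mul_lt_mul_of_pos_left (Nat.lt_floor_add_one (b.e / (4 * δ))) hδ
    have e : δ * (b.e / (4 * δ)) = b.e / 4 := by field_simp
    rw [e] at this
    linarith
  have n3 : 1 ≤ N := by
    rw [hN, Nat.one_le_floor_iff, le_div_iff₀ (by positivity)]
    linarith
  have hρN : 3 * (R' + 1) ≤ δ * ((ρ : ℝ) * N) := by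
    rw [div_le_iff₀ he] at hρ
    have h1 : (ρ : ℝ) * (b.e / 8) ≤ ρ * (δ * N) := mul_le_mul_of_nonneg_left n2 (by positivity)
    nlinarith
  refine ⟨(0, A2), N, F1, F3 - A2, ?_, n3, ⟨?_, ?_⟩, ?_, ?_, ?_, ?_⟩
  · have hs := GFF.sqrt3_le
    have hs0 : (0 : ℝ) ≤ √3 := by positivity
    unfold GFF.pos
    rw [Prod.norm_def, sup_le_iff, Real.norm_eq_abs, Real.norm_eq_abs]
    simp only [Prod.smul_mk, Prod.mk_sub_mk, smul_eq_mul, Int.cast_zero, zero_add]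
    have e1 : δ * ((A2 : ℝ) / 2) - b.y0 / 2 = -((b.y0 - δ * A2) * (1 / 2)) := by ring
    have e2 : δ * ((A2 : ℝ) * (√3 / 2)) - b.y0 * (√3 / 2) = -((b.y0 - δ * A2) * (√3 / 2)) := by ring
    have h0 : 0 ≤ b.y0 - δ * A2 := by linarith
    rw [e1, e2, abs_neg, abs_neg, abs_of_nonneg (by positivity), abs_of_nonneg (by positivity)]
    constructor
    · nlinarith
    · nlinarith
  · refine zabs hδ (le_trans ?_ hρN)
    rw [abs_le]
    constructor <;> linarith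
  · refine zabs hδ (le_trans ?_ hρN)
    push_cast
    rw [abs_le, mul_sub]
    constructor <;> linarith
  · rintro ⟨q1, q2⟩ hq
    have hq' : _ ∈ cell b.x0 b.y0 b.s0 := hq
    unfold Top.cell at hq'
    rw [Set.mem_ofPred_eq, c1_pos, c2_pos] at hq'
    simp only [Prod.mk_add_mk, Int.cast_add, mul_add, Int.cast_zero, mul_zero, add_zero] at hq'
    obtain ⟨h1, h2, h3⟩ := hq'
    refine ⟨zle hδ ?_, zle hδ ?_, zle hδ ?_, zabs hδ (le_trans ?_ hρN),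
      zabs hδ (le_trans ?_ hρN)⟩ <;> push_cast <;>
      first | (rw [abs_le]; constructor <;> linarith) | linarith
  · rintro ⟨q1, q2⟩ hq
    have hq' : _ ∈ b.K1 := hq
    unfold PW.K1 at hq'
    rw [Set.mem_ofPred_eq, c1_pos, c2_pos] at hq'
    simp only [Prod.mk_add_mk, Int.cast_add, mul_add, Int.cast_zero, mul_zero, add_zero,
      abs_le] at hq'
    obtain ⟨h1, ⟨h2, h3⟩, h4, h5⟩ := hq'
    refine ⟨zle hδ ?_, zabs hδ (le_trans ?_ hρN), zabs hδ (le_trans ?_ hρN)⟩ <;> push_cast <;>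
      first | (rw [abs_le]; constructor <;> linarith) | linarith
  · rintro ⟨q1, q2⟩ hq
    have hq' : _ ∈ b.K2 := hq
    unfold PW.K2 at hq'
    rw [Set.mem_ofPred_eq, c1_pos, c2_pos] at hq'
    simp only [Prod.mk_add_mk, Int.cast_add, mul_add, Int.cast_zero, mul_zero, add_zero,
      abs_le] at hq'
    obtain ⟨h1, h0, ⟨h2, h3⟩, h4, h5⟩ := hq'
    refine ⟨zle hδ ?_, zle hδ ?_, zabs hδ (le_trans ?_ hρN), zabs hδ (le_trans ?_ hρN)⟩ <;>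
      push_cast <;> first | (rw [abs_le]; constructor <;> linarith) | linarith
  · rintro ⟨q1, q2⟩ hq
    have hq' : _ ∈ b.K3 := hq
    unfold PW.K3 at hq'
    rw [Set.mem_ofPred_eq, c1_pos, c2_pos] at hq'
    simp only [Prod.mk_add_mk, Int.cast_add, mul_add, Int.cast_zero, mul_zero, add_zero,
      abs_le] at hq'
    obtain ⟨h1, h0, h0', ⟨h2, h3⟩, h4, h5⟩ := hq'
    refine ⟨zle hδ ?_, zle hδ ?_, zle hδ ?_, zabs hδ (le_trans ?_ hρN),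
      zabs hδ (le_trans ?_ hρN)⟩ <;> push_cast <;>
      first | (rw [abs_le]; constructor <;> linarith) | linarith

/-! ### Translations -/

lemma pb_back (a : ℤ × ℤ) (h : Hgt) : pb (fun q => q + a) (pb (fun q => q - a) h) = h := by
  funext q
  simp [pb]

variable {f g χ : ℝ × ℝ → ℝ} {K δ : ℝ}

lemma ev_Wd_back (hf : Csts f K) (hδ : 0 < δ) (a : ℤ × ℤ) (h : Hgt) :
    ev (Wd δ f 0) (pb (fun q => q - a) h) = ev (Wd δ f a) h := by
  rw [← ev_Wd_pb hf hδ a, pb_back]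

lemma ev_nW_back (hf : Csts f K) (hδ : 0 < δ) (a : ℤ × ℤ) (h : Hgt) :
    ev (nW δ f 0) (pb (fun q => q - a) h) = ev (nW δ f a) h := by
  unfold nW
  rw [ev_smul, ev_smul, ev_Wd_back hf hδ, mass_Wd_shift hf hδ a]

lemma ev_zW_back (hg : Csts g K) {K' : ℝ} (hf : Csts f K') (hδ : 0 < δ) (a : ℤ × ℤ) (h : Hgt) :
    ev (zW δ g f 0) (pb (fun q => q - a) h) = ev (zW δ g f a) h := by
  unfold zW
  rw [ev_sub, ev_sub, ev_smul, ev_smul, ev_Wd_back hg hδ, ev_nW_back hf hδ,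
    mass_Wd_shift hg hδ a]

lemma gffCov_smul (g : ℝ × ℝ → ℝ) (z : ℝ) :
    GFF.gffCov (fun x => z * g x) (fun x => z * g x) = z ^ 2 * GFF.gffCov g g :=
  P145.FA.Use.gffCov_smul g z

lemma lat_of_ne {b : Set (ℝ × ℝ)} (hf : TestOn b f) (hK : Csts f K) (hδ : 0 < δ)
    {a q : ℤ × ℤ} (h : Wd δ f a q ≠ 0) : q + a ∈ lat δ b :=
  hf.2.2 (subset_tsupport _ (Wd_supp hK hδ h))

/-- The functional `Wd` is local. -/
lemma loc_Wd {A : Set (ℝ × ℝ)} (hK : Csts f K) (hf : ∀ x, f x ≠ 0 → x ∈ A) (hδ : 0 < δ) :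
    Loc (lat δ A) (ev (Wd δ f 0)) := by
  refine ev_loc _ fun q hq => ?_
  rw [Finsupp.mem_support_iff] at hq
  have h1 := hf _ (Wd_supp hK hδ hq)
  rw [add_zero] at h1
  exact h1

/-- Gaussian localiser. -/
noncomputable def gl (φ : (ℤ × ℤ) →₀ ℝ) (A : ℝ) (h : Hgt) : ℝ :=
  Real.exp (-((ev φ h) ^ 2 / (2 * A ^ 2)))

lemma gl_pos (φ : (ℤ × ℤ) →₀ ℝ) (A : ℝ) (h : Hgt) : 0 < gl φ A h := Real.exp_pos _

lemma gl_le_one (φ : (ℤ × ℤ) →₀ ℝ) (A : ℝ) (h : Hgt) : gl φ A h ≤ 1 := by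
  unfold gl
  rw [Real.exp_le_one_iff]
  have : 0 ≤ (ev φ h) ^ 2 / (2 * A ^ 2) := by positivity
  linarith

lemma measurable_gl (φ : (ℤ × ℤ) →₀ ℝ) (A : ℝ) : Measurable (gl φ A) :=
  Real.measurable_exp.comp (((measurable_ev φ).pow_const 2).div_const _).neg

lemma one_sub_gl (φ : (ℤ × ℤ) →₀ ℝ) (A : ℝ) (h : Hgt) :
    1 - gl φ A h ≤ (ev φ h) ^ 2 / (2 * A ^ 2) := by
  unfold gl
  have := Real.add_one_le_exp (-((ev φ h) ^ 2 / (2 * A ^ 2)))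
  linarith

/-- **Product Schwinger-Dyson statement in a triangular pinwheel.** -/
theorem fa_box {P : Measure Fld} (hP : GFF.Plane P) {A0 : ℝ} (hA0 : 0 ≤ A0)
    (hA : ∀ x : ℤ × ℤ, var2 P x ≤ A0 * (1 + |(x.1 : ℝ)| + |(x.2 : ℝ)|)) {κ : ℝ}
    (hclt : CLT P κ) {δ : ℕ → ℝ} (hδ : Tendsto δ atTop (𝓝[>] 0)) (b : PW) (he : 0 < b.e)
    {f0 ψ χ ρ1 ρ3 : ℝ × ℝ → ℝ} (hf0 : TestOn b.box f0)
    (hψ : TestOn b.box ψ) (hχ : TestOn b.box χ) (iχ : ∫ x, χ x = 1) (hψχ : ∀ x, ψ x * χ x = 0)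
    (hρ1 : TestOn b.K1 ρ1) (iρ1 : ∫ x, ρ1 x = 1) (hρ3 : TestOn b.K3 ρ3) (iρ3 : ∫ x, ρ3 x = 1)
    {L : ℝ} (hL : 0 < L) (G1 G2 G3 : ℕ → Hgt → ℂ)
    (l1 : ∀ n, Loc (lat (δ n) b.K1) (G1 n)) (l2 : ∀ n, Loc (lat (δ n) b.K2) (G2 n))
    (l3 : ∀ n, Loc (lat (δ n) b.K3) (G3 n)) (b2 : ∀ n h, ‖G2 n h‖ ≤ 1)
    (b1 : ∀ n h, ‖G1 n h‖ ≤ gl (nW (δ n) ρ1 0) L h)
    (b3 : ∀ n h, ‖G3 n h‖ ≤ gl (nW (δ n) ρ3 0) L h) :
    Tendsto (fun n => ∫ h, Yf (Wd (δ n) f0 0) (zW (δ n) (fun x => -lap ψ x) χ 0)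
      (Real.exp (-(κ * ∫ x, ψ x * f0 x) - (κ / 2) * ∫ x, ψ x * (-lap ψ x))) h *
        G1 n h * G2 n h * G3 n h ∂(mu0 P)) atTop (𝓝 0) := by
  have := hP.prob
  obtain ⟨ρ, hgeo⟩ := geo b he
  have hgb : TestOn b.box (fun x => -lap ψ x) := hψ.lap.neg
  obtain ⟨k0, kf0⟩ := exists_csts hf0.1 hf0.2.1
  obtain ⟨k1, kψ⟩ := exists_csts hψ.1 hψ.2.1
  obtain ⟨k2, kχ⟩ := exists_csts hχ.1 hχ.2.1
  obtain ⟨k3, kρ1⟩ := exists_csts hρ1.1 hρ1.2.1
  obtain ⟨k4, kρ3⟩ := exists_csts hρ3.1 hρ3.2.1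
  obtain ⟨k5, kg⟩ := exists_csts hgb.1 hgb.2.1
  have hg0 : ∫ x, -lap ψ x = 0 := by rw [integral_neg, int_lap hψ.1 hψ.2.1, neg_zero]
  obtain ⟨d1, hd1, -, happ1⟩ := app_nW kχ iχ
  obtain ⟨d2, hd2, -, happ2⟩ := app_zW kχ iχ kg hg0
  obtain ⟨d3, hd3, -, happ3⟩ := app_nW kρ1 iρ1
  obtain ⟨d4, hd4, -, happ4⟩ := app_nW kρ3 iρ3
  have hsmall : ∀ᶠ n in atTop, 0 < δ n ∧ δ n ≤ 1 ∧ 8 * δ n ≤ b.e ∧ δ n ≤ d1 ∧ δ n ≤ d2 ∧
      δ n ≤ d3 ∧ δ n ≤ d4 := by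
    have h0 : Tendsto δ atTop (𝓝 0) := hδ.mono_right nhdsWithin_le_nhds
    have hpos : ∀ᶠ n in atTop, 0 < δ n := hδ.eventually self_mem_nhdsWithin
    filter_upwards [hpos, h0.eventually (ge_mem_nhds one_pos),
      h0.eventually (ge_mem_nhds (show 0 < b.e / 8 by positivity)), h0.eventually (ge_mem_nhds hd1),
      h0.eventually (ge_mem_nhds hd2), h0.eventually (ge_mem_nhds hd3),
      h0.eventually (ge_mem_nhds hd4)] with n a1 a2 a3 a4 a5 a6 a7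
    exact ⟨a1, a2, by linarith, a4, a5, a6, a7⟩
  obtain ⟨n0, hn0⟩ := eventually_atTop.1 hsmall
  rw [← tendsto_add_atTop_iff_nat n0]
  set d : ℕ → ℝ := fun n => δ (n + n0) with hd
  have hdt : Tendsto d atTop (𝓝[>] 0) := hδ.comp (tendsto_add_atTop_nat n0)
  have hdn : ∀ n, 0 < d n ∧ d n ≤ 1 ∧ 8 * d n ≤ b.e ∧ d n ≤ d1 ∧ d n ≤ d2 ∧ d n ≤ d3 ∧
      d n ≤ d4 := fun n => hn0 (n + n0) (by omega)
  choose a N xl sr hnear hN1 hbox hB hK1 hK2 hK3 using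
    fun n => hgeo (d n) (hdn n).1 (hdn n).2.1 (hdn n).2.2.1
  set x0 : ℝ × ℝ := (b.y0 / 2, b.y0 * (√3 / 2)) with hx0
  have hNear : Near d a x0 := ⟨fun n => (hdn n).1, hnear⟩
  obtain ⟨A1, M1⟩ := happ1 d a x0 hNear (fun n => (hdn n).2.2.2.1)
  obtain ⟨A2, M2⟩ := happ2 d a x0 hNear (fun n => (hdn n).2.2.2.2.1)
  obtain ⟨A3, M3⟩ := happ3 d a x0 hNear (fun n => (hdn n).2.2.2.2.2.1)
  obtain ⟨A4, M4⟩ := happ4 d a x0 hNear (fun n => (hdn n).2.2.2.2.2.2)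
  have A0' := app_Wd kf0 hNear (fun n => (hdn n).2.1)
  -- the data of the half plane statement
  have vanish : ∀ {f : ℝ × ℝ → ℝ}, TestOn b.box f → ∀ x : ℝ × ℝ, x.2 ≤ 0 → f (x + x0) = 0 := by
    intro f hf x hxx
    by_contra h0
    have h1 : x + x0 ∈ b.box := hf.2.2 (subset_tsupport _ h0)
    have h2 : b.y0 < c2 (x + x0) := h1.2.1
    have h3 : (0 : ℝ) < √3 := by positivity
    have e : c2 (x + x0) = 2 * x.2 / √3 + b.y0 := by
      unfold Top.c2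
      rw [hx0, Prod.snd_add]
      field_simp
    rw [e] at h2
    have h4 : 2 * x.2 / √3 ≤ 0 := div_nonpos_of_nonpos_of_nonneg (by linarith) h3.le
    linarith
  have hdat : SDdat (fun x => f0 (x + x0)) (fun x => ψ (x + x0)) (fun x => χ (x + x0)) :=
    ⟨sm_add hf0.1 x0, cs_addr hf0.2.1 x0, vanish hf0, sm_add hψ.1 x0, cs_addr hψ.2.1 x0,
      vanish hψ, sm_add hχ.1 x0, cs_addr hχ.2.1 x0, vanish hχ, by
        have : ∀ x, ψ (x + x0) * χ (x + x0) = 0 := fun x => hψχ _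
        simp [this]⟩
  have A2' : App d (fun x => -lap (fun x => ψ (x + x0)) x)
      (fun n => zW (d n) (fun x => -lap ψ x) χ (a n)) := by
    have e : (fun x => -lap (fun x => ψ (x + x0)) x) = fun x => -lap ψ (x + x0) := by
      funext x; rw [lap_add]
    rw [e]
    exact A2
  have hSD := sdseq hP hA0 hA hclt hdt hdat A0' A2' A1 M2 M1
  have e1 : ∫ x, ψ (x + x0) * f0 (x + x0) = ∫ x, ψ x * f0 x :=
    int_addr (fun x => ψ x * f0 x) x0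
  have e2 : ∫ x, ψ (x + x0) * (-lap (fun x => ψ (x + x0)) x) = ∫ x, ψ x * (-lap ψ x) := by
    have : ∀ x, ψ (x + x0) * (-lap (fun x => ψ (x + x0)) x) =
        (fun x => ψ x * (-lap ψ x)) (x + x0) := fun x => by rw [lap_add]
    simp only [this]
    exact int_addr (fun x => ψ x * (-lap ψ x)) x0
  rw [e1, e2] at hSD
  set α : ℝ := Real.exp (-(κ * ∫ x, ψ x * f0 x) - (κ / 2) * ∫ x, ψ x * (-lap ψ x)) with hα
  obtain ⟨hinv, -, -, -⟩ := legs_T hP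
  -- the translated functionals
  set T : ℕ → Hgt → Hgt := fun n => pb (fun q => q - a n) with hT
  have hTm : ∀ n, (mu0 P).map (T n) = mu0 P := by
    intro n
    have h1 := hinv (-a n)
    have e : T n = pb (fun q => q + -a n) := by
      rw [hT]
      simp only [sub_eq_add_neg]
    rw [e]
    exact h1
  have hmT : ∀ n, Measurable (T n) := fun n => measurable_pbS _
  have hLoc : ∀ {K : Set (ℝ × ℝ)} {A : Set (ℤ × ℤ)} {G : Hgt → ℂ} {n : ℕ},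
      Loc (lat (d n) K) G → (∀ q, q + a n ∈ lat (d n) K → q ∈ A) → Loc A (fun h => G (T n h)) := by
    intro K A G n hl hA
    refine hl.pull (r := fun q => q - a n) fun q hq => hA _ ?_
    rw [sub_add_cancel]
    exact hq
  have hgl1 : ∀ n h, gl (nW (d n) ρ1 0) L (T n h) = gl (nW (d n) ρ1 (a n)) L h := by
    intro n h
    unfold gl
    rw [hT]
    simp only
    rw [ev_nW_back kρ1 (hdn n).1]
  have hgl3 : ∀ n h, gl (nW (d n) ρ3 0) L (T n h) = gl (nW (d n) ρ3 (a n)) L h := by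
    intro n h
    unfold gl
    rw [hT]
    simp only
    rw [ev_nW_back kρ3 (hdn n).1]
  obtain ⟨C, hC, hgint⟩ := loc_int L hL
  have hAdm : ∀ {A : Set (ℤ × ℤ)} {G : Hgt → ℂ} {φ : (ℤ × ℤ) →₀ ℝ}, mass φ = 1 → Loc A G →
      (∀ h, ‖G h‖ ≤ gl φ L h) → Adm P A G ∧ ∫ h, ‖G h‖ ∂(mu0 P) ≤ C := by
    intro A G φ hm hl hb
    obtain ⟨i1, i2⟩ := hgint P φ hm
    have hi : Integrable G (mu0 P) :=
      Integrable.mono' (g := gl φ L) i1 hl.measurableC.aestronglyMeasurable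
        (Eventually.of_forall hb)
    exact ⟨⟨hl, ⟨1, fun h => (hb h).trans (gl_le_one _ _ _)⟩, hi⟩,
      (integral_mono hi.norm i1 hb).trans i2⟩
  have adm1 : ∀ n, Adm P {q | q.1 ≤ xl n - 2 * N n ∧ |q.1| ≤ ρ * N n ∧ |q.2| ≤ ρ * N n}
      (fun h => G1 (n + n0) (T n h)) ∧ ∫ h, ‖G1 (n + n0) (T n h)‖ ∂(mu0 P) ≤ C := fun n =>
    hAdm (M3 n) (hLoc (l1 (n + n0)) (fun q hq => hK1 n q hq)) fun h => by
      rw [← hgl1]; exact b1 (n + n0) _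
  have adm3 : ∀ n, Adm P {q | q.2 ≤ 0 ∧ xl n ≤ q.1 ∧ q.1 + q.2 ≤ sr n ∧ |q.1| ≤ ρ * N n ∧
      |q.2| ≤ ρ * N n} (fun h => G3 (n + n0) (T n h)) ∧
      ∫ h, ‖G3 (n + n0) (T n h)‖ ∂(mu0 P) ≤ C := fun n =>
    hAdm (M4 n) (hLoc (l3 (n + n0)) (fun q hq => hK3 n q hq)) fun h => by
      rw [← hgl3]; exact b3 (n + n0) _
  -- tightness
  have hTight : Tight P (fun n => nW (d n) χ (a n)) (fun n h => G3 (n + n0) (T n h)) := by
    refine tight_of (φ' := fun n => nW (d n) ρ3 (a n)) (c := κ / 2 *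
      GFF.gffCov (fun x => χ (x + x0) - ρ3 (x + x0)) (fun x => χ (x + x0) - ρ3 (x + x0))) M1 M4
      (fun z => ?_) hL (fun n => (adm3 n).1.loc.measurableC) fun n h => ?_
    · have hAz := (A1.sub A4).smul z
      have hcs : HasCompactSupport (fun x => χ (x + x0) - ρ3 (x + x0)) :=
        P145.FA.cs_sub (cs_addr hχ.2.1 x0) (cs_addr hρ3.2.1 x0)
      have hTest : GFF.Test (fun x => z * (χ (x + x0) - ρ3 (x + x0))) := by
        refine ⟨contDiff_const.mul ((sm_add hχ.1 x0).sub (sm_add hρ3.1 x0)), hcs.mul_left, ?_⟩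
        have i1 : Integrable (fun x => χ (x + x0)) :=
          (sm_add hχ.1 x0).continuous.integrable_of_hasCompactSupport (cs_addr hχ.2.1 x0)
        have i2 : Integrable (fun x => ρ3 (x + x0)) :=
          (sm_add hρ3.1 x0).continuous.integrable_of_hasCompactSupport (cs_addr hρ3.2.1 x0)
        rw [integral_const_mul, integral_sub i1 i2, int_addr χ x0, int_addr ρ3 x0, iχ, iρ3,
          sub_self, mul_zero]
      have h1 := app_char hP hA0 hA hclt hdt hTest hAz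
      rw [gffCov_smul (fun x => χ (x + x0) - ρ3 (x + x0)) z] at h1
      have e3 : κ * (z ^ 2 * GFF.gffCov (fun x => χ (x + x0) - ρ3 (x + x0))
          (fun x => χ (x + x0) - ρ3 (x + x0))) / 2 =
          (κ / 2 * GFF.gffCov (fun x => χ (x + x0) - ρ3 (x + x0))
          (fun x => χ (x + x0) - ρ3 (x + x0))) * z ^ 2 := by ring
      rw [e3] at h1
      refine h1.congr fun n => ?_
      simp only [ev_smul, ev_sub]
    · show ‖G3 (n + n0) (T n h)‖ ≤ gl (nW (d n) ρ3 (a n)) L h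
      rw [← hgl3]; exact b3 (n + n0) _
  have hres := fa_T hP hSD ρ N xl sr hN1 hbox ?_
    (fun n h => G1 (n + n0) (T n h)) (fun n h => G2 (n + n0) (T n h))
    (fun n h => G3 (n + n0) (T n h)) C
    (fun n => (adm1 n).1) (fun n => hLoc (l2 (n + n0)) (fun q hq => hK2 n q hq))
    (fun n => (adm3 n).1)
    (fun n h => (b1 _ _).trans (gl_le_one _ _ _)) (fun n h => b2 _ _)
    (fun n h => (b3 _ _).trans (gl_le_one _ _ _)) (fun n => (adm1 n).2) (fun n => (adm3 n).2)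
    hTight
  · refine hres.congr fun n => ?_
    have hFm : Measurable fun h => Yf (Wd (d n) f0 0) (zW (d n) (fun x => -lap ψ x) χ 0) α h *
        G1 (n + n0) h * G2 (n + n0) h * G3 (n + n0) h :=
      (((measurable_Yf _ _ _).mul (l1 _).measurableC).mul (l2 _).measurableC).mul
        (l3 _).measurableC
    have h1 := integral_map (μ := mu0 P) (hmT n).aemeasurable
      (f := fun h => Yf (Wd (d n) f0 0) (zW (d n) (fun x => -lap ψ x) χ 0) α h *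
        G1 (n + n0) h * G2 (n + n0) h * G3 (n + n0) h)
      hFm.aestronglyMeasurable
    rw [hTm n] at h1
    rw [h1]
    refine integral_congr_ae (Eventually.of_forall fun h => ?_)
    simp only
    have e4 : Yf (Wd (d n) f0 0) (zW (d n) (fun x => -lap ψ x) χ 0) α (T n h) =
        Yf (Wd (d n) f0 (a n)) (zW (d n) (fun x => -lap ψ x) χ (a n)) α h := by
      unfold Yf
      rw [hT]
      simp only
      rw [ev_Wd_back kf0 (hdn n).1, ev_zW_back kg kχ (hdn n).1]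
    rw [e4]
  · intro n q hq
    refine hB n q ?_
    rcases hq with hq | hq | hq
    · exact lat_of_ne hf0 kf0 (hdn n).1 (Finsupp.mem_support_iff.1 hq)
    · rcases zW_supp (Finsupp.mem_support_iff.1 hq) with h | h
      · exact lat_of_ne hgb kg (hdn n).1 h
      · exact lat_of_ne hχ kχ (hdn n).1 h
    · exact lat_of_ne hχ kχ (hdn n).1 (nW_supp (Finsupp.mem_support_iff.1 hq))

end Vale.Agent.P153.F.SD
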